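import Mathlib

/-!
Packed natural numbers: dot products by one multiplication, and decoding of signed digit sums.
-/

open Finset

namespace Vale.Agent.P142b

/-- The base `2 ^ 48` digits of a packed vector, least significant first. -/
def unpack : ℕ → ℕ → List ℕ
  | 0, _ => []
  | n + 1, p => p % 2 ^ 48 :: unpack n (p / 2 ^ 48)

/-- Packs a vector with width 128, the first entry lowest. -/
def pkL : List ℕ → ℕ
  | [] => 0
  | a :: l => a + 2 ^ 128 * pkL l

/-- Packs a vector with width 128, the first entry highest. -/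
def pkR : List ℕ → ℕ
  | [] => 0
  | a :: l => a * 2 ^ (128 * l.length) + pkR l

/-- The dot product of two vectors. -/
def dotN : List ℕ → List ℕ → ℕ
  | a :: l, b :: m => a * b + dotN l m
  | _, _ => 0

lemma unpack_length : ∀ (n p : ℕ), (unpack n p).length = n := by
  intro n
  induction n with
  | zero => simp [unpack]
  | succ n ih => intro p; simp [unpack, ih]

lemma unpack_lt : ∀ (n p : ℕ), ∀ a ∈ unpack n p, a < 2 ^ 48 := by
  intro n
  induction n with
  | zero => simp [unpack]
  | succ n ih =>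
    intro p a ha
    simp only [unpack, List.mem_cons] at ha
    rcases ha with rfl | ha
    · exact Nat.mod_lt _ (by norm_num)
    · exact ih _ a ha

lemma getD_unpack_lt (n p k : ℕ) : (unpack n p).getD k 0 < 2 ^ 48 := by
  rcases lt_or_ge k (unpack n p).length with h | h
  · rw [List.getD_eq_getElem _ _ h]; exact unpack_lt n p _ (List.getElem_mem _)
  · rw [List.getD_eq_default _ _ h]; norm_num

lemma pkR_lt : ∀ (l : List ℕ), (∀ a ∈ l, a < 2 ^ 48) → pkR l < 2 ^ (128 * l.length) := by
  intro l
  induction l with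
  | nil => simp [pkR]
  | cons a l ih =>
    intro h
    have h1 := ih fun b hb => h b (by simp [hb])
    have ha := h a (by simp)
    simp only [pkR, List.length_cons]
    rw [Nat.mul_succ, pow_add]
    calc a * 2 ^ (128 * l.length) + pkR l < a * 2 ^ (128 * l.length) + 2 ^ (128 * l.length) := by omega
      _ = (a + 1) * 2 ^ (128 * l.length) := by ring
      _ ≤ 2 ^ 128 * 2 ^ (128 * l.length) := Nat.mul_le_mul_right _ (le_trans ha (by norm_num))
      _ = _ := by ring

lemma dot_le : ∀ (l m : List ℕ), (∀ a ∈ l, a < 2 ^ 48) → (∀ a ∈ m, a < 2 ^ 48) →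
    dotN l m ≤ l.length * 2 ^ 96 := by
  intro l
  induction l with
  | nil => simp [dotN]
  | cons a l ih =>
    intro m hl hm
    rcases m with _ | ⟨b, m⟩
    · simp [dotN]
    · have := ih m (fun x hx => hl x (by simp [hx])) fun x hx => hm x (by simp [hx])
      have hab : a * b ≤ 2 ^ 96 := le_trans
        (Nat.mul_le_mul (hl a (by simp)).le (hm b (by simp)).le) (by norm_num)
      simp only [dotN, List.length_cons]
      linarith

lemma pk_split : ∀ (l m : List ℕ), l.length = m.length → 1 ≤ l.length → l.length < 2 ^ 20 →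
    (∀ a ∈ l, a < 2 ^ 48) → (∀ a ∈ m, a < 2 ^ 48) →
    ∃ lo hi, pkL l * pkR m =
        lo + 2 ^ (128 * (l.length - 1)) * dotN l m + 2 ^ (128 * l.length) * hi ∧
      lo * 2 ^ 128 ≤ l.length * 2 ^ 98 * 2 ^ (128 * (l.length - 1)) := by
  intro l
  induction l with
  | nil => simp
  | cons a l ih =>
    intro m hlen h1 h2 hl hm
    rcases m with _ | ⟨b, m⟩
    · simp at hlen
    simp only [List.length_cons, Nat.add_right_cancel_iff] at hlen h2
    have ha : a < 2 ^ 48 := hl a (by simp)
    have hm' : ∀ x ∈ m, x < 2 ^ 48 := fun x hx => hm x (by simp [hx])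
    rcases l with _ | ⟨a', l'⟩
    · obtain rfl : m = [] := by simpa using hlen.symm
      exact ⟨0, 0, by simp [pkL, pkR, dotN], by simp⟩
    set l := a' :: l' with hl'
    obtain ⟨lo, hi, he, hlo⟩ := ih m hlen (by simp [hl']) (by omega)
      (fun x hx => hl x (by simp [hx])) hm'
    set n := l.length with hn
    obtain ⟨p, hp⟩ : ∃ p, n = p + 1 := ⟨l'.length, by simp [hn, hl']⟩
    refine ⟨a * pkR m + 2 ^ 128 * lo, b * pkL l + hi, ?_, ?_⟩
    · simp only [pkL, pkR, dotN, List.length_cons, ← hlen, ← hn, Nat.add_sub_cancel]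
      rw [show 128 * (n + 1) = 128 + 128 * n by ring, pow_add]
      rw [show 128 * n = 128 + 128 * (n - 1) by omega, pow_add]
      rw [show 128 * n = 128 + 128 * (n - 1) by omega, pow_add] at he
      linear_combination (2 ^ 128 : ℕ) * he
    · simp only [List.length_cons, ← hn, Nat.add_sub_cancel]
      have hB : pkR m ≤ 2 ^ 49 * 2 ^ (128 * (n - 1)) := by
        rcases m with _ | ⟨b', m'⟩
        · simp only [List.length_nil] at hlen; omega
        · have h3 := pkR_lt m' fun x hx => hm' x (by simp [hx])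
          simp only [List.length_cons] at hlen
          rw [hlen, Nat.add_sub_cancel]
          simp only [pkR]
          have hb' := hm' b' (by simp)
          have h4 : b' * 2 ^ (128 * m'.length) ≤ 2 ^ 48 * 2 ^ (128 * m'.length) :=
            Nat.mul_le_mul_right _ hb'.le
          omega
      have e : 2 ^ (128 * n) = 2 ^ 128 * 2 ^ (128 * (n - 1)) := by
        rw [← pow_add]; congr 1; omega
      rw [e]
      calc (a * pkR m + 2 ^ 128 * lo) * 2 ^ 128
          = a * pkR m * 2 ^ 128 + 2 ^ 128 * (lo * 2 ^ 128) := by ring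
        _ ≤ 2 ^ 48 * (2 ^ 49 * 2 ^ (128 * (n - 1))) * 2 ^ 128
            + 2 ^ 128 * (n * 2 ^ 98 * 2 ^ (128 * (n - 1))) :=
          Nat.add_le_add (Nat.mul_le_mul_right _ (Nat.mul_le_mul ha.le hB))
            (Nat.mul_le_mul_left _ hlo)
        _ ≤ (n + 1) * 2 ^ 98 * (2 ^ 128 * 2 ^ (128 * (n - 1))) := by
          generalize 2 ^ (128 * (n - 1)) = Q
          nlinarith

lemma mid_eq (l m : List ℕ) (hlen : l.length = m.length) (h1 : 1 ≤ l.length)
    (h2 : l.length < 2 ^ 20) (hl : ∀ a ∈ l, a < 2 ^ 48) (hm : ∀ a ∈ m, a < 2 ^ 48) :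
    pkL l * pkR m / 2 ^ (128 * (l.length - 1)) % 2 ^ 128 = dotN l m := by
  obtain ⟨lo, hi, he, hlo⟩ := pk_split l m hlen h1 h2 hl hm
  set n := l.length
  have hlo' : lo < 2 ^ (128 * (n - 1)) := by
    refine Nat.lt_of_mul_lt_mul_right (a := 2 ^ 128) (lt_of_le_of_lt hlo ?_)
    rw [mul_comm]
    refine Nat.mul_lt_mul_of_pos_left ?_ (by positivity)
    nlinarith
  rw [he, show 128 * n = 128 * (n - 1) + 128 by omega, pow_add,
    show lo + 2 ^ (128 * (n - 1)) * dotN l m + 2 ^ (128 * (n - 1)) * 2 ^ 128 * hi =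
      lo + 2 ^ (128 * (n - 1)) * (dotN l m + 2 ^ 128 * hi) by ring,
    Nat.add_mul_div_left _ _ (by positivity), Nat.div_eq_of_lt hlo', zero_add,
    Nat.add_mul_mod_self_left, Nat.mod_eq_of_lt]
  exact lt_of_le_of_lt (dot_le l m hl hm) (by nlinarith)

/-- The offset of the signed entries. -/
def off : ℤ := 140737488355328

lemma dot_offset : ∀ (l m : List ℕ), l.length = m.length →
    (dotN l m : ℤ) - off * ((l.sum : ℤ) + m.sum) + l.length * (off * off) =
      ∑ k ∈ range l.length, ((l.getD k 0 : ℤ) - off) * ((m.getD k 0 : ℤ) - off) := by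
  intro l
  induction l with
  | nil => intro m h; simp at h; simp [List.length_eq_zero_iff.1 h.symm, dotN]
  | cons a l ih =>
    intro m hlen
    rcases m with _ | ⟨b, m⟩
    · simp at hlen
    simp only [List.length_cons, Nat.add_right_cancel_iff] at hlen
    rw [List.length_cons, sum_range_succ']
    simp only [List.getD_cons_succ, List.getD_cons_zero, dotN, List.sum_cons]
    rw [← ih m hlen]
    push_cast
    ring

/-- The packed value of a list of signed digits of width 168. -/
def pkZ : List ℤ → ℤ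
  | [] => 0
  | a :: l => a + 2 ^ 168 * pkZ l

lemma pkZ_eq : ∀ (l : List ℤ), pkZ l = ∑ i ∈ range l.length, l.getD i 0 * 2 ^ (168 * i) := by
  intro l
  induction l with
  | nil => simp [pkZ]
  | cons a l ih =>
    rw [pkZ, ih, List.length_cons, sum_range_succ', mul_sum, add_comm]
    congr 1
    · refine sum_congr rfl fun i _ => ?_
      rw [List.getD_cons_succ, Nat.mul_succ, pow_add]; ring
    · simp

lemma digits_zero : ∀ (n : ℕ) (d : ℕ → ℤ), (∀ i < n, |d i| < 2 ^ 168) →
    ∑ i ∈ range n, d i * 2 ^ (168 * i) = 0 → ∀ i < n, d i = 0 := by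
  intro n
  induction n with
  | zero => simp
  | succ n ih =>
    intro d hd hs
    rw [sum_range_succ'] at hs
    have e : ∑ i ∈ range n, d (i + 1) * (2 : ℤ) ^ (168 * (i + 1)) =
        2 ^ 168 * ∑ i ∈ range n, d (i + 1) * 2 ^ (168 * i) := by
      rw [mul_sum]; refine sum_congr rfl fun i _ => ?_
      rw [Nat.mul_succ, pow_add]; ring
    simp only [Nat.mul_zero, pow_zero, mul_one] at hs
    rw [e] at hs
    have h0 : d 0 = 0 := Int.eq_zero_of_abs_lt_dvd
      (⟨-∑ i ∈ range n, d (i + 1) * 2 ^ (168 * i), by linarith⟩) (hd 0 (by omega))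
    rw [h0, add_zero] at hs
    have h1 := ih (fun i => d (i + 1)) (fun i hi => hd _ (by omega))
      ((mul_eq_zero.1 hs).resolve_left (by norm_num))
    intro i hi
    rcases i with _ | i
    · exact h0
    · exact h1 i (by omega)

end Vale.Agent.P142b
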