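import Vale.Agent.P142b.Mono
import Vale.Agent.P142b.Pack

/-!
Term lists and their values.
-/

noncomputable section

open Finset
open scoped ComplexConjugate

namespace Vale.Agent.P142b

/-- Terms: a code and an integer coefficient. -/
abbrev Tms := List (ℕ × ℤ)

/-- The value of a term list. -/
def evT (n : ℕ) (v : ℕ → ℂ) (l : Tms) : ℂ := (l.map fun t => (t.2 : ℂ) * ev n v t.1).sum

@[simp] lemma evT_nil (n : ℕ) (v : ℕ → ℂ) : evT n v [] = 0 := rfl

@[simp] lemma evT_cons (n : ℕ) (v : ℕ → ℂ) (t : ℕ × ℤ) (l : Tms) :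
    evT n v (t :: l) = (t.2 : ℂ) * ev n v t.1 + evT n v l := by simp [evT]

@[simp] lemma evT_append (n : ℕ) (v : ℕ → ℂ) (l m : Tms) :
    evT n v (l ++ m) = evT n v l + evT n v m := by simp [evT]

lemma evT_flatMap {α : Type} (n : ℕ) (v : ℕ → ℂ) (L : List α) (f : α → Tms) :
    evT n v (L.flatMap f) = (L.map fun a => evT n v (f a)).sum := by
  induction L with
  | nil => simp
  | cons a L ih => simp [List.flatMap_cons, ih]

lemma evT_flatten (n : ℕ) (v : ℕ → ℂ) (L : List Tms) :
    evT n v L.flatten = (L.map (evT n v)).sum := by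
  induction L with
  | nil => simp
  | cons a L ih => simp [List.flatten_cons, ih]

end Vale.Agent.P142b
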