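import Vale.Agent.P142.AreaThm

/-!
The area theorem, with any finite number of coefficients.
-/

noncomputable section

open Set Filter MeasureTheory Metric Vale.Agent.P142
open scoped Topology Real ComplexConjugate ENNReal

namespace Vale.Agent.P142b

lemma avg_sq_lower : ∀ (J : ℕ) (c : ℕ → ℂ) {k h : ℂ → ℂ}, DifferentiableOn ℂ h (ball 0 1) →
    (∀ z ∈ ball (0 : ℂ) 1, k z = ∑ i ∈ Finset.range J, c i * z ^ i + z ^ J * h z) →
    ∀ {s : ℝ}, 0 < s → s < 1 →
    ∑ i ∈ Finset.range J, ‖c i‖ ^ 2 * s ^ (2 * i) ≤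
      Real.circleAverage (fun z => ‖k z‖ ^ 2) 0 s := by
  intro J
  induction J with
  | zero =>
    intro c k h _ _ s hs _
    simp only [Finset.range_zero, Finset.sum_empty]
    rw [Real.circleAverage_def, smul_eq_mul]
    exact mul_nonneg (by positivity) (intervalIntegral.integral_nonneg (by positivity)
      fun θ _ => sq_nonneg _)
  | succ J ih =>
    intro c k h hh hk s hs hs1
    set k1 : ℂ → ℂ := fun z => ∑ i ∈ Finset.range J, c (i + 1) * z ^ i + z ^ J * h z with hk1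
    have hk1d : DifferentiableOn ℂ k1 (ball 0 1) :=
      (DifferentiableOn.fun_sum fun i _ => (differentiableOn_id.pow i).const_mul _).add
        ((differentiableOn_id.pow J).mul hh)
    have h1 := ih (fun i => c (i + 1)) hh (k := k1) (fun z _ => rfl) hs hs1
    have hsub : closedBall (0 : ℂ) |s| ⊆ ball 0 1 := by
      rw [abs_of_pos hs]; exact closedBall_subset_ball hs1
    have hsph : sphere (0 : ℂ) |s| ⊆ ball 0 1 := sphere_subset_closedBall.trans hsub
    set H : ℂ → ℂ := fun z => conj (c 0) * z * k1 z with hH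
    have hHd : DifferentiableOn ℂ H (ball 0 1) := (differentiableOn_id.const_mul _).mul hk1d
    have hHa : Real.circleAverage (fun z => (H z).re) 0 s = 0 := by
      have := Complex.reCLM.circleAverage_comp_comm
        ((hHd.continuousOn.mono hsph).circleIntegrable' (c := 0) (R := s))
      simp only [Function.comp_def, Complex.reCLM_apply] at this
      rw [this, (hHd.mono (closure_ball_subset_closedBall.trans hsub)).diffContOnCl.circleAverage]
      simp [H]
    have hi1 : CircleIntegrable (fun z => ‖k1 z‖ ^ 2) 0 s :=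
      ((hk1d.continuousOn.mono hsph).norm.pow 2).circleIntegrable'
    have hi2 : CircleIntegrable (fun z => (H z).re) 0 s :=
      (Complex.continuous_re.comp_continuousOn (hHd.continuousOn.mono hsph)).circleIntegrable'
    have e : EqOn (fun z => ‖k z‖ ^ 2)
        (fun z => (‖c 0‖ ^ 2 + 2 * (H z).re) + s ^ 2 * ‖k1 z‖ ^ 2) (sphere 0 |s|) := by
      intro z hz
      have hzn : ‖z‖ = s := by simpa [abs_of_pos hs] using hz
      have hkz : k z = c 0 + z * k1 z := by
        rw [hk z (hsph hz), Finset.sum_range_succ']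
        simp only [k1, mul_add, Finset.mul_sum, pow_zero, mul_one]
        rw [Finset.sum_congr rfl fun i _ => show c (i + 1) * z ^ (i + 1) = z * (c (i + 1) * z ^ i)
          by ring]
        ring
      simp only [hkz, H]
      rw [Complex.sq_norm, Complex.sq_norm, Complex.sq_norm, ← hzn, Complex.sq_norm]
      simp only [Complex.normSq_apply, Complex.add_re, Complex.add_im, Complex.mul_re,
        Complex.mul_im, Complex.conj_re, Complex.conj_im]
      ring
    have hi3 : CircleIntegrable (fun z => 2 * (H z).re) 0 s := hi2.const_smul (a := (2 : ℝ))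
    have hi4 : CircleIntegrable (fun z => ‖c 0‖ ^ 2 + 2 * (H z).re) 0 s :=
      (circleIntegrable_const _ _ _).add hi3
    have hi5 : CircleIntegrable (fun z => s ^ 2 * ‖k1 z‖ ^ 2) 0 s := hi1.const_smul (a := s ^ 2)
    rw [Real.circleAverage_congr_sphere e, Real.circleAverage_fun_add hi4 hi5,
      Real.circleAverage_fun_add (circleIntegrable_const _ _ _) hi3, Real.circleAverage_const]
    rw [show Real.circleAverage (fun z => 2 * (H z).re) 0 s = 0 by
        simp only [← smul_eq_mul, Real.circleAverage_fun_smul]; simp [hHa],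
      show Real.circleAverage (fun z => s ^ 2 * ‖k1 z‖ ^ 2) 0 s
          = s ^ 2 * Real.circleAverage (fun z => ‖k1 z‖ ^ 2) 0 s by
        simp only [← smul_eq_mul, Real.circleAverage_fun_smul]]
    rw [Finset.sum_range_succ']
    have h2 := mul_le_mul_of_nonneg_left h1 (sq_nonneg s)
    rw [Finset.mul_sum] at h2
    rw [Finset.sum_congr rfl fun i _ => show ‖c (i + 1)‖ ^ 2 * s ^ (2 * (i + 1)) =
      s ^ 2 * (‖c (i + 1)‖ ^ 2 * s ^ (2 * i)) by rw [Nat.mul_succ, pow_add]; ring]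
    simp only [mul_zero, pow_zero, mul_one]
    linarith

lemma circle_lower_all {k h : ℂ → ℂ} (hk : DifferentiableOn ℂ k (ball 0 1))
    (hh : DifferentiableOn ℂ h (ball 0 1)) {J : ℕ} (c : ℕ → ℂ)
    (hk0 : ∀ z ∈ ball (0 : ℂ) 1, k z = ∑ i ∈ Finset.range J, c i * z ^ i + z ^ J * h z)
    {s : ℝ} (hs : 0 < s) (hs1 : s < 1) :
    (1 / s ^ 4 + ∑ i ∈ Finset.range J, ‖c i‖ ^ 2 * s ^ (2 * i) : ℝ) ≤
      Real.circleAverage (fun z => ‖-(z ^ 2)⁻¹ + k z‖ ^ 2) 0 s := by
  have hsub : closedBall (0 : ℂ) |s| ⊆ ball 0 1 := by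
    rw [abs_of_pos hs]; exact closedBall_subset_ball hs1
  have hsph : sphere (0 : ℂ) |s| ⊆ ball 0 1 := sphere_subset_closedBall.trans hsub
  set H : ℂ → ℂ := fun z => -2 * z ^ 2 / (s : ℂ) ^ 4 * k z with hH
  have hHd : DifferentiableOn ℂ H (ball 0 1) :=
    (((differentiableOn_id.pow 2).const_mul (-2 : ℂ)).div_const _).mul hk
  have hHa : Real.circleAverage (fun z => (H z).re) 0 s = 0 := by
    have := Complex.reCLM.circleAverage_comp_comm
      ((hHd.continuousOn.mono hsph).circleIntegrable' (c := 0) (R := s))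
    simp only [Function.comp_def, Complex.reCLM_apply] at this
    rw [this, (hHd.mono (closure_ball_subset_closedBall.trans hsub)).diffContOnCl.circleAverage]
    simp [H]
  have hi1 : CircleIntegrable (fun z => ‖k z‖ ^ 2) 0 s :=
    ((hk.continuousOn.mono hsph).norm.pow 2).circleIntegrable'
  have hi2 : CircleIntegrable (fun z => (H z).re) 0 s :=
    (Complex.continuous_re.comp_continuousOn (hHd.continuousOn.mono hsph)).circleIntegrable'
  have e : EqOn (fun z => ‖-(z ^ 2)⁻¹ + k z‖ ^ 2)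
      (fun z => (1 / s ^ 4 + ‖k z‖ ^ 2) + (H z).re) (sphere 0 |s|) := by
    intro z hz
    have hzn : ‖z‖ = s := by simpa [abs_of_pos hs] using hz
    have hz0 : z ≠ 0 := norm_pos_iff.1 (hzn ▸ hs)
    have hconj : (z ^ 2)⁻¹ = conj (z ^ 2) / (s : ℂ) ^ 4 := by
      have : z * conj z = (s : ℂ) ^ 2 := by
        rw [Complex.mul_conj, Complex.normSq_eq_norm_sq, hzn]; norm_cast
      have hs' : (s : ℂ) ≠ 0 := Complex.ofReal_ne_zero.2 hs.ne'
      field_simp
      rw [map_pow, show z ^ 2 * (conj z) ^ 2 = (z * conj z) ^ 2 by ring, this]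
      ring
    simp only [H]
    rw [Complex.sq_norm, Complex.sq_norm, Complex.normSq_add, Complex.normSq_neg,
      map_inv₀, map_pow, Complex.normSq_eq_norm_sq z, hzn, hconj]
    rw [show (-(conj (z ^ 2) / (s : ℂ) ^ 4)) * conj (k z)
        = conj (-(z ^ 2 / (s : ℂ) ^ 4) * k z) by simp, Complex.conj_re]
    rw [show -2 * z ^ 2 / (s : ℂ) ^ 4 * k z
        = 2 * (-(z ^ 2 / (s : ℂ) ^ 4) * k z) by ring]
    simp
    ring
  have hi3 : CircleIntegrable (fun z => 1 / s ^ 4 + ‖k z‖ ^ 2) 0 s :=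
    (circleIntegrable_const _ _ _).add hi1
  rw [Real.circleAverage_congr_sphere e, Real.circleAverage_fun_add hi3 hi2,
    Real.circleAverage_fun_add (circleIntegrable_const _ _ _) hi1, Real.circleAverage_const, hHa]
  linarith [avg_sq_lower J c hh hk0 hs hs1]

/-- The area of the image of an annulus from below. -/
lemma area_lower_all {P h : ℂ → ℂ} (hP : DifferentiableOn ℂ P (ball 0 1))
    (hh : DifferentiableOn ℂ h (ball 0 1)) {J : ℕ} (c : ℕ → ℂ)
    (hk0 : ∀ z ∈ ball (0 : ℂ) 1, deriv P z = ∑ i ∈ Finset.range J, c i * z ^ i + z ^ J * h z)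
    (hinj : InjOn (fun z => z⁻¹ + P z) (ball 0 1 \ {0})) {ρ r : ℝ} (hρ : 0 < ρ) (hρr : ρ < r)
    (hr : r < 1) :
    ENNReal.ofReal (π * (1 / ρ ^ 2 - 1 / r ^ 2 + ∑ i ∈ Finset.range J,
      ‖c i‖ ^ 2 / (i + 1) * (r ^ (2 * i + 2) - ρ ^ (2 * i + 2)))) ≤
      volume ((fun z => z⁻¹ + P z) '' (ball 0 r \ closedBall 0 ρ)) := by
  set g := fun z => z⁻¹ + P z with hg
  set S : Set ℂ := ball 0 r \ closedBall 0 ρ with hSdef
  have hS : MeasurableSet S := measurableSet_ball.diff measurableSet_closedBall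
  set k := deriv P with hkdef
  have hk : DifferentiableOn ℂ k (ball 0 1) := hP.deriv isOpen_ball
  have hmem : ∀ z, z ∈ S → z ∈ ball (0 : ℂ) 1 ∧ z ≠ 0 ∧ ρ < ‖z‖ ∧ ‖z‖ < r := by
    intro z hz
    obtain ⟨h1, h2⟩ := hz
    simp at h1 h2
    exact ⟨by simp; linarith, fun h => by simp [h] at h2; linarith, h2, h1⟩
  set d : ℂ → ℂ := fun z => -(z ^ 2)⁻¹ + k z with hd
  have hder : ∀ z ∈ S, HasFDerivWithinAt g (ellipseMap (d z) 0) S z := by
    intro z hz
    obtain ⟨h1, h2, -⟩ := hmem z hz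
    have := ((hasDerivAt_inv h2).add
      ((hP.differentiableAt (isOpen_ball.mem_nhds h1)).hasDerivAt)).complexToReal_fderiv
    refine (this.congr_fderiv ?_).hasFDerivWithinAt
    ext u
    simp [ellipseMap_apply, d, k]
  have hsub : S ⊆ ball 0 1 \ {0} := fun z hz =>
    mem_sdiff _ |>.2 ⟨(hmem z hz).1, by simpa using (hmem z hz).2.1⟩
  have hinj' : InjOn g S := hinj.mono hsub
  have hvol : volume (g '' S) = ∫⁻ z in S, ENNReal.ofReal (‖d z‖ ^ 2) := by
    have := lintegral_image_eq_lintegral_abs_det_fderiv_mul volume hS hder hinj' fun _ => 1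
    simp only [lintegral_one, Measure.restrict_apply_univ, mul_one, ellipseMap_det, norm_zero,
      ne_eq, OfNat.ofNat_ne_zero, not_false_eq_true, zero_pow, sub_zero, abs_pow,
      abs_norm] at this
    exact this
  rw [hvol]
  have hcpt : IsCompact (closedBall (0 : ℂ) r \ ball 0 ρ) :=
    (isCompact_closedBall _ _).diff isOpen_ball
  have hdc : ContinuousOn (fun z => ‖d z‖ ^ 2) (closedBall (0 : ℂ) r \ ball 0 ρ) := by
    refine ((ContinuousOn.add ?_ (hk.continuousOn.mono fun z hz => ?_)).norm.pow 2)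
    · refine ((continuousOn_id.pow 2).inv₀ fun z hz => pow_ne_zero 2 fun h => ?_).neg
      obtain ⟨-, h2⟩ := hz
      simp at h h2
      simp [h] at h2
      linarith
    · have := hz.1
      simp at this ⊢
      linarith
  have hsub2 : S ⊆ closedBall (0 : ℂ) r \ ball 0 ρ := by
    intro z hz
    obtain ⟨-, -, h3, h4⟩ := hmem z hz
    refine ⟨?_, ?_⟩ <;> simp <;> linarith
  have hint : IntegrableOn (fun z => ‖d z‖ ^ 2) S :=
    (hdc.integrableOn_compact hcpt).mono_set hsub2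
  rw [← ofReal_integral_eq_lintegral_ofReal hint (Eventually.of_forall fun z => sq_nonneg _)]
  refine ENNReal.ofReal_le_ofReal ?_
  rw [← integral_indicator hS, ← Complex.integral_comp_polarCoord_symm]
  have heq : ∀ p : ℝ × ℝ, p ∈ polarCoord.target →
      p.1 • S.indicator (fun z => ‖d z‖ ^ 2) (Complex.polarCoord.symm p) =
        (Ioo ρ r ×ˢ Ioo (-π) π).indicator (fun q : ℝ × ℝ => q.1 * ‖d (circleMap 0 q.1 q.2)‖ ^ 2) p := by
    rintro ⟨s, θ⟩ ⟨hs, hθ⟩
    simp only [mem_Ioi] at hs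
    have hpc : Complex.polarCoord.symm (s, θ) = circleMap 0 s θ := by
      simp [Complex.polarCoord_symm_apply, circleMap, Complex.exp_mul_I]
    rw [hpc]
    by_cases h : s ∈ Ioo ρ r
    · rw [indicator_of_mem (show ((s, θ) : ℝ × ℝ) ∈ Ioo ρ r ×ˢ Ioo (-π) π from ⟨h, hθ⟩),
        indicator_of_mem, smul_eq_mul]
      simp [S, abs_of_pos hs, h.1, h.2]
    · rw [indicator_of_notMem (fun hc : ((s, θ) : ℝ × ℝ) ∈ Ioo ρ r ×ˢ Ioo (-π) π => h hc.1), indicator_of_notMem,
        smul_zero]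
      intro hc
      simp [S, abs_of_pos hs] at hc
      exact h ⟨hc.2, hc.1⟩
  rw [setIntegral_congr_fun polarCoord.open_target.measurableSet heq,
    setIntegral_indicator (measurableSet_Ioo.prod measurableSet_Ioo),
    inter_eq_right.2 (show Ioo ρ r ×ˢ Ioo (-π) π ⊆ polarCoord.target from
      prod_mono (fun s hs => mem_Ioi.2 (hρ.trans hs.1)) subset_rfl)]
  have hF : ContinuousOn (fun q : ℝ × ℝ => q.1 * ‖d (circleMap 0 q.1 q.2)‖ ^ 2)
      (Icc ρ r ×ˢ Icc (-π) π) := by
    refine continuousOn_fst.mul (hdc.comp ?_ fun q hq => ?_)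
    · exact Continuous.continuousOn (by unfold circleMap; fun_prop)
    · obtain ⟨⟨h1, h2⟩, -⟩ := hq
      simp [abs_of_pos (hρ.trans_le h1), h1, h2]
  have hFi : IntegrableOn (fun q : ℝ × ℝ => q.1 * ‖d (circleMap 0 q.1 q.2)‖ ^ 2)
      (Ioo ρ r ×ˢ Ioo (-π) π) (volume.prod volume) :=
    (hF.integrableOn_compact (isCompact_Icc.prod isCompact_Icc)).mono_set
      (prod_mono Ioo_subset_Icc_self Ioo_subset_Icc_self)
  rw [Measure.volume_eq_prod, setIntegral_prod _ hFi]
  have hinner : ∀ s ∈ Ioo ρ r, 2 * π * (1 / s ^ 3 + (∑ i ∈ Finset.range J, ‖c i‖ ^ 2 * s ^ (2 * i)) * s) ≤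
      ∫ θ in Ioo (-π) π, s * ‖d (circleMap 0 s θ)‖ ^ 2 := by
    intro s hs
    have hs0 : 0 < s := hρ.trans hs.1
    have hlow := circle_lower_all hk hh c hk0 hs0 (hs.2.trans hr)
    rw [integral_const_mul, ← integral_Ioc_eq_integral_Ioo,
      ← intervalIntegral.integral_of_le (by linarith [Real.pi_pos])]
    have hper : Function.Periodic (fun θ => ‖d (circleMap 0 s θ)‖ ^ 2) (2 * π) := fun θ => by
      simp only [periodic_circleMap 0 s θ]
    have := hper.intervalIntegral_add_eq (-π) 0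
    rw [show -π + 2 * π = π by ring, zero_add] at this
    rw [this]
    rw [Real.circleAverage_def, smul_eq_mul] at hlow
    calc 2 * π * (1 / s ^ 3 + (∑ i ∈ Finset.range J, ‖c i‖ ^ 2 * s ^ (2 * i)) * s) = s * (2 * π * (1 / s ^ 4 + ∑ i ∈ Finset.range J, ‖c i‖ ^ 2 * s ^ (2 * i))) := by
          field_simp
      _ ≤ _ := by
          refine mul_le_mul_of_nonneg_left ?_ hs0.le
          have h2 : (2 * π) * (1 / s ^ 4 + ∑ i ∈ Finset.range J, ‖c i‖ ^ 2 * s ^ (2 * i)) ≤
              (2 * π) * ((2 * π)⁻¹ * ∫ θ in (0 : ℝ)..2 * π, ‖d (circleMap 0 s θ)‖ ^ 2) :=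
            mul_le_mul_of_nonneg_left hlow (by positivity)
          rwa [← mul_assoc (2 * π) (2 * π)⁻¹, mul_inv_cancel₀ (by positivity), one_mul] at h2
  have hc : ContinuousOn (fun s : ℝ => 2 * π * (1 / s ^ 3 + (∑ i ∈ Finset.range J, ‖c i‖ ^ 2 * s ^ (2 * i)) * s)) (Icc ρ r) := by
    refine continuousOn_const.mul ((continuousOn_const.div (continuousOn_id.pow 3)
      fun s hs => pow_ne_zero 3 (hρ.trans_le hs.1).ne').add ?_)
    fun_prop
  have hFi' : IntegrableOn (fun s => ∫ θ in Ioo (-π) π, s * ‖d (circleMap 0 s θ)‖ ^ 2)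
      (Ioo ρ r) := by
    have := hFi
    rw [IntegrableOn, ← Measure.prod_restrict] at this
    exact this.integral_prod_left
  refine le_trans (le_of_eq ?_) (setIntegral_mono_on
    ((hc.integrableOn_compact isCompact_Icc).mono_set Ioo_subset_Icc_self) hFi'
    measurableSet_Ioo hinner)
  have hu : ∀ s ∈ uIcc ρ r, HasDerivAt (fun s : ℝ => π * (-(1 / s ^ 2) +
      ∑ i ∈ Finset.range J, ‖c i‖ ^ 2 / (i + 1) * s ^ (2 * i + 2)))
      (2 * π * (1 / s ^ 3 + (∑ i ∈ Finset.range J, ‖c i‖ ^ 2 * s ^ (2 * i)) * s)) s := by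
    intro s hs
    rw [uIcc_of_le hρr.le] at hs
    have hs0 : s ≠ 0 := (hρ.trans_le hs.1).ne'
    have h1 : HasDerivAt (fun s : ℝ => (s ^ 2)⁻¹) (-(2 * s) / (s ^ 2) ^ 2) s := by
      simpa using ((hasDerivAt_pow 2 s).fun_inv (pow_ne_zero 2 hs0))
    have h2 : HasDerivAt (fun s : ℝ => ∑ i ∈ Finset.range J, ‖c i‖ ^ 2 / (i + 1) * s ^ (2 * i + 2))
        (2 * (∑ i ∈ Finset.range J, ‖c i‖ ^ 2 * s ^ (2 * i)) * s) s := by
      refine (HasDerivAt.fun_sum fun i _ => (hasDerivAt_pow (2 * i + 2) s).const_mul _).congr_deriv ?_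
      rw [Finset.mul_sum, Finset.sum_mul]
      refine Finset.sum_congr rfl fun i _ => ?_
      rw [show 2 * i + 2 - 1 = 2 * i + 1 by omega, pow_succ]
      push_cast
      have : (i : ℝ) + 1 ≠ 0 := by positivity
      field_simp
      ring
    have := (h1.neg.add h2).const_mul π
    convert! this using 1
    · funext x; simp [one_div]
    · field_simp
  rw [← integral_Ioc_eq_integral_Ioo, ← intervalIntegral.integral_of_le hρr.le,
    intervalIntegral.integral_eq_sub_of_hasDerivAt hu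
      ((hc.mono (by rw [uIcc_of_le hρr.le])).intervalIntegrable)]
  simp only [mul_sub, Finset.sum_sub_distrib]
  ring

/-- The area theorem, truncated. -/
theorem area_sum_le_one {P h : ℂ → ℂ} (hP : DifferentiableOn ℂ P (ball 0 1)) (hP0 : P 0 = 0)
    (hh : DifferentiableOn ℂ h (ball 0 1)) {J : ℕ} (c : ℕ → ℂ)
    (hk0 : ∀ z ∈ ball (0 : ℂ) 1, deriv P z = ∑ i ∈ Finset.range J, c i * z ^ i + z ^ J * h z)
    (hinj : InjOn (fun z => z⁻¹ + P z) (ball 0 1 \ {0})) :
    ∑ i ∈ Finset.range J, ‖c i‖ ^ 2 / (i + 1) ≤ 1 := by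
  set b := deriv P 0 with hb
  set B := ‖b‖ with hB
  have hB0 : 0 ≤ B := norm_nonneg _
  have h0 : (0 : ℂ) ∈ ball (0 : ℂ) 1 := by simp
  -- the remainder is quadratic
  have hnh : ball (0 : ℂ) 1 ∈ 𝓝 (0 : ℂ) := isOpen_ball.mem_nhds h0
  have hd1 : DifferentiableOn ℂ (dslope P 0) (ball 0 1) :=
    (Complex.differentiableOn_dslope hnh).2 hP
  have hd2 : DifferentiableOn ℂ (dslope (dslope P 0) 0) (ball 0 1) :=
    (Complex.differentiableOn_dslope hnh).2 hd1
  have hPz : ∀ z : ℂ, P z = b * z + z ^ 2 * dslope (dslope P 0) 0 z := by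
    intro z
    have h1 : z * dslope P 0 z = P z := by
      have := sub_smul_dslope P 0 z
      simpa [hP0] using this
    have h2 : z * dslope (dslope P 0) 0 z = dslope P 0 z - b := by
      have := sub_smul_dslope (dslope P 0) 0 z
      simpa [dslope_same] using this
    rw [← h1, show z ^ 2 * dslope (dslope P 0) 0 z = z * (z * dslope (dslope P 0) 0 z) by ring, h2]
    ring
  set A : ℝ → ℝ := fun r => ∑ i ∈ Finset.range J, ‖c i‖ ^ 2 / (i + 1) * r ^ (2 * i + 2) with hA
  suffices hsuf : ∀ r ∈ Ioo (1 / 2 : ℝ) 1, A r ≤ 1 / r ^ 2 by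
    have hc : ContinuousAt (fun r : ℝ => A r - 1 / r ^ 2) 1 := by
      simp only [hA]
      fun_prop (disch := norm_num)
    have ht : Tendsto (fun r : ℝ => A r - 1 / r ^ 2) (𝓝[<] 1) (𝓝 (A 1 - 1)) := by
      simpa using hc.tendsto.mono_left nhdsWithin_le_nhds
    have hle : A 1 - 1 ≤ 0 := le_of_tendsto ht (by
      filter_upwards [Ioo_mem_nhdsLT (show (1 / 2 : ℝ) < 1 by norm_num)] with r hr
      linarith [hsuf r hr])
    simp only [hA, one_pow, mul_one] at hle
    linarith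
  intro r hr
  obtain ⟨C, hC⟩ := (isCompact_closedBall (0 : ℂ) r).exists_bound_of_continuousOn
    (hd2.continuousOn.mono (closedBall_subset_ball hr.2))
  have hC0 : 0 ≤ C := le_trans (norm_nonneg _) (hC 0 (by simp; linarith [hr.1]))
  set K := 4 * C + 2 with hK
  suffices hsuf : ∀ᶠ ρ in 𝓝[>] (0 : ℝ),
      -(1 / r ^ 2) + (A r - A ρ) ≤ 2 * K * ρ + K ^ 2 * ρ ^ 4 - B ^ 2 * ρ ^ 2 by
    have ht : ∀ f : ℝ → ℝ, Continuous f → Tendsto f (𝓝[>] 0) (𝓝 (f 0)) := fun f hf =>
      (hf.tendsto 0).mono_left nhdsWithin_le_nhds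
    have hA0 : A 0 = 0 := Finset.sum_eq_zero fun i _ => by simp
    have hAc : Continuous A := by rw [hA]; fun_prop
    have := le_of_tendsto_of_tendsto (ht _ (by fun_prop)) (ht _ (by fun_prop)) hsuf
    simp [hA0] at this
    rw [one_div]
    linarith
  have hev : ∀ᶠ ρ in 𝓝[>] (0 : ℝ), 0 < ρ ∧ ρ < r ∧ ρ < 1 ∧ B * ρ ≤ 1 / (2 * ρ) ∧
      2 * ρ * (B + 4 * C) < 1 ∧ B ^ 2 * ρ + (B * K) * ρ ≤ 1 := by
    have hh : ∀ (c : ℝ) (f : ℝ → ℝ), Continuous f → f 0 < c → ∀ᶠ ρ in 𝓝[>] (0 : ℝ), f ρ < c :=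
      fun c f hf h => nhdsWithin_le_nhds ((hf.tendsto 0).eventually (Iio_mem_nhds h))
    filter_upwards [self_mem_nhdsWithin, hh r id continuous_id (by simp; linarith [hr.1]),
      hh 1 id continuous_id (by simp), hh 1 (fun ρ => 2 * B * ρ ^ 2) (by fun_prop) (by simp),
      hh 1 (fun ρ => 2 * ρ * (B + 4 * C)) (by fun_prop) (by simp),
      hh 1 (fun ρ => B ^ 2 * ρ + B * K * ρ) (by fun_prop) (by simp)]
      with ρ h1 h2 h3 h4 h5 h6
    have h1' : 0 < ρ := h1
    refine ⟨h1', h2, h3, ?_, h5, h6.le⟩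
    rw [le_div_iff₀ (by positivity)]
    linarith
  filter_upwards [hev] with ρ hh
  obtain ⟨hρ, hρr, hρ1, hB1, hB2, hB3⟩ := hh
  set α := 1 / ρ + K * ρ ^ 2 with hα
  have hK0 : 0 ≤ K := by positivity
  have hα1 : 1 / ρ ≤ α := by rw [hα]; nlinarith
  have hinv : 0 < 1 / ρ := by positivity
  have hBρ : B * ρ ≤ α / 2 := by
    have : 1 / (2 * ρ) = 1 / ρ / 2 := by ring
    linarith
  have hα0 : 0 < α := by linarith
  -- containment in the ellipse
  have hcont : (fun z => z⁻¹ + P z) '' (ball 0 r \ closedBall 0 ρ) ⊆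
      ellipseMap (α : ℂ) (b * ρ) '' closedBall 0 1 := by
    rintro _ ⟨z, ⟨hz1, hz2⟩, rfl⟩
    simp only [mem_ball, mem_closedBall, dist_zero_right, not_le] at hz1 hz2
    set s := ‖z‖ with hs
    set D := α ^ 2 - B ^ 2 * ρ ^ 2 with hD
    have hDpos : 0 < D := by
      rw [hD, show α ^ 2 - B ^ 2 * ρ ^ 2 = (α - B * ρ) * (α + B * ρ) by ring]
      exact mul_pos (by linarith) (by nlinarith)
    set w := z⁻¹ + P z with hw
    refine ⟨((α : ℂ) * w - b * ρ * conj w) / (D : ℂ), ?_, ?_⟩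
    · rw [mem_closedBall, dist_zero_right, norm_div, Complex.norm_real, Real.norm_eq_abs,
        abs_of_pos hDpos, div_le_one hDpos]
      have hs0 : 0 < s := hρ.trans hz2
      have hs1 : s ≤ 1 := by linarith [hr.2]
      have hzC : ‖dslope (dslope P 0) 0 z‖ ≤ C := hC z (by simp [← hs]; linarith)
      have hbound := norm_g_mem (R := z ^ 2 * dslope (dslope P 0) 0 z) (C := C) (b := b) (B := B)
        hρ hs.symm hz2.le hα1 rfl
        (by rw [norm_mul, norm_pow, ← hs, mul_comm]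
            exact mul_le_mul_of_nonneg_right hzC (sq_nonneg _)) hs0
        (by
          have : B ^ 2 * ρ * s ^ 2 ≤ B ^ 2 * ρ * 1 :=
            mul_le_mul_of_nonneg_left (by nlinarith) (by positivity)
          have h1 : (1 : ℝ) ≤ 1 / ρ := by rw [le_div_iff₀ hρ]; linarith
          nlinarith [mul_nonneg (mul_nonneg hB0 hK0) hρ.le])
        (by linarith)
      rw [show z⁻¹ + b * z + z ^ 2 * dslope (dslope P 0) 0 z = w by rw [hw, hPz]; ring] at hbound
      refine hbound.trans ?_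
      -- compare with the value at the inner circle
      have h1 : (α - B * ρ) / ρ + B * α * ρ + 2 * α * C * ρ ^ 2 ≤ D :=
        inner_le hρ hρ1.le hB0 hC0 rfl hα hB3
      refine le_trans ?_ h1
      exact radial_le hρ hz2.le hs1 hB0 hC0 hα0 hBρ hB2
    · rw [ellipseMap_apply]
      have hD' : (D : ℂ) ≠ 0 := Complex.ofReal_ne_zero.2 hDpos.ne'
      simp only [map_div₀, map_sub, map_mul, Complex.conj_ofReal, Complex.conj_conj]
      field_simp
      rw [hD]
      push_cast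
      rw [show (B : ℂ) ^ 2 = b * conj b by
        rw [Complex.mul_conj, Complex.normSq_eq_norm_sq]; norm_cast]
      ring
  have hD0 : 0 ≤ α ^ 2 - B ^ 2 * ρ ^ 2 := by
    rw [show α ^ 2 - B ^ 2 * ρ ^ 2 = (α - B * ρ) * (α + B * ρ) by ring]
    exact mul_nonneg (by linarith) (by nlinarith)
  have hlow := (area_lower_all hP hh c hk0 hinj hρ hρr hr.2).trans (measure_mono hcont)
  rw [Measure.addHaar_image_continuousLinearMap] at hlow
  rw [show LinearMap.det ((ellipseMap (α : ℂ) (b * ρ)) : ℂ →ₗ[ℝ] ℂ) = _ from ellipseMap_det _ _,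
    Complex.volume_closedBall,
    norm_mul, Complex.norm_real, Complex.norm_real, Real.norm_eq_abs, Real.norm_eq_abs,
    abs_of_pos hα0, abs_of_pos hρ, mul_pow, ← hB,
    abs_of_nonneg hD0] at hlow
  simp only [ENNReal.ofReal_one, one_pow, one_mul] at hlow
  rw [show (NNReal.pi : ℝ≥0∞) = ENNReal.ofReal π by
        rw [← ENNReal.ofReal_coe_nnreal, NNReal.coe_real_pi],
    ← ENNReal.ofReal_mul hD0,
    ENNReal.ofReal_le_ofReal_iff (by
      exact mul_nonneg hD0 Real.pi_pos.le),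
    mul_comm (α ^ 2 - B ^ 2 * ρ ^ 2)] at hlow
  have h := le_of_mul_le_mul_left hlow Real.pi_pos
  have e : α ^ 2 = 1 / ρ ^ 2 + 2 * K * ρ + K ^ 2 * ρ ^ 4 := by rw [hα]; field_simp; ring
  simp only [mul_sub, Finset.sum_sub_distrib] at h
  simp only [hA]
  linarith

end Vale.Agent.P142b
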