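import Vale.Agent.P142b.Seg

/-!
Gram blocks with a nonnegative multiplier: `1 - ∑ j ‖x_j‖²` over an initial range, or `4 - ‖x_0‖²`.
-/

noncomputable section

open Finset
open scoped ComplexConjugate

namespace Vale.Agent.P142b

/-- A basis element of a block with its packed Gram vector. -/
abbrev Item := ℕ × ℕ × ℕ × ℕ

/-- Prepares an item: code, both packings and the sum of the vector. -/
def prep (n : ℕ) (it : ℕ × ℕ) : Item :=
  (it.1, pkL (unpack n it.2), pkR (unpack n it.2), (unpack n it.2).sum)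

/-- The Gram entry of two prepared items. -/
def gdot (n : ℕ) (a b : Item) : ℤ :=
  Int.subNatNat
    (Nat.shiftRight (a.2.1 * b.2.2.1) (128 * (n - 1)) % 340282366920938463463374607431768211456
      + n * 19807040628566084398385987584)
    (140737488355328 * (a.2.2.2 + b.2.2.2))

/-- The positive terms of a multiplier. -/
def mPos (K kind : ℕ) : List (ℕ × ℕ) := bif Nat.blt kind K then [(0, 1)] else [(0, 4)]

/-- The subtracted terms of a multiplier. -/
def mNeg (K kind : ℕ) : List (ℕ × ℕ) :=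
  bif Nat.blt kind K then (List.range kind).map fun j => (16 ^ (j + 1) + 16 ^ (K + (j + 1)), j + 1)
  else [(1 + 16 ^ K, 1)]

/-- The term of one pair of items. -/
def pairT (K n : ℕ) (mult : ℤ) (s : ℕ) (a b : Item) : ℕ × ℤ :=
  (cjc K a.1 + b.1 + s, mult * gdot n a b)

/-- The rows of one multiplier term of a block. -/
def triRows (K n : ℕ) (mult : ℤ) (s : ℕ) : List Item → List Tms
  | [] => []
  | a :: l => (pairT K n mult s a a :: l.map (pairT K n (2 * mult) s a)) :: triRows K n mult s l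

/-- A block: the vector length, the multiplier and the items. -/
abbrev Blk := ℕ × ℕ × List (ℕ × ℕ)

/-- The rows of a block subtracted `m` times. -/
def blkRows (K m : ℕ) (b : Blk) : List Tms :=
  ((mPos K b.2.1).flatMap fun s =>
      triRows K b.1 (-((m * s.2 : ℕ) : ℤ)) s.1 (b.2.2.map (prep b.1))) ++
    (mNeg K b.2.1).flatMap fun s => triRows K b.1 ((m * s.2 : ℕ) : ℤ) s.1 (b.2.2.map (prep b.1))

/-- The rows of several blocks. -/
def blksRows (K m : ℕ) (bl : List Blk) : List Tms := bl.flatMap (blkRows K m)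

/-- Well-formedness of blocks. -/
def blksOk (K : ℕ) (bl : List Blk) : Bool :=
  bl.all fun b => Nat.ble 1 b.1 && Nat.blt b.1 (2 ^ 20) &&
    b.2.2.all fun it => small (K + K) 6 it.1

lemma gdot_eq {n : ℕ} (hn : 1 ≤ n) (hn2 : n < 2 ^ 20) (a b : ℕ × ℕ) :
    gdot n (prep n a) (prep n b) = ∑ k ∈ range n,
      (((unpack n a.2).getD k 0 : ℤ) - off) * (((unpack n b.2).getD k 0 : ℤ) - off) := by
  have hl := unpack_length n a.2
  have hlen : (unpack n a.2).length = (unpack n b.2).length := by simp [unpack_length]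
  have h := dot_offset _ _ hlen
  rw [← mid_eq _ _ hlen (by omega) (by omega) (unpack_lt _ _) (unpack_lt _ _), hl] at h
  rw [← h]
  simp only [gdot, prep, Int.subNatNat_eq_coe, off, Nat.shiftRight_eq_div_pow,
    Nat.shiftRight_eq]
  push_cast
  norm_num
  ring

/-- The value of item `it` in slot `k`. -/
def itVal (K n : ℕ) (v : ℕ → ℂ) (k : ℕ) (it : ℕ × ℕ) : ℂ :=
  (((unpack n it.2).getD k 0 : ℤ) - off : ℤ) * ev (K + K) v it.1

lemma evT_pairT {K n : ℕ} {v : ℕ → ℂ} (hv : ∀ i < K, v (K + i) = conj (v i)) (hn : 1 ≤ n)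
    (hn2 : n < 2 ^ 20) (mult : ℤ) {s : ℕ} {ρ : ℝ} (hs : small (K + K) 2 s = true)
    (hρ : ev (K + K) v s = (ρ : ℂ)) {a b : ℕ × ℕ}
    (hsa : small (K + K) 6 a.1 = true) (hsb : small (K + K) 6 b.1 = true) :
    (((pairT K n mult s (prep n a) (prep n b)).2 : ℂ) *
        ev (K + K) v (pairT K n mult s (prep n a) (prep n b)).1).re =
      (mult : ℝ) * ρ * ∑ k ∈ range n, (conj (itVal K n v k a) * itVal K n v k b).re := by
  have hab := ev_add v (small_cjc hsa) hsb (by norm_num)
  have h3 := (ev_add v hab.2 hs (by norm_num)).1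
  simp only [pairT, prep]
  rw [h3, hab.1, ev_cjc hv, hρ]
  have hg := gdot_eq hn hn2 a b
  simp only [prep] at hg
  rw [hg]
  simp only [itVal, map_mul, map_intCast]
  push_cast
  simp only [mul_sum, sum_mul, Complex.re_sum]
  refine sum_congr rfl fun k _ => ?_
  simp only [Complex.mul_re, Complex.mul_im, Complex.conj_re, Complex.conj_im, Complex.ofReal_re,
    Complex.ofReal_im, Complex.intCast_re, Complex.intCast_im, Complex.sub_re, Complex.sub_im,
    Complex.natCast_re, Complex.natCast_im]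
  ring

lemma triRows_sum {K n : ℕ} {v : ℕ → ℂ} (hv : ∀ i < K, v (K + i) = conj (v i)) (hn : 1 ≤ n)
    (hn2 : n < 2 ^ 20) (mult : ℤ) {s : ℕ} {ρ : ℝ} (hs : small (K + K) 2 s = true)
    (hρ : ev (K + K) v s = (ρ : ℂ)) : ∀ l : List (ℕ × ℕ),
    (∀ it ∈ l, small (K + K) 6 it.1 = true) →
    ((triRows K n mult s (l.map (prep n))).map fun r => (evT (K + K) v r).re).sum =
      (mult : ℝ) * ρ * ∑ k ∈ range n, ‖(l.map (itVal K n v k)).sum‖ ^ 2 := by
  intro l
  induction l with
  | nil => simp [triRows]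
  | cons a l ih =>
    intro h
    have ha := h a (by simp)
    have hl : ∀ it ∈ l, small (K + K) 6 it.1 = true := fun it hit => h it (by simp [hit])
    have hrest : ∀ m : List (ℕ × ℕ), (∀ it ∈ m, it ∈ l) →
        (evT (K + K) v ((m.map (prep n)).map (pairT K n (2 * mult) s (prep n a)))).re =
          2 * (mult : ℝ) * ρ * ∑ k ∈ range n,
            (conj (itVal K n v k a) * (m.map (itVal K n v k)).sum).re := by
      intro m
      induction m with
      | nil => simp
      | cons b m ihm =>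
        intro hm
        simp only [List.map_cons, evT_cons, Complex.add_re, List.sum_cons, mul_add,
          ihm (fun it hit => hm it (by simp [hit])),
          evT_pairT hv hn hn2 (2 * mult) hs hρ ha (hl b (hm b (by simp))), sum_add_distrib]
        push_cast
        ring
    simp only [List.map_cons, triRows, List.sum_cons, ih hl, evT_cons, Complex.add_re,
      evT_pairT hv hn hn2 mult hs hρ ha ha, hrest l fun it hit => hit]
    simp only [mul_sum, ← sum_add_distrib]
    refine sum_congr rfl fun k _ => ?_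
    simp only [Complex.sq_norm, Complex.normSq_apply, Complex.add_re, Complex.add_im,
      Complex.mul_re, Complex.mul_im, Complex.conj_re, Complex.conj_im]
    ring

/-- The value of the multiplier. -/
def mVal (K : ℕ) (v : ℕ → ℂ) (kind : ℕ) : ℝ :=
  if kind < K then 1 - ∑ j ∈ range kind, ((j : ℝ) + 1) * ‖v (j + 1)‖ ^ 2 else 4 - ‖v 0‖ ^ 2

lemma mVal_nonneg {K : ℕ} {v : ℕ → ℂ} (harea : ∑ j ∈ Ico 1 K, (j : ℝ) * ‖v j‖ ^ 2 ≤ 1)
    (h0 : ‖v 0‖ ≤ 2) (kind : ℕ) : 0 ≤ mVal K v kind := by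
  unfold mVal
  split_ifs with h
  · have e : ∑ j ∈ range kind, ((j : ℝ) + 1) * ‖v (j + 1)‖ ^ 2 =
        ∑ j ∈ Ico 1 (kind + 1), (j : ℝ) * ‖v j‖ ^ 2 := by
      rw [sum_Ico_eq_sum_range]
      refine sum_congr rfl fun j _ => ?_
      rw [add_comm 1 j]; push_cast; ring
    have h2 : ∑ j ∈ Ico 1 (kind + 1), (j : ℝ) * ‖v j‖ ^ 2 ≤ ∑ j ∈ Ico 1 K, (j : ℝ) * ‖v j‖ ^ 2 :=
      sum_le_sum_of_subset_of_nonneg (Ico_subset_Ico le_rfl (by omega)) fun j _ _ => by positivity
    linarith
  · nlinarith [norm_nonneg (v 0)]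

lemma ev_abs_sq {K : ℕ} {v : ℕ → ℂ} (hv : ∀ i < K, v (K + i) = conj (v i)) {j : ℕ} (hj : j < K) :
    ev (K + K) v (16 ^ j + 16 ^ (K + j)) = ((‖v j‖ ^ 2 : ℝ) : ℂ) ∧
      small (K + K) 2 (16 ^ j + 16 ^ (K + j)) = true := by
  have h1 := ev_unit v (show j < K + K by omega)
  have h2 := ev_unit v (show K + j < K + K by omega)
  obtain ⟨e1, e2⟩ := ev_add v h1.2 h2.2 (by norm_num)
  refine ⟨?_, e2⟩
  rw [e1, h1.1, h2.1, hv j hj, Complex.mul_conj, Complex.sq_norm]

lemma blkRows_sum {K : ℕ} {v : ℕ → ℂ} (hv : ∀ i < K, v (K + i) = conj (v i)) (hK : 1 ≤ K) (m : ℕ)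
    (b : Blk) (hn : 1 ≤ b.1) (hn2 : b.1 < 2 ^ 20)
    (hit : ∀ it ∈ b.2.2, small (K + K) 6 it.1 = true) :
    ((blkRows K m b).map fun r => (evT (K + K) v r).re).sum =
      -((m : ℝ) * mVal K v b.2.1 *
        ∑ k ∈ range b.1, ‖(b.2.2.map (itVal K b.1 v k)).sum‖ ^ 2) := by
  have hT := fun (mult : ℤ) (s : ℕ) (ρ : ℝ) (hs : small (K + K) 2 s = true)
      (hρ : ev (K + K) v s = (ρ : ℂ)) => triRows_sum hv hn hn2 mult hs hρ b.2.2 hit
  set Q := ∑ k ∈ range b.1, ‖(b.2.2.map (itVal K b.1 v k)).sum‖ ^ 2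
  have h0 := hT
  have e0 : ev (K + K) v 0 = ((1 : ℝ) : ℂ) := by simp [ev_zero]
  unfold blkRows mPos mNeg mVal
  by_cases hk : b.2.1 < K
  · rw [show Nat.blt b.2.1 K = true by simpa [Nat.blt_eq] using hk, if_pos hk]
    simp only [cond_true, List.map_append, List.sum_append, List.flatMap_cons, List.flatMap_nil,
      List.append_nil, hT _ 0 1 (small_zero _ _) e0]
    have hneg : ∀ k ≤ b.2.1,
        (((((List.range k).map fun j => (16 ^ (j + 1) + 16 ^ (K + (j + 1)), j + 1)).flatMap
          fun s => triRows K b.1 ((m * s.2 : ℕ) : ℤ) s.1 (b.2.2.map (prep b.1))).map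
            fun r => (evT (K + K) v r).re)).sum =
          (m : ℝ) * (∑ j ∈ range k, ((j : ℝ) + 1) * ‖v (j + 1)‖ ^ 2) * Q := by
      intro k hkk
      induction k with
      | zero => simp
      | succ k ih =>
        obtain ⟨e1, e2⟩ := ev_abs_sq hv (show k + 1 < K by omega)
        rw [List.range_succ, List.map_append, List.flatMap_append, List.map_append, List.sum_append,
          ih (by omega), sum_range_succ]
        simp only [List.map_cons, List.map_nil, List.flatMap_cons, List.flatMap_nil, List.append_nil,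
          hT _ _ _ e2 e1]
        push_cast
        ring
    rw [hneg _ le_rfl]
    push_cast
    ring
  · rw [show Nat.blt b.2.1 K = false from Bool.eq_false_iff.2 fun hc => hk (by simpa [Nat.blt_eq] using hc), if_neg hk]
    obtain ⟨e1, e2⟩ := ev_abs_sq hv (show 0 < K by omega)
    simp only [pow_zero, Nat.add_zero] at e1 e2
    simp only [cond_false, List.map_append, List.sum_append, List.flatMap_cons, List.flatMap_nil,
      List.append_nil, hT _ 0 1 (small_zero _ _) e0, hT _ _ _ e2 e1]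
    push_cast
    ring

lemma blksRows_nonpos {K : ℕ} {v : ℕ → ℂ} (hv : ∀ i < K, v (K + i) = conj (v i)) (hK : 1 ≤ K)
    (harea : ∑ j ∈ Ico 1 K, (j : ℝ) * ‖v j‖ ^ 2 ≤ 1) (h0 : ‖v 0‖ ≤ 2) (m : ℕ) :
    ∀ bl : List Blk, blksOk K bl = true →
    ((blksRows K m bl).map fun r => (evT (K + K) v r).re).sum ≤ 0 := by
  intro bl
  induction bl with
  | nil => simp [blksRows]
  | cons b bl ih =>
    intro h
    simp only [blksOk, List.all_cons, Bool.and_eq_true, List.all_eq_true, Nat.ble_eq,
      Nat.blt_eq] at h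
    have h2 := ih (by simpa [blksOk] using h.2)
    simp only [blksRows, List.flatMap_cons, List.map_append, List.sum_append] at h2 ⊢
    rw [blkRows_sum hv hK m b h.1.1.1 h.1.1.2 fun it hit => h.1.2 it hit]
    have : 0 ≤ (m : ℝ) * mVal K v b.2.1 *
        ∑ k ∈ range b.1, ‖(b.2.2.map (itVal K b.1 v k)).sum‖ ^ 2 :=
      mul_nonneg (mul_nonneg (Nat.cast_nonneg _) (mVal_nonneg harea h0 _))
        (sum_nonneg fun k _ => sq_nonneg _)
    linarith

end Vale.Agent.P142b
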