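import Vale.Agent.P142b.Means

/-!
From a bound for the integral means of `1 / ‖f'‖²` to integrability of powers of derivatives.
-/

noncomputable section

open Set Metric MeasureTheory Filter Vale.Agent.P142
open scoped Topology Real ENNReal

namespace Vale.Agent.P142b

lemma rpow_le_split {X a l : ℝ} (hX : 0 ≤ X) (ha : 0 < a) (h0 : 0 ≤ l) (h1 : l ≤ 1) :
    X ^ l ≤ X * a ^ (l - 1) + a ^ l := by
  have h := Real.geom_mean_le_arith_mean2_weighted h0 (by linarith : 0 ≤ 1 - l) hX ha.le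
    (by ring)
  have hpos : 0 < a ^ (1 - l) := Real.rpow_pos_of_pos ha _
  have e1 : a ^ (l - 1) * a ^ (1 - l) = 1 := by rw [← Real.rpow_add ha]; simp
  have e2 : a ^ l * a ^ (1 - l) = a := by rw [← Real.rpow_add ha]; simp
  refine le_of_mul_le_mul_right ?_ hpos
  rw [add_mul, mul_assoc, e1, mul_one, e2]
  have h2 : l * X ≤ 1 * X := mul_le_mul_of_nonneg_right h1 hX
  have h3 : (1 - l) * a ≤ 1 * a := mul_le_mul_of_nonneg_right (by linarith) ha.le
  linarith

lemma integrableOn_rpow_of_means {f : ℂ → ℂ} (hf : DifferentiableOn ℂ f (ball 0 1))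
    (hd : ∀ z ∈ ball (0 : ℂ) 1, deriv f z ≠ 0) {β D : ℝ} (hβ : 1 ≤ β)
    (hD : ∀ r ∈ Ico (0 : ℝ) 1,
      ∫ θ in (0 : ℝ)..2 * π, (‖deriv f (pt r θ)‖ ^ 2)⁻¹ ≤ D / (1 - r) ^ β)
    {t : ℝ} (ht : -(2 / β) < t) (ht0 : t ≤ 0) :
    IntegrableOn (fun z => ‖deriv f z‖ ^ t) (ball (0 : ℂ) 1) := by
  have hβ0 : 0 < β := by linarith
  set l : ℝ := -t / 2 with hl
  have hl0 : 0 ≤ l := by rw [hl]; linarith
  have hlβ : β * l < 1 := by
    rw [hl]
    have h1 : -t < 2 / β := by linarith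
    rw [lt_div_iff₀ hβ0] at h1
    linarith
  have hl1 : l ≤ 1 := by nlinarith
  have hpow : ∀ z ∈ ball (0 : ℂ) 1, ‖deriv f z‖ ^ t = ((‖deriv f z‖ ^ 2)⁻¹) ^ l := by
    intro z hz
    rw [Real.inv_rpow (by positivity), ← Real.rpow_natCast, ← Real.rpow_mul (norm_nonneg _),
      ← Real.rpow_neg (norm_nonneg _), hl]
    congr 1
    push_cast
    ring
  have hc : ContinuousOn (fun z => ‖deriv f z‖ ^ t) (ball (0 : ℂ) 1) :=
    (hf.deriv isOpen_ball).continuousOn.norm.rpow_const fun z hz =>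
      Or.inl (norm_ne_zero_iff.2 (hd z hz))
  refine ⟨hc.aestronglyMeasurable measurableSet_ball, ?_⟩
  rw [hasFiniteIntegral_iff_ofReal (Eventually.of_forall fun z => Real.rpow_nonneg (norm_nonneg _) _)]
  set g : ℂ → ℝ≥0∞ := (ball (0 : ℂ) 1).indicator fun z => ENNReal.ofReal (‖deriv f z‖ ^ t) with hg
  have hgint : ∫⁻ z in ball (0 : ℂ) 1, ENNReal.ofReal (‖deriv f z‖ ^ t) = ∫⁻ z, g z := by
    rw [hg, lintegral_indicator measurableSet_ball]
  rw [hgint, ← Complex.lintegral_comp_polarCoord_symm]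
  set M : ℝ → ℝ := fun r => (max D 0 + 2 * π) * (1 - r) ^ (-(β * l)) with hM
  -- the circle bound
  have hcirc : ∀ r ∈ Ioo (0 : ℝ) 1,
      ∫⁻ θ in Ioo (-π) π, ENNReal.ofReal (‖deriv f (pt r θ)‖ ^ t) ≤ ENNReal.ofReal (M r) := by
    intro r hr
    have hr' : r ∈ Ioo (-1 : ℝ) 1 := ⟨by linarith [hr.1], hr.2⟩
    have hcont : Continuous fun θ => (‖deriv f (pt r θ)‖ ^ 2)⁻¹ := by
      refine Continuous.inv₀ (Continuous.pow (Continuous.norm ?_) 2)
        fun θ => pow_ne_zero 2 (norm_ne_zero_iff.2 (hd _ (pt_mem hr' θ)))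
      exact (hf.deriv isOpen_ball).continuousOn.comp_continuous
        (by unfold pt; fun_prop) fun θ => pt_mem hr' θ
    have hcl : Continuous fun θ => ((‖deriv f (pt r θ)‖ ^ 2)⁻¹) ^ l :=
      hcont.rpow_const fun θ => Or.inr hl0
    simp only [fun θ => hpow _ (pt_mem hr' θ)]
    have hint : IntegrableOn (fun θ => ((‖deriv f (pt r θ)‖ ^ 2)⁻¹) ^ l) (Ioo (-π) π) :=
      (hcl.integrableOn_Icc).mono_set Ioo_subset_Icc_self
    rw [← ofReal_integral_eq_lintegral_ofReal hint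
      (Eventually.of_forall fun θ => Real.rpow_nonneg (by positivity) _)]
    refine ENNReal.ofReal_le_ofReal ?_
    rw [← integral_Ioc_eq_integral_Ioo, ← intervalIntegral.integral_of_le (by linarith [Real.pi_pos])]
    have hper : Function.Periodic (fun θ => ((‖deriv f (pt r θ)‖ ^ 2)⁻¹) ^ l) (2 * π) := fun θ => by
      have e : pt r (θ + 2 * π) = pt r θ := by
        simp [pt, add_mul, Complex.exp_add, Complex.exp_two_pi_mul_I]
      simp only [e]
    have h2 := hper.intervalIntegral_add_eq (-π) 0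
    rw [show -π + 2 * π = π by ring, zero_add] at h2
    rw [h2]
    set a : ℝ := (1 - r) ^ (-β) with ha
    have h1r : 0 < 1 - r := sub_pos.2 hr.2
    have hapos : 0 < a := Real.rpow_pos_of_pos h1r _
    have h3 : ∫ θ in (0 : ℝ)..2 * π, ((‖deriv f (pt r θ)‖ ^ 2)⁻¹) ^ l ≤
        ∫ θ in (0 : ℝ)..2 * π, ((‖deriv f (pt r θ)‖ ^ 2)⁻¹ * a ^ (l - 1) + a ^ l) :=
      intervalIntegral.integral_mono_on (by positivity) (hcl.intervalIntegrable _ _)
        (((hcont.mul continuous_const).add continuous_const).intervalIntegrable _ _)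
        fun θ _ => rpow_le_split (by positivity) hapos hl0 hl1
    refine h3.trans ?_
    have hi : IntervalIntegrable (fun θ => (‖deriv f (pt r θ)‖ ^ 2)⁻¹ * a ^ (l - 1)) volume 0 (2 * π) :=
      (hcont.mul continuous_const).intervalIntegrable _ _
    rw [intervalIntegral.integral_add hi intervalIntegrable_const,
      intervalIntegral.integral_mul_const, intervalIntegral.integral_const, sub_zero, smul_eq_mul]
    have h4 : ∫ θ in (0 : ℝ)..2 * π, (‖deriv f (pt r θ)‖ ^ 2)⁻¹ ≤ max D 0 * a := by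
      refine (hD r ⟨hr.1.le, hr.2⟩).trans ?_
      rw [ha, Real.rpow_neg h1r.le, ← div_eq_mul_inv]
      exact div_le_div_of_nonneg_right (le_max_left _ _) (Real.rpow_nonneg h1r.le _)
    have h5 : a * a ^ (l - 1) = a ^ l := by
      rw [Real.rpow_sub hapos, Real.rpow_one, mul_div_cancel₀ _ hapos.ne']
    have h6 : a ^ l = (1 - r) ^ (-(β * l)) := by
      rw [ha, ← Real.rpow_mul h1r.le]; ring_nf
    have h7 := mul_le_mul_of_nonneg_right h4 (Real.rpow_nonneg hapos.le (l - 1))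
    rw [mul_assoc, h5] at h7
    simp only [M, ← h6]
    linarith
  have hMint : IntegrableOn M (Ioo (0 : ℝ) 1) := by
    have h := (intervalIntegral.intervalIntegrable_rpow' (a := (0 : ℝ)) (b := 1)
      (show -1 < -(β * l) by linarith)).comp_sub_left 1
    simp only [sub_zero, sub_self] at h
    exact ((intervalIntegrable_iff_integrableOn_Ioo_of_le zero_le_one).1 h.symm).const_mul _
  have hMfin : ∫⁻ r in Ioo (0 : ℝ) 1, ENNReal.ofReal (M r) < ⊤ := by
    have h := hMint.2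
    rw [hasFiniteIntegral_iff_ofReal (by
      filter_upwards [ae_restrict_mem measurableSet_Ioo] with r hr
      exact mul_nonneg (by positivity) (Real.rpow_nonneg (by linarith [hr.2]) _))] at h
    exact h
  refine lt_of_le_of_lt ?_ hMfin
  have htgt : polarCoord.target = Ioi (0 : ℝ) ×ˢ Ioo (-π) π := polarCoord_target
  have hsymm : ∀ p : ℝ × ℝ, Complex.polarCoord.symm p = pt p.1 p.2 := fun p => by
    simp [pt, Complex.polarCoord_symm_apply, Complex.exp_mul_I]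
  set u : ℝ × ℝ → ℝ≥0∞ := (Ioo (0 : ℝ) 1 ×ˢ Ioo (-π) π).indicator
    fun p => ENNReal.ofReal (‖deriv f (pt p.1 p.2)‖ ^ t) with hu
  have hle : ∀ p ∈ polarCoord.target,
      ENNReal.ofReal p.1 • g (Complex.polarCoord.symm p) ≤ u p := by
    intro p hp
    rw [htgt] at hp
    obtain ⟨hp1, hp2⟩ := hp
    rw [hsymm, smul_eq_mul, hg]
    by_cases h : p.1 < 1
    · rw [indicator_of_mem (pt_mem ⟨by linarith [mem_Ioi.1 hp1], h⟩ _), hu,
        indicator_of_mem (show p ∈ Ioo (0 : ℝ) 1 ×ˢ Ioo (-π) π from ⟨⟨hp1, h⟩, hp2⟩)]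
      exact mul_le_of_le_one_left (by simp) (by simpa using h.le)
    · rw [indicator_of_notMem (by simp [norm_pt (le_of_lt (mem_Ioi.1 hp1))]; linarith), mul_zero]
      exact zero_le
  refine (setLIntegral_mono' polarCoord.open_target.measurableSet hle).trans ?_
  refine (setLIntegral_le_lintegral _ _).trans ?_
  rw [hu, lintegral_indicator (measurableSet_Ioo.prod measurableSet_Ioo), Measure.volume_eq_prod,
    ← Measure.prod_restrict]
  have hcP : ContinuousOn (fun p : ℝ × ℝ => ‖deriv f (pt p.1 p.2)‖ ^ t)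
      (Ioo (0 : ℝ) 1 ×ˢ Ioo (-π) π) :=
    hc.comp continuous_pt.continuousOn fun p hp => pt_mem ⟨by linarith [hp.1.1], hp.1.2⟩ _
  have hmeas : AEMeasurable (fun p : ℝ × ℝ => ENNReal.ofReal (‖deriv f (pt p.1 p.2)‖ ^ t))
      ((volume.restrict (Ioo (0 : ℝ) 1)).prod (volume.restrict (Ioo (-π) π))) := by
    rw [Measure.prod_restrict, ← Measure.volume_eq_prod]
    exact (hcP.aemeasurable (measurableSet_Ioo.prod measurableSet_Ioo)).ennreal_ofReal
  rw [lintegral_prod _ hmeas]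
  exact setLIntegral_mono' measurableSet_Ioo hcirc

lemma integrableOn_map_of_means {β : ℝ}
    (H : ∀ f : ℂ → ℂ, DifferentiableOn ℂ f (ball 0 1) → InjOn f (ball 0 1) → ∀ t : ℝ,
      -(2 / β) < t → t ≤ 0 → IntegrableOn (fun z => ‖deriv f z‖ ^ t) (ball (0 : ℂ) 1))
    {W : Set ℂ} {g : ℂ → ℂ} (hW : IsOpen W) (hg : DifferentiableOn ℂ g W) (hinj : InjOn g W)
    (himg : g '' W = ball (0 : ℂ) 1) {s : ℝ} (hs : 2 ≤ s) (hs' : s < 2 + 2 / β) :
    IntegrableOn (fun w => ‖deriv g w‖ ^ s) W := by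
  set f : ℂ → ℂ := Function.invFunOn g W with hfdef
  have hmem : ∀ z ∈ ball (0 : ℂ) 1, f z ∈ W ∧ g (f z) = z := fun z hz =>
    have h : ∃ x ∈ W, g x = z := by rw [← himg] at hz; exact hz
    ⟨Function.invFunOn_mem h, Function.invFunOn_eq h⟩
  have hleft : ∀ w ∈ W, f (g w) = w := fun w hw => hinj.leftInvOn_invFunOn hw
  have hne : ∀ w ∈ W, deriv g w ≠ 0 := fun w hw => deriv_ne_zero_of_injOn hW hg hinj hw
  have hfd : ∀ z ∈ ball (0 : ℂ) 1, HasDerivAt f (deriv g (f z))⁻¹ z := by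
    intro z hz
    obtain ⟨hw, hgw⟩ := hmem z hz
    have hs1 : HasStrictDerivAt g (deriv g (f z)) (f z) :=
      (hg.analyticAt (hW.mem_nhds hw)).hasStrictDerivAt
    have h := (hs1.to_local_left_inverse (hne _ hw)
      (Filter.eventually_of_mem (hW.mem_nhds hw) hleft)).hasDerivAt
    rwa [hgw] at h
  have hfdiff : DifferentiableOn ℂ f (ball 0 1) := fun z hz =>
    (hfd z hz).differentiableAt.differentiableWithinAt
  have hfinj : InjOn f (ball 0 1) := fun a ha b hb h => by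
    rw [← (hmem a ha).2, h, (hmem b hb).2]
  have hfimg : f '' ball (0 : ℂ) 1 = W := by
    refine Subset.antisymm (image_subset_iff.2 fun z hz => (hmem z hz).1) fun w hw => ?_
    exact ⟨g w, himg ▸ mem_image_of_mem g hw, hleft w hw⟩
  have hI := H f hfdiff hfinj (2 - s) (by linarith) (by linarith)
  have hfw : ∀ z ∈ ball (0 : ℂ) 1,
      HasFDerivWithinAt f (ellipseMap (deriv f z) 0) (ball (0 : ℂ) 1) z := by
    intro z hz
    refine (((hfd z hz).differentiableAt.hasDerivAt.complexToReal_fderiv).congr_fderiv ?_).hasFDerivWithinAt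
    ext u
    simp [ellipseMap_apply]
  rw [← hfimg,
    integrableOn_image_iff_integrableOn_abs_det_fderiv_smul volume measurableSet_ball hfw hfinj]
  refine hI.congr_fun (fun z hz => ?_) measurableSet_ball
  have hgne := hne _ (hmem z hz).1
  have hder : deriv f z = (deriv g (f z))⁻¹ := (hfd z hz).deriv
  have hpos : 0 < ‖deriv g (f z)‖ := norm_pos_iff.2 hgne
  simp only [ellipseMap_det, norm_zero, smul_eq_mul, hder, norm_inv]
  rw [show (‖deriv g (f z)‖⁻¹ ^ 2 - (0 : ℝ) ^ 2) = ‖deriv g (f z)‖⁻¹ ^ (2 : ℝ) by norm_num,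
    abs_of_pos (Real.rpow_pos_of_pos (inv_pos.2 hpos) _), Real.rpow_sub (inv_pos.2 hpos),
    Real.inv_rpow hpos.le, Real.inv_rpow hpos.le, div_inv_eq_mul]

/-- All three consequences of a good certificate. -/
theorem conclusions {C : Cert} (hC : C.Good) (hK : C.K ≤ 11) (hsc : 0 < C.scale) {β : ℝ}
    (hβ1 : 1 ≤ β) (hβ : (C.kn : ℝ) = 2 * (β + 2) * C.kd) :
    (∀ f : ℂ → ℂ, DifferentiableOn ℂ f (ball 0 1) → InjOn f (ball 0 1) →
      (∃ D : ℝ, ∀ r ∈ Ico (0 : ℝ) 1,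
        ∫ θ in (0 : ℝ)..2 * π, (‖deriv f ((r : ℂ) * Complex.exp ((θ : ℂ) * Complex.I))‖ ^ 2)⁻¹
          ≤ D / (1 - r) ^ β) ∧
      ∀ t : ℝ, -(2 / β) < t → t ≤ 0 →
        IntegrableOn (fun z => ‖deriv f z‖ ^ t) (ball (0 : ℂ) 1)) ∧
    ∀ (W : Set ℂ) (φ : ℂ → ℂ), IsOpen W → DifferentiableOn ℂ φ W → InjOn φ W →
      φ '' W = ball (0 : ℂ) 1 → ∀ s : ℝ, 2 ≤ s → s < 2 + 2 / β →
        IntegrableOn (fun w => ‖deriv φ w‖ ^ s) W := by
  have hmain : ∀ f : ℂ → ℂ, DifferentiableOn ℂ f (ball 0 1) → InjOn f (ball 0 1) →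
      (∃ D : ℝ, ∀ r ∈ Ico (0 : ℝ) 1,
        ∫ θ in (0 : ℝ)..2 * π, (‖deriv f (pt r θ)‖ ^ 2)⁻¹ ≤ D / (1 - r) ^ β) ∧
      ∀ t : ℝ, -(2 / β) < t → t ≤ 0 →
        IntegrableOn (fun z => ‖deriv f z‖ ^ t) (ball (0 : ℂ) 1) := by
    intro f hf hinj
    have hd : ∀ z ∈ ball (0 : ℂ) 1, deriv f z ≠ 0 := fun z hz =>
      deriv_ne_zero_of_injOn isOpen_ball hf hinj hz
    obtain ⟨D, hD⟩ := means_of_good hC hK hsc hβ hf hinj hd
    exact ⟨⟨D, hD⟩, fun t ht ht0 => integrableOn_rpow_of_means hf hd hβ1 hD ht ht0⟩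
  exact ⟨hmain, fun W φ hW hg hi himg s hs hs' =>
    integrableOn_map_of_means (fun f hf hinj => (hmain f hf hinj).2) hW hg hi himg hs hs'⟩

end Vale.Agent.P142b
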