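import Vale.Agent.P142b.Accum

/-!
The certificate: free coefficient lists, the derivative operators, and the two inequalities.
-/

noncomputable section

open Finset
open scoped ComplexConjugate

namespace Vale.Agent.P142b

/-- The derivative polynomial of coordinate `j` along the field `(w0, w1, w2)`. -/
def pTerms (w0 w1 w2 : ℤ) (j : ℕ) : Tms :=
  (16 ^ (j + 1), ((j : ℤ) + 3) * w0) :: (16 ^ j, ((j : ℤ) + 1) * w1) ::
    (16 ^ j + 1, 2 * w0) :: (bif Nat.beq j 0 then (0, w2) else (16 ^ (j - 1), ((j : ℤ) - 1) * w2)) ::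
      (List.range (j + 1)).map fun i => (16 ^ i + 16 ^ (j - i), -w0)

/-- The derivative of a monomial times the density along a field, with sign `σ` on conjugates. -/
def dTerms (K : ℕ) (σ w0 w1 w2 : ℤ) (c : ℕ) (a : ℤ) : Tms :=
  (c, -w1 * (1 + σ) * a) :: (c + 1, -2 * w0 * a) :: (c + 16 ^ K, σ * (-2) * w0 * a) ::
    (List.range (K - 1)).flatMap fun i =>
      (bif Nat.beq (dg c i) 0 then [] else
        (pTerms w0 w1 w2 i).map fun p => (c - 16 ^ i + p.1, a * Int.ofNat (dg c i) * p.2)) ++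
      (bif Nat.beq (dg c (K + i)) 0 then [] else
        (pTerms w0 w1 w2 i).map fun p =>
          (c - 16 ^ (K + i) + cjc K p.1, σ * a * Int.ofNat (dg c (K + i)) * p.2))

/-- Well-formedness of the free coefficient lists. -/
def freeOk (K : ℕ) (l : Tms) : Bool :=
  l.all fun t => small (K + K) 12 t.1 && Nat.beq (dg t.1 (K - 1)) 0 &&
    Nat.beq (dg t.1 (K + (K - 1))) 0

/-- The free coefficients of a certificate. -/
structure Cert where
  K : ℕ
  kn : ℕ
  kd : ℕ
  scale : ℕ
  phi : Tms
  psi : Tms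

/-- The value of a derivative polynomial. -/
def pVal (v : ℕ → ℂ) (w0 w1 w2 : ℂ) (j : ℕ) : ℂ :=
  ((j : ℂ) + 3) * w0 * v (j + 1) + (((j : ℂ) + 1) * w1 + 2 * w0 * v 0) * v j
    + ((j : ℂ) - 1) * w2 * (if j = 0 then -1 else v (j - 1))
    - w0 * ∑ i ∈ range (j + 1), v i * v (j - i)

/-- The value of the derivative of a monomial times the density. -/
def dVal (K : ℕ) (v : ℕ → ℂ) (σ w0 w1 w2 : ℂ) (c : ℕ) : ℂ :=
  (-(w1 + 2 * w0 * v 0) - σ * conj (w1 + 2 * w0 * v 0)) * ev (K + K) v c +
    ∑ i ∈ range (K - 1), ((dg c i : ℂ) * ev (K + K) v (c - 16 ^ i) * pVal v w0 w1 w2 i +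
      σ * (dg c (K + i) : ℂ) * ev (K + K) v (c - 16 ^ (K + i)) * conj (pVal v w0 w1 w2 i))

lemma beq_false' {a b : ℕ} (h : a ≠ b) : Nat.beq a b = false := by
  by_contra hc
  exact h (Nat.eq_of_beq_eq_true (Bool.eq_true_of_not_eq_false hc))

lemma ev_conj_term {K : ℕ} {v : ℕ → ℂ} (hv : ∀ i < K, v (K + i) = conj (v i)) (l : Tms) :
    evT (K + K) v (l.map fun p => (cjc K p.1, p.2)) = conj (evT (K + K) v l) := by
  induction l with
  | nil => simp
  | cons a l ih => simp [ev_cjc hv, ih]

lemma small_sub {n B c i : ℕ} (h : small n B c = true) (hd : dg c i ≠ 0) :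
    small n B (c - 16 ^ i) = true := by
  induction n generalizing c i with
  | zero => simp [small]
  | succ n ih =>
    simp only [small, Bool.and_eq_true, Nat.ble_eq] at h ⊢
    have hge : 16 ^ i ≤ c := by
      by_contra hlt
      push Not at hlt
      exact hd (by simp [dg, Nat.div_eq_of_lt hlt])
    rcases i with _ | i
    · rw [dg_zero] at hd
      simp only [pow_zero]
      exact ⟨by omega, by rw [show (c - 1) / 16 = c / 16 by omega]; exact h.2⟩
    · rw [dg_succ] at hd
      have hr := ih h.2 hd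
      rw [pow_succ] at hge ⊢
      exact ⟨by omega, by rw [show (c - 16 ^ i * 16) / 16 = c / 16 - 16 ^ i by omega]; exact hr⟩

lemma evT_shift {n B base : ℕ} (v : ℕ → ℂ) (hb : small n B base = true) (hB : B + 2 < 16) (a : ℤ) :
    ∀ l : Tms, (∀ p ∈ l, small n 2 p.1 = true) →
    evT n v (l.map fun p => (base + p.1, a * p.2)) = (a : ℂ) * ev n v base * evT n v l := by
  intro l
  induction l with
  | nil => simp
  | cons p l ih =>
    intro h
    simp only [List.map_cons, evT_cons]
    rw [(ev_add v hb (h p (by simp)) hB).1, ih fun q hq => h q (by simp [hq])]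
    push_cast
    ring

lemma pTerms_small {K : ℕ} (w0 w1 w2 : ℤ) {j : ℕ} (hj : j + 1 < K) :
    ∀ p ∈ pTerms w0 w1 w2 j, small (K + K) 2 p.1 = true := by
  intro p hp
  have hu : ∀ i < K + K, small (K + K) 1 (16 ^ i) = true := fun i hi => (ev_unit (fun _ => 0) hi).2
  have h2 : ∀ a b, a < K + K → b < K + K → small (K + K) 2 (16 ^ a + 16 ^ b) = true :=
    fun a b ha hb => (ev_add (fun _ => 0) (hu a ha) (hu b hb) (by norm_num)).2
  simp only [pTerms, List.mem_cons, List.mem_map, List.mem_range] at hp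
  rcases hp with rfl | rfl | rfl | rfl | ⟨i, hi, rfl⟩
  · exact small_mono (hu _ (by omega)) (by norm_num)
  · exact small_mono (hu _ (by omega)) (by norm_num)
  · simpa using h2 j 0 (by omega) (by omega)
  · by_cases h : j = 0
    · simp [h, small_zero]
    · rw [beq_false' (h)]
      exact small_mono (hu _ (by omega)) (by norm_num)
  · exact h2 i (j - i) (by omega) (by omega)

lemma evT_pTerms {K : ℕ} {v : ℕ → ℂ} (w0 w1 w2 : ℤ) {j : ℕ} (hj : j + 1 < K) :
    evT (K + K) v (pTerms w0 w1 w2 j) = pVal v w0 w1 w2 j := by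
  have hu : ∀ i < K + K, ev (K + K) v (16 ^ i) = v i := fun i hi => (ev_unit v hi).1
  have hs : ∀ i < K + K, small (K + K) 1 (16 ^ i) = true := fun i hi => (ev_unit v hi).2
  have h2 : ∀ a b, a < K + K → b < K + K → ev (K + K) v (16 ^ a + 16 ^ b) = v a * v b :=
    fun a b ha hb => by rw [(ev_add v (hs a ha) (hs b hb) (by norm_num)).1, hu a ha, hu b hb]
  have h3 : ev (K + K) v (16 ^ j + 1) = v j * v 0 := by simpa using h2 j 0 (by omega) (by omega)
  have h4 : evT (K + K) v ((List.range (j + 1)).map fun i => (16 ^ i + 16 ^ (j - i), -w0)) =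
      -(w0 : ℂ) * ∑ i ∈ range (j + 1), v i * v (j - i) := by
    rw [evT, List.map_map, mul_sum, ← List.sum_toFinset _ List.nodup_range, List.toFinset_range]
    refine sum_congr rfl fun i hi => ?_
    rw [mem_range] at hi
    simp [h2 i (j - i) (by omega) (by omega)]
  simp only [pTerms, evT_cons, h4, hu _ (by omega : j + 1 < K + K), hu _ (by omega : j < K + K), h3,
    pVal]
  by_cases h : j = 0
  · subst h; simp [ev_zero]; ring
  · rw [beq_false' (h)]
    simp [hu _ (by omega : j - 1 < K + K), h]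
    ring

lemma evT_dTerms {K : ℕ} {v : ℕ → ℂ} (hv : ∀ i < K, v (K + i) = conj (v i)) (hK : 2 ≤ K)
    (σ w0 w1 w2 : ℤ) {c : ℕ} (hc : small (K + K) 12 c = true) (a : ℤ) :
    evT (K + K) v (dTerms K σ w0 w1 w2 c a) = (a : ℂ) * dVal K v σ w0 w1 w2 c := by
  have h1 : ev (K + K) v (c + 1) = ev (K + K) v c * v 0 := by
    have h := ev_unit v (by omega : 0 < K + K)
    rw [pow_zero] at h
    rw [(ev_add v hc h.2 (by norm_num)).1, h.1]
  have h2 : ev (K + K) v (c + 16 ^ K) = ev (K + K) v c * conj (v 0) := by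
    have h := ev_unit v (by omega : K < K + K)
    rw [(ev_add v hc h.2 (by norm_num)).1, h.1]
    congr 1
    simpa using hv 0 (by omega)
  simp only [dTerms, evT_cons, evT_flatMap, h1, h2, dVal]
  rw [← List.sum_toFinset _ List.nodup_range, List.toFinset_range]
  conv_rhs => rw [mul_add, mul_sum]
  have hs : ∀ i ∈ range (K - 1), evT (K + K) v ((bif Nat.beq (dg c i) 0 then [] else
        (pTerms w0 w1 w2 i).map fun p => (c - 16 ^ i + p.1, a * Int.ofNat (dg c i) * p.2)) ++
      (bif Nat.beq (dg c (K + i)) 0 then [] else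
        (pTerms w0 w1 w2 i).map fun p =>
          (c - 16 ^ (K + i) + cjc K p.1, σ * a * Int.ofNat (dg c (K + i)) * p.2))) =
      (a : ℂ) * ((dg c i : ℂ) * ev (K + K) v (c - 16 ^ i) * pVal v w0 w1 w2 i +
      σ * (dg c (K + i) : ℂ) * ev (K + K) v (c - 16 ^ (K + i)) * conj (pVal v w0 w1 w2 i)) := by
    intro i hi
    rw [mem_range] at hi
    have hP := pTerms_small (K := K) w0 w1 w2 (j := i) (by omega)
    have hPv := evT_pTerms (v := v) w0 w1 w2 (K := K) (j := i) (by omega)
    rw [evT_append, mul_add]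
    congr 1
    · rcases Nat.eq_zero_or_pos (dg c i) with h | h
      · simp [h]
      · rw [beq_false' (h.ne')]
        simp only [cond_false]
        rw [evT_shift v (small_sub hc h.ne') (by norm_num) _ _ hP, hPv]
        push_cast
        simp only [Int.ofNat_eq_natCast, Int.cast_natCast]
        ring
    · rcases Nat.eq_zero_or_pos (dg c (K + i)) with h | h
      · simp [h]
      · rw [beq_false' (h.ne')]
        simp only [cond_false]
        have hP' : ∀ p ∈ (pTerms w0 w1 w2 i).map (fun p => (cjc K p.1, p.2)),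
            small (K + K) 2 p.1 = true := by
          intro p hp
          rw [List.mem_map] at hp
          obtain ⟨q, hq, rfl⟩ := hp
          exact small_cjc (hP q hq)
        have e : ((pTerms w0 w1 w2 i).map fun p =>
            (c - 16 ^ (K + i) + cjc K p.1, σ * a * Int.ofNat (dg c (K + i)) * p.2)) =
            ((pTerms w0 w1 w2 i).map (fun p => (cjc K p.1, p.2))).map fun p =>
              (c - 16 ^ (K + i) + p.1, σ * a * Int.ofNat (dg c (K + i)) * p.2) := by
          simp [List.map_map, Function.comp_def]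
        rw [e, evT_shift v (small_sub hc h.ne') (by norm_num) _ _ hP', ev_conj_term hv, hPv]
        push_cast
        simp only [Int.ofNat_eq_natCast, Int.cast_natCast]
        ring
  rw [sum_congr rfl hs]
  simp only [map_add, map_mul, map_intCast, map_ofNat]
  push_cast
  ring

/-- The positive function of the certificate. -/
def Cert.Phi (C : Cert) (v : ℕ → ℂ) : ℝ := (evT (C.K + C.K) v C.phi).re

/-- The radial derivative of the density times the positive function. -/
def Cert.radial (C : Cert) (v : ℕ → ℂ) : ℝ :=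
  ((C.phi.map fun t => (t.2 : ℂ) * dVal C.K v 1 1 0 (-1) t.1).sum).re

/-- The angular derivative part of the certificate. -/
def Cert.angular (C : Cert) (v : ℕ → ℂ) : ℝ :=
  ((C.psi.map fun t => (t.2 : ℂ) * dVal C.K v (-1) 1 2 1 t.1).sum).re

/-- The conditions on a certificate: well formed, with both inequalities on the coefficient body. -/
def Cert.Good (C : Cert) : Prop :=
  2 ≤ C.K ∧ 1 ≤ C.kd ∧ freeOk C.K C.phi = true ∧ freeOk C.K C.psi = true ∧
    ∀ v : ℕ → ℂ, (∀ i < C.K, v (C.K + i) = conj (v i)) →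
      (∑ j ∈ Ico 1 C.K, (j : ℝ) * ‖v j‖ ^ 2 ≤ 1) → ‖v 0‖ ≤ 2 →
      (C.scale : ℝ) / 2 ≤ C.Phi v ∧ (C.kd : ℝ) * C.scale / 2 ≤
        (C.kn : ℝ) * C.Phi v - C.kd * C.radial v + C.kd * C.angular v

/-- The inequalities of a good certificate. -/
theorem Cert.sound {C : Cert} (h : C.Good) {v : ℕ → ℂ}
    (hv : ∀ i < C.K, v (C.K + i) = conj (v i))
    (harea : ∑ j ∈ Ico 1 C.K, (j : ℝ) * ‖v j‖ ^ 2 ≤ 1) (h0 : ‖v 0‖ ≤ 2) :
    (C.scale : ℝ) / 2 ≤ C.Phi v ∧ (C.kd : ℝ) * C.scale / 2 ≤
      (C.kn : ℝ) * C.Phi v - C.kd * C.radial v + C.kd * C.angular v :=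
  h.2.2.2.2 v hv harea h0

end Vale.Agent.P142b
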