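import Vale.Agent.P142b.Cert

/-!
Coefficients of the Koebe transforms and how they move with the base point: the algebra.
-/

noncomputable section

open Finset PowerSeries
open scoped ComplexConjugate

namespace Vale.Agent.P142b

/-- The scaled derivative along a field of the coefficient number `n`. -/
def aDelta (a : ℕ → ℂ) (w0 w1 w2 : ℂ) (n : ℕ) : ℂ :=
  w0 * ((n : ℂ) + 1) * a (n + 1) + w1 * n * a n + w2 * ((n : ℂ) - 1) * a (n - 1)
    - (w1 + 2 * w0 * a 2) * a n

/-- The series `1 + a₂ X + a₃ X² + ...`. -/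
def aSer (a : ℕ → ℂ) : PowerSeries ℂ := PowerSeries.mk fun n => a (n + 1)

/-- The coefficients of `1 / (1 + a₂ X + ...) = 1 - x₀ X - x₁ X² - ...`. -/
def xCoef (a : ℕ → ℂ) (j : ℕ) : ℂ := -coeff (j + 1) (aSer a)⁻¹

lemma aSer_const {a : ℕ → ℂ} (h1 : a 1 = 1) : constantCoeff (aSer a) = 1 := by
  simp [aSer, h1]

lemma aSer_mul_inv {a : ℕ → ℂ} (h1 : a 1 = 1) : aSer a * (aSer a)⁻¹ = 1 :=
  PowerSeries.mul_inv_cancel _ (by rw [aSer_const h1]; exact one_ne_zero)

lemma qcoef_succ {a : ℕ → ℂ} (h1 : a 1 = 1) (n : ℕ) :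
    coeff (n + 1) (aSer a)⁻¹ =
      -∑ p ∈ antidiagonal n, a (p.1 + 2) * coeff p.2 (aSer a)⁻¹ := by
  have h := congrArg (coeff (n + 1)) (aSer_mul_inv h1)
  rw [PowerSeries.coeff_mul, Finset.Nat.sum_antidiagonal_succ] at h
  simp only [aSer, coeff_mk, zero_add, h1, one_mul] at h
  rw [PowerSeries.coeff_one, if_neg (by omega)] at h
  exact eq_neg_of_add_eq_zero_left h

lemma xCoef_zero {a : ℕ → ℂ} (h1 : a 1 = 1) : xCoef a 0 = a 2 := by
  rw [xCoef, qcoef_succ h1]
  have h := congrArg constantCoeff (aSer_mul_inv h1)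
  rw [map_mul, aSer_const h1, one_mul, map_one] at h
  simp [h]

/-- The value of a derivative polynomial, with the coordinates as a sequence. -/
lemma pVal_congr {x v : ℕ → ℂ} (w0 w1 w2 : ℂ) {j : ℕ} (h : ∀ i ≤ j + 1, x i = v i) :
    pVal x w0 w1 w2 j = pVal v w0 w1 w2 j := by
  have hsum : ∑ i ∈ range (j + 1), x i * x (j - i) = ∑ i ∈ range (j + 1), v i * v (j - i) :=
    sum_congr rfl fun i hi => by
      rw [mem_range] at hi
      rw [h i (by omega), h (j - i) (by omega)]
  unfold pVal
  rw [hsum, h (j + 1) le_rfl, h j (by omega), h 0 (by omega), h (j - 1) (by omega)]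

theorem hasDerivAt_xCoef {a : ℝ → ℕ → ℂ} {w0 w1 w2 S : ℂ} {t : ℝ} (h1 : ∀ u, a u 1 = 1)
    (hS : S ≠ 0) {M : ℕ}
    (hd : ∀ n, 1 ≤ n → n ≤ M + 1 → HasDerivAt (fun u => a u n) (aDelta (a t) w0 w1 w2 n / S) t)
    {j : ℕ} (hj : j + 1 ≤ M) :
    HasDerivAt (fun u => xCoef (a u) j) (pVal (xCoef (a t)) w0 w1 w2 j / S) t := by
  set A := aSer (a t) with hA
  set Q := A⁻¹ with hQ
  set A' : PowerSeries ℂ := PowerSeries.mk fun n => aDelta (a t) w0 w1 w2 (n + 1) / S with hA'
  set R := -(A' * Q * Q) with hR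
  have hAQ : A * Q = 1 := aSer_mul_inv (h1 t)
  have hAR : A * R + A' * Q = 0 := by
    rw [hR]; linear_combination (-(A' * Q)) * hAQ
  have hA'0 : constantCoeff A' = 0 := by
    simp [hA', aDelta, h1 t]; left; ring
  have key : ∀ n ≤ M, HasDerivAt (fun u => coeff n (aSer (a u))⁻¹) (coeff n R) t := by
    intro n
    induction n using Nat.strong_induction_on with
    | _ n ih =>
      intro hn
      rcases n with _ | n
      · have h0 : coeff 0 R = 0 := by simp [hR, hA'0]
        rw [h0]
        have e : (fun u => coeff 0 (aSer (a u))⁻¹) = fun _ => (1 : ℂ) := by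
          funext u; simp [aSer_const (h1 u)]
        rw [e]; exact hasDerivAt_const _ _
      · rw [funext fun u => qcoef_succ (h1 u) n]
        have hsum : HasDerivAt (fun u => ∑ p ∈ antidiagonal n,
            a u (p.1 + 2) * coeff p.2 (aSer (a u))⁻¹)
            (∑ p ∈ antidiagonal n, (aDelta (a t) w0 w1 w2 (p.1 + 2) / S * coeff p.2 Q +
              a t (p.1 + 2) * coeff p.2 R)) t := by
          refine HasDerivAt.fun_sum fun p hp => ?_
          rw [Finset.HasAntidiagonal.mem_antidiagonal] at hp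
          exact (hd _ (by omega) (by omega)).fun_mul (ih p.2 (by omega) (by omega))
        refine hsum.fun_neg.congr_deriv ?_
        have h := congrArg (coeff (n + 1)) hAR
        rw [map_add, PowerSeries.coeff_mul, PowerSeries.coeff_mul, Finset.Nat.sum_antidiagonal_succ,
          Finset.Nat.sum_antidiagonal_succ, PowerSeries.coeff_zero_eq_constantCoeff_apply, aSer_const (h1 t),
          one_mul, PowerSeries.coeff_zero_eq_constantCoeff_apply, hA'0, zero_mul, zero_add, map_zero] at h
        rw [sum_add_distrib]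
        simp only [hA, aSer, hA', coeff_mk] at h
        linear_combination -h
  refine (key (j + 1) hj).fun_neg.congr_deriv ?_
  set W : PowerSeries ℂ := C w0 + C w1 * X + C w2 * (X * X) with hW
  set c : ℂ := w1 + 2 * w0 * a t 2 with hc
  have hXd : ∀ (f : PowerSeries ℂ) (n : ℕ), coeff n (X * d⁄dX ℂ f) = (n : ℂ) * coeff n f := by
    intro f n
    rcases n with _ | n
    · simp
    · rw [coeff_succ_X_mul, coeff_derivative]; push_cast; ring
  have hWm : ∀ (f : PowerSeries ℂ) (n : ℕ), coeff (n + 1) (W * f) =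
      w0 * coeff (n + 1) f + w1 * coeff n f + w2 * (if n = 0 then 0 else coeff (n - 1) f) := by
    intro f n
    simp only [hW, add_mul, mul_assoc, map_add, PowerSeries.coeff_C_mul, coeff_succ_X_mul]
    rcases n with _ | n
    · simp
    · simp [coeff_succ_X_mul]
  have hXA : C S * (X * A') = W * (A + X * d⁄dX ℂ A) - C w0 - C c * (X * A) := by
    refine PowerSeries.ext fun n => ?_
    rcases n with _ | n
    · simp [hW, hA, aSer_const (h1 t)]
    · simp only [map_sub, PowerSeries.coeff_C_mul, coeff_succ_X_mul, hWm, map_add, hXd,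
        PowerSeries.coeff_C, if_neg (show ¬n + 1 = 0 by omega), hA', coeff_mk, hA, aSer, aDelta]
      rw [mul_div_cancel₀ _ hS, hc]
      rcases n with _ | n
      · simp; ring
      · simp only [if_neg (show ¬n + 1 = 0 by omega), Nat.add_sub_cancel]
        push_cast
        ring
  have hXR : C S * (X * R) = W * (X * d⁄dX ℂ Q - Q) + C w0 * (Q * Q) + C c * (X * Q) := by
    rw [hQ, PowerSeries.derivative_inv', ← hQ, hR]
    linear_combination (-(Q * Q)) * hXA - W * Q * hAQ + C c * X * Q * hAQ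
  have h := congrArg (coeff (j + 2)) hXR
  have hq0 : coeff 0 Q = 1 := by simp [hQ, hA, aSer_const (h1 t)]
  have hqs : ∀ i, coeff (i + 1) Q = -xCoef (a t) i := fun i => by simp [xCoef, hQ, hA]
  simp only [map_add, map_sub, PowerSeries.coeff_C_mul, coeff_succ_X_mul, hWm, hXd,
    if_neg (show ¬j + 1 = 0 by omega), Nat.add_sub_cancel] at h
  rw [PowerSeries.coeff_mul, Finset.Nat.sum_antidiagonal_succ, Finset.Nat.sum_antidiagonal_succ',
    Finset.Nat.sum_antidiagonal_eq_sum_range_succ (fun i l => coeff (i + 1) Q * coeff (l + 1) Q)] at h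
  simp only [hqs, hq0] at h
  rw [eq_div_iff hS, neg_mul, mul_comm, h, pVal, xCoef_zero (h1 t), hc]
  rcases j with _ | j
  · simp only [hq0, Nat.succ_eq_add_one, neg_mul_neg, if_true]
    push_cast
    ring
  · simp only [hqs, Nat.succ_eq_add_one, neg_mul_neg, if_neg (show ¬j + 1 = 0 by omega),
      Nat.add_sub_cancel]
    push_cast
    ring

end Vale.Agent.P142b
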