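import Vale.Agent.P142b.Blocks

/-!
Fused loops that compute the validity and the packed segment values of Gram blocks.
-/

noncomputable section

open Finset
open scoped ComplexConjugate

namespace Vale.Agent.P142b

/-- The nonnegative part of a Gram entry. -/
def gPlus (n : ℕ) (a b : Item) : ℕ :=
  Nat.shiftRight (a.2.1 * b.2.2.1) (128 * (n - 1)) % 340282366920938463463374607431768211456
    + n * 19807040628566084398385987584

/-- The subtracted part of a Gram entry. -/
def gMinus (a b : Item) : ℕ := 140737488355328 * (a.2.2.2 + b.2.2.2)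

/-- Evaluates a natural number before passing it on. -/
def force {α : Type} : ℕ → (ℕ → α) → α
  | 0, k => k 0
  | m + 1, k => k (m + 1)

lemma force_eq {α : Type} (n : ℕ) (k : ℕ → α) : force n k = k n := by cases n <;> rfl

/-- Validity of the part of a row coming from `l`. -/
def fOk (K L : ℕ) (tabs : List ℕ) (len base : ℕ) (l : List Item) : List ℕ → Bool :=
  List.rec (motive := fun _ => List ℕ → Bool)
    (fun t => List.casesOn (motive := fun _ => Bool) t true fun _ _ => false)
    (fun b _ ih t => List.casesOn (motive := fun _ => Bool) t false fun i r =>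
      idxOk K L tabs len (base + b.1) i && ih r) l

/-- One packed part of a row coming from `l`. -/
def fVal (L s m : ℕ) (sel : Item → Item → ℕ) (a : Item) (l : List Item) : List ℕ → ℕ :=
  List.rec (motive := fun _ => List ℕ → ℕ) (fun _ => 0)
    (fun b _ ih t => List.casesOn (motive := fun _ => ℕ) t 0 fun i r =>
      bif Nat.beq (i / L) s then Nat.add (Nat.shiftLeft (m * sel a b) (168 * (i % L))) (ih r)
      else ih r) l

/-- Validity of the rows of one multiplier term. -/
def tOk (K L : ℕ) (tabs : List ℕ) (len code : ℕ) (l : List Item) : List (List ℕ) → Bool :=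
  List.rec (motive := fun _ => List (List ℕ) → Bool)
    (fun S => List.casesOn (motive := fun _ => Bool) S true fun _ _ => false)
    (fun a rest ih S => List.casesOn (motive := fun _ => Bool) S false fun t S' =>
      List.casesOn (motive := fun _ => Bool) t false fun i r =>
        (force (cjc K a.1 + code) fun base =>
          idxOk K L tabs len (base + a.1) i && fOk K L tabs len base rest r) && ih S') l

/-- One packed part of the rows of one multiplier term. -/
def tVal (L s m : ℕ) (sel : Item → Item → ℕ) (l : List Item) : List (List ℕ) → ℕ :=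
  List.rec (motive := fun _ => List (List ℕ) → ℕ) (fun _ => 0)
    (fun a rest ih S => List.casesOn (motive := fun _ => ℕ) S 0 fun t S' =>
      List.casesOn (motive := fun _ => ℕ) t 0 fun i r =>
        Nat.add (Nat.add
          (bif Nat.beq (i / L) s then Nat.shiftLeft (m * sel a a) (168 * (i % L)) else 0)
          (fVal L s (2 * m) sel a rest r)) (ih S')) l

lemma fOk_cons (K L : ℕ) (tabs : List ℕ) (len base : ℕ) (b : Item) (l : List Item) (t : List ℕ) :
    fOk K L tabs len base (b :: l) t =
      List.casesOn (motive := fun _ => Bool) t false fun i r =>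
        idxOk K L tabs len (base + b.1) i && fOk K L tabs len base l r := rfl

lemma fVal_cons (L s m : ℕ) (sel : Item → Item → ℕ) (a b : Item) (l : List Item) (t : List ℕ) :
    fVal L s m sel a (b :: l) t =
      List.casesOn (motive := fun _ => ℕ) t 0 fun i r =>
        bif Nat.beq (i / L) s then
          Nat.add (Nat.shiftLeft (m * sel a b) (168 * (i % L))) (fVal L s m sel a l r)
        else fVal L s m sel a l r := rfl

lemma tOk_cons (K L : ℕ) (tabs : List ℕ) (len code : ℕ) (a : Item) (l : List Item)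
    (S : List (List ℕ)) : tOk K L tabs len code (a :: l) S =
      List.casesOn (motive := fun _ => Bool) S false fun t S' =>
      List.casesOn (motive := fun _ => Bool) t false fun i r =>
        (force (cjc K a.1 + code) fun base =>
          idxOk K L tabs len (base + a.1) i && fOk K L tabs len base l r) &&
            tOk K L tabs len code l S' := rfl

lemma tVal_cons (L s m : ℕ) (sel : Item → Item → ℕ) (a : Item) (l : List Item)
    (S : List (List ℕ)) : tVal L s m sel (a :: l) S =
      List.casesOn (motive := fun _ => ℕ) S 0 fun t S' =>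
      List.casesOn (motive := fun _ => ℕ) t 0 fun i r =>
        Nat.add (Nat.add
          (bif Nat.beq (i / L) s then Nat.shiftLeft (m * sel a a) (168 * (i % L)) else 0)
          (fVal L s (2 * m) sel a l r)) (tVal L s m sel l S') := rfl

lemma shl_eq (a b : ℕ) : Nat.shiftLeft a b = a * 2 ^ b := Nat.shiftLeft_eq a b

lemma cast_term (L s i m g : ℕ) :
    ((bif Nat.beq (i / L) s then Nat.shiftLeft (m * g) (168 * (i % L)) else 0 : ℕ) : ℤ) =
      (m : ℤ) * g * (wgt L s i : ℤ) := by
  unfold wgt
  cases Nat.beq (i / L) s <;>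
    simp [Nat.shiftLeft_eq, Int.shiftLeft_eq, mul_assoc]

lemma gdot_parts (n : ℕ) (a b : Item) :
    gdot n a b = (gPlus n a b : ℤ) - gMinus a b := by
  rw [gdot, Int.subNatNat_eq_coe]; rfl

lemma prep_sum_lt (n : ℕ) (hn : n < 2 ^ 20) (it : ℕ × ℕ) :
    (prep n it).2.2.2 ≤ 2 ^ 68 := by
  have h := List.sum_le_card_nsmul (unpack n it.2) (2 ^ 48) fun a ha => (unpack_lt _ _ a ha).le
  rw [unpack_length, smul_eq_mul] at h
  refine h.trans ?_
  calc n * 2 ^ 48 ≤ 2 ^ 20 * 2 ^ 48 := Nat.mul_le_mul_right _ hn.le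
    _ = 2 ^ 68 := by norm_num

lemma coef_small {n m : ℕ} (hn : n < 2 ^ 20) (hm : m < 2 ^ 11) (neg : Bool) (a b : ℕ × ℕ) :
    ((bif neg then (m : ℤ) else -(m : ℤ)) * gdot n (prep n a) (prep n b)).natAbs < 2 ^ 140 := by
  have h1 : gPlus n (prep n a) (prep n b) ≤ 2 ^ 129 := by
    rw [gPlus]
    have := Nat.mod_lt (Nat.shiftRight ((prep n a).2.1 * (prep n b).2.2.1) (128 * (n - 1)))
      (show 0 < 340282366920938463463374607431768211456 by norm_num)
    norm_num at this hn ⊢
    omega
  have h2 : gMinus (prep n a) (prep n b) ≤ 2 ^ 129 := by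
    have ha := prep_sum_lt n hn a
    have hb := prep_sum_lt n hn b
    rw [gMinus]
    norm_num at ha hb ⊢
    omega
  have hd : (gdot n (prep n a) (prep n b)).natAbs ≤ 2 ^ 129 := by
    rw [gdot_parts]; omega
  rw [Int.natAbs_mul]
  have hm' : (bif neg then (m : ℤ) else -(m : ℤ)).natAbs = m := by cases neg <;> simp
  rw [hm']
  calc m * (gdot n (prep n a) (prep n b)).natAbs ≤ m * 2 ^ 129 := Nat.mul_le_mul_left _ hd
    _ < 2 ^ 11 * 2 ^ 129 := Nat.mul_lt_mul_of_pos_right hm (by norm_num)
    _ = 2 ^ 140 := by norm_num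

/-- The signed difference of the two packed parts. -/
def sgnDiff (neg : Bool) (P Q : ℕ) : ℤ := bif neg then (P : ℤ) - Q else (Q : ℤ) - P

lemma sgn_step (neg : Bool) (m P Q w U W : ℤ) :
    ((bif neg then m else -m) * (P - Q) * w + bif neg then U - W else W - U) =
      bif neg then m * P * w + U - (m * Q * w + W) else m * Q * w + W - (m * P * w + U) := by
  cases neg <;> simp <;> ring

lemma sgn_step' (neg : Bool) (m P Q w U W X Y : ℤ) :
    ((bif neg then m else -m) * (P - Q) * w + (bif neg then U - W else W - U) +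
        bif neg then X - Y else Y - X) =
      bif neg then m * P * w + U + X - (m * Q * w + W + Y)
      else m * Q * w + W + Y - (m * P * w + U + X) := by
  cases neg <;> simp <;> ring

lemma fOk_sound {K L len n m code : ℕ} {tabs : List ℕ} (hn : n < 2 ^ 20) (hm : m < 2 ^ 11)
    (neg : Bool) (a : ℕ × ℕ) : ∀ (l : List (ℕ × ℕ)) (t : List ℕ),
    fOk K L tabs len (cjc K a.1 + code) (l.map (prep n)) t = true →
    rowOk K L tabs len ((l.map (prep n)).map
        (pairT K n (bif neg then (m : ℤ) else -(m : ℤ)) code (prep n a))) t = true ∧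
      ∀ s, rowVal L s ((l.map (prep n)).map
          (pairT K n (bif neg then (m : ℤ) else -(m : ℤ)) code (prep n a))) t =
        sgnDiff neg (fVal L s m (gPlus n) (prep n a) (l.map (prep n)) t)
          (fVal L s m gMinus (prep n a) (l.map (prep n)) t) := by
  intro l
  induction l with
  | nil =>
    intro t h
    rcases t with _ | ⟨_, _⟩
    · cases neg <;> simp [rowOk, rowVal, fVal, sgnDiff]
    · simp [fOk] at h
  | cons b l ih =>
    intro t h
    simp only [fOk_cons, List.map_cons] at h
    rcases t with _ | ⟨i, r⟩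
    · simp at h
    simp only [Bool.and_eq_true] at h
    obtain ⟨hi, hrest⟩ := h
    obtain ⟨h1, h2⟩ := ih r hrest
    have e : cjc K a.1 + b.1 + code = cjc K a.1 + code + b.1 := by ring
    refine ⟨?_, fun s => ?_⟩
    · simp only [List.map_cons, rowOk, Bool.and_eq_true, Nat.blt_eq, h1, and_true]
      refine ⟨coef_small hn hm neg a b, ?_⟩
      simp only [pairT, show (prep n a).1 = a.1 from rfl, show (prep n b).1 = b.1 from rfl, e]
      exact hi
    · have hsplit : ∀ (c : Bool) (x y : ℕ),
          (bif c then Nat.add x y else y) = (bif c then x else 0) + y := fun c x y => by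
        cases c <;> simp
      simp only [List.map_cons, rowVal_cons, fVal_cons, pairT, hsplit]
      rw [h2 s, gdot_parts]
      simp only [sgnDiff, Nat.cast_add, cast_term]
      exact sgn_step neg _ _ _ _ _ _

lemma tOk_sound {K L len n m code : ℕ} {tabs : List ℕ} (hn : n < 2 ^ 20) (hm : 2 * m < 2 ^ 11)
    (neg : Bool) : ∀ (l : List (ℕ × ℕ)) (S : List (List ℕ)),
    tOk K L tabs len code (l.map (prep n)) S = true →
    allOk K L tabs len (triRows K n (bif neg then (m : ℤ) else -(m : ℤ)) code (l.map (prep n))) S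
        = true ∧
      ∀ s, allVal L s (triRows K n (bif neg then (m : ℤ) else -(m : ℤ)) code (l.map (prep n))) S =
        sgnDiff neg (tVal L s m (gPlus n) (l.map (prep n)) S)
          (tVal L s m gMinus (l.map (prep n)) S) := by
  intro l
  induction l with
  | nil =>
    intro S h
    rcases S with _ | ⟨_, _⟩
    · cases neg <;> simp [triRows, allOk, allVal, tVal, sgnDiff]
    · simp [tOk] at h
  | cons a l ih =>
    intro S h
    simp only [tOk_cons, List.map_cons] at h
    rcases S with _ | ⟨t, S⟩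
    · simp at h
    rcases t with _ | ⟨i, r⟩
    · simp at h
    simp only [force_eq, Bool.and_eq_true] at h
    obtain ⟨⟨hi, hrow⟩, hrest⟩ := h
    have ea : (prep n a).1 = a.1 := rfl
    rw [ea] at hi hrow
    obtain ⟨h1, h2⟩ := fOk_sound (m := 2 * m) hn hm neg a l r hrow
    obtain ⟨h3, h4⟩ := ih S hrest
    have e2 : (bif neg then ((2 * m : ℕ) : ℤ) else -((2 * m : ℕ) : ℤ)) =
        2 * (bif neg then (m : ℤ) else -(m : ℤ)) := by cases neg <;> simp
    rw [e2] at h1
    simp only [e2] at h2
    have e : cjc K a.1 + a.1 + code = cjc K a.1 + code + a.1 := by ring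
    refine ⟨?_, fun s => ?_⟩
    · simp only [List.map_cons, triRows, allOk, rowOk, Bool.and_eq_true, Nat.blt_eq, h1, h3,
        and_true]
      refine ⟨coef_small hn (by omega) neg a a, ?_⟩
      simp only [pairT, ea, e]
      exact hi
    · simp only [List.map_cons, triRows, allVal, rowVal_cons, tVal_cons, pairT, Nat.add_eq]
      rw [h2 s, h4 s, gdot_parts]
      simp only [sgnDiff, Nat.cast_add, cast_term]
      exact sgn_step' neg _ _ _ _ _ _ _ _

/-- The packing with the first entry highest, by accumulation. -/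
def pkRAcc : List ℕ → ℕ → ℕ
  | [], acc => acc
  | a :: l, acc => pkRAcc l (acc * 340282366920938463463374607431768211456 + a)

lemma pkRAcc_eq : ∀ (l : List ℕ) (acc : ℕ), pkRAcc l acc = acc * 2 ^ (128 * l.length) + pkR l := by
  intro l
  induction l with
  | nil => simp [pkRAcc, pkR]
  | cons a l ih =>
    intro acc
    rw [pkRAcc, ih, pkR, List.length_cons, mul_add 128, mul_one, pow_add]
    norm_num
    ring

/-- The two packings and the sum of a packed vector, in one loop. -/
def prepLoop {α : Type} (n : ℕ) : ℕ → ℕ → ℕ → ℕ → ℕ → (ℕ → ℕ → ℕ → α) → α :=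
  Nat.rec (motive := fun _ => ℕ → ℕ → ℕ → ℕ → ℕ → (ℕ → ℕ → ℕ → α) → α)
    (fun _ _ L R S k => force L fun L' => force R fun R' => force S fun S' => k L' R' S')
    (fun _ ih p sh L R S k =>
      ih (Nat.div p 281474976710656) (Nat.add sh 128)
        (Nat.add L (Nat.shiftLeft (Nat.mod p 281474976710656) sh))
        (Nat.add (Nat.mul R 340282366920938463463374607431768211456) (Nat.mod p 281474976710656))
        (Nat.add S (Nat.mod p 281474976710656)) k) n

lemma prepLoop_eq {α : Type} : ∀ (n p sh L R S : ℕ) (k : ℕ → ℕ → ℕ → α),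
    prepLoop n p sh L R S k = k (L + 2 ^ sh * pkL (unpack n p)) (pkRAcc (unpack n p) R)
      (S + (unpack n p).sum) := by
  intro n
  induction n with
  | zero => intro p sh L R S k; simp [prepLoop, force_eq, unpack, pkL, pkRAcc]
  | succ n ih =>
    intro p sh L R S k
    have e : prepLoop (n + 1) p sh L R S k = prepLoop n (Nat.div p 281474976710656)
        (Nat.add sh 128) (Nat.add L (Nat.shiftLeft (Nat.mod p 281474976710656) sh))
        (Nat.add (Nat.mul R 340282366920938463463374607431768211456) (Nat.mod p 281474976710656))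
        (Nat.add S (Nat.mod p 281474976710656)) k := rfl
    rw [e, ih]
    have h1 : Nat.mod p 281474976710656 = p % 2 ^ 48 := rfl
    have h2 : Nat.div p 281474976710656 = p / 2 ^ 48 := rfl
    simp only [h1, h2, Nat.add_eq, Nat.mul_eq, shl_eq, unpack, pkL, pkRAcc, List.sum_cons]
    congr 1 <;> ring

/-- Prepares all items, evaluating every number. -/
def forcePrep {α : Type} (n : ℕ) (l : List (ℕ × ℕ)) : (List Item → α) → α :=
  List.rec (motive := fun _ => (List Item → α) → α) (fun k => k [])
    (fun it _ ih k => prepLoop n it.2 0 0 0 0 fun A B s =>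
      ih fun r => k ((it.1, A, B, s) :: r)) l

lemma forcePrep_eq {α : Type} (n : ℕ) (l : List (ℕ × ℕ)) :
    ∀ k : List Item → α, forcePrep n l k = k (l.map (prep n)) := by
  induction l with
  | nil => intro k; rfl
  | cons a l ih =>
    intro k
    have e : forcePrep n (a :: l) k = prepLoop n a.2 0 0 0 0 fun A B s =>
          forcePrep n l fun r => k ((a.1, A, B, s) :: r) := rfl
    simp only [e, prepLoop_eq, ih, pkRAcc_eq, zero_mul, zero_add, pow_zero, one_mul]
    rfl

/-- Validity of the rows of several multiplier terms over one item list. -/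
def msOk (K L : ℕ) (tabs : List ℕ) (len : ℕ) (l : List Item) :
    List (ℕ × ℕ) → List (List (List ℕ)) → Bool
  | [], [] => true
  | c :: cs, S :: T => tOk K L tabs len c.1 l S && msOk K L tabs len l cs T
  | _, _ => false

/-- One packed part of the rows of several multiplier terms. -/
def msVal (L s m : ℕ) (sel : Item → Item → ℕ) (l : List Item) :
    List (ℕ × ℕ) → List (List (List ℕ)) → ℕ
  | c :: cs, S :: T => Nat.add (tVal L s (m * c.2) sel l S) (msVal L s m sel l cs T)
  | _, _ => 0

/-- Validity of several blocks; each has one index list per multiplier term. -/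
def blksChk (K L : ℕ) (tabs : List ℕ) (len : ℕ) :
    List Blk → List (List (List (List ℕ)) × List (List (List ℕ))) → Bool
  | [], [] => true
  | b :: bl, T :: TT =>
      (forcePrep b.1 b.2.2 fun l =>
        msOk K L tabs len l (mPos K b.2.1) T.1 && msOk K L tabs len l (mNeg K b.2.1) T.2) &&
        blksChk K L tabs len bl TT
  | _, _ => false

/-- One packed part of several blocks: `A` weights positive terms, `B` subtracted ones. -/
def blksVal (K L s m : ℕ) (A B : ℕ → Item → Item → ℕ) :
    List Blk → List (List (List (List ℕ)) × List (List (List ℕ))) → ℕ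
  | b :: bl, T :: TT =>
      Nat.add (forcePrep b.1 b.2.2 fun l => Nat.add
          (msVal L s m (A b.1) l (mPos K b.2.1) T.1) (msVal L s m (B b.1) l (mNeg K b.2.1) T.2))
        (blksVal K L s m A B bl TT)
  | _, _ => 0

/-- The flattened index rows of blocks. -/
def flatIdx (TT : List (List (List (List ℕ)) × List (List (List ℕ)))) : List (List ℕ) :=
  TT.flatMap fun T => T.1.flatten ++ T.2.flatten

lemma all_append {K L : ℕ} {tabs : List ℕ} {len : ℕ} : ∀ {A : List Tms} {S : List (List ℕ)},
    allOk K L tabs len A S = true → ∀ {B : List Tms} {T : List (List ℕ)},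
    allOk K L tabs len B T = true →
    allOk K L tabs len (A ++ B) (S ++ T) = true ∧ ∀ s, allVal L s (A ++ B) (S ++ T) = allVal L s A S + allVal L s B T := by
  intro A
  induction A with
  | nil =>
    intro S h B T hB
    rcases S with _ | ⟨_, _⟩
    · simp [hB, allVal]
    · simp [allOk] at h
  | cons r A ih =>
    intro S h B T hB
    rcases S with _ | ⟨s, S⟩
    · simp [allOk] at h
    simp only [allOk, Bool.and_eq_true] at h
    obtain ⟨h1, h2⟩ := ih h.2 hB
    refine ⟨by simp [allOk, h.1, h1], fun u => ?_⟩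
    simp [allVal, h2 u, add_assoc]

lemma msOk_sound {K L len n m : ℕ} {tabs : List ℕ} (hn : n < 2 ^ 20) (neg : Bool)
    (l : List (ℕ × ℕ)) : ∀ (cs : List (ℕ × ℕ)) (T : List (List (List ℕ))),
    (∀ c ∈ cs, 2 * (m * c.2) < 2 ^ 11) → msOk K L tabs len (l.map (prep n)) cs T = true →
    allOk K L tabs len (cs.flatMap fun c => triRows K n
        (bif neg then ((m * c.2 : ℕ) : ℤ) else -((m * c.2 : ℕ) : ℤ)) c.1 (l.map (prep n)))
        T.flatten = true ∧
      ∀ s, allVal L s (cs.flatMap fun c => triRows K n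
          (bif neg then ((m * c.2 : ℕ) : ℤ) else -((m * c.2 : ℕ) : ℤ)) c.1 (l.map (prep n)))
          T.flatten =
        sgnDiff neg (msVal L s m (gPlus n) (l.map (prep n)) cs T)
          (msVal L s m gMinus (l.map (prep n)) cs T) := by
  intro cs
  induction cs with
  | nil =>
    intro T _ h
    rcases T with _ | ⟨_, _⟩
    · cases neg <;> simp [allOk, allVal, msVal, sgnDiff]
    · simp [msOk] at h
  | cons c cs ih =>
    intro T hc h
    rcases T with _ | ⟨S, T⟩
    · simp [msOk] at h
    simp only [msOk, Bool.and_eq_true] at h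
    obtain ⟨h1, h2⟩ := tOk_sound (m := m * c.2) hn (hc c (by simp)) neg l S h.1
    obtain ⟨h3, h4⟩ := ih T (fun x hx => hc x (by simp [hx])) h.2
    obtain ⟨h5, h6⟩ := all_append h1 h3
    simp only [List.flatMap_cons, List.flatten_cons]
    refine ⟨h5, fun s => ?_⟩
    rw [h6 s, h2 s, h4 s]
    simp only [msVal, Nat.add_eq, sgnDiff]
    cases neg <;> simp <;> ring

lemma mcoef_small {K m : ℕ} (hm : 2 * m * (K + 4) < 2 ^ 11) (kind : ℕ) :
    (∀ c ∈ mPos K kind, 2 * (m * c.2) < 2 ^ 11) ∧ ∀ c ∈ mNeg K kind, 2 * (m * c.2) < 2 ^ 11 := by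
  have key : ∀ c : ℕ, c ≤ K + 4 → 2 * (m * c) < 2 ^ 11 := fun c hc =>
    lt_of_le_of_lt (by rw [mul_assoc]; exact Nat.mul_le_mul_left _ (Nat.mul_le_mul_left _ hc)) hm
  constructor <;> intro c hc <;> refine key _ ?_
  · unfold mPos at hc
    cases hk : Nat.blt kind K <;> simp [hk] at hc <;> subst hc <;> simp
  · unfold mNeg at hc
    cases hk : Nat.blt kind K <;> simp [hk] at hc
    · subst hc; simp
    · obtain ⟨j, hj, rfl⟩ := hc
      have : kind < K := by simpa [Nat.blt_eq] using hk
      simp
      omega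

lemma blksChk_sound {K L len m : ℕ} {tabs : List ℕ} (hm : 2 * m * (K + 4) < 2 ^ 11) :
    ∀ (bl : List Blk) (TT : List (List (List (List ℕ)) × List (List (List ℕ)))),
    blksOk K bl = true → blksChk K L tabs len bl TT = true →
    allOk K L tabs len (blksRows K m bl) (flatIdx TT) = true ∧
      ∀ s, allVal L s (blksRows K m bl) (flatIdx TT) =
        (blksVal K L s m (fun _ => gMinus) gPlus bl TT : ℤ) -
          blksVal K L s m gPlus (fun _ => gMinus) bl TT := by
  intro bl
  induction bl with
  | nil =>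
    intro TT _ h
    rcases TT with _ | ⟨_, _⟩
    · simp [blksRows, flatIdx, allOk, allVal, blksVal]
    · simp [blksChk] at h
  | cons b bl ih =>
    intro TT hb h
    rcases TT with _ | ⟨T, TT⟩
    · simp [blksChk] at h
    simp only [blksChk, forcePrep_eq, Bool.and_eq_true] at h
    simp only [blksOk, List.all_cons, Bool.and_eq_true, List.all_eq_true, Nat.ble_eq,
      Nat.blt_eq] at hb
    obtain ⟨hc1, hc2⟩ := mcoef_small hm b.2.1
    obtain ⟨a1, a2⟩ := msOk_sound (m := m) hb.1.1.2 false b.2.2 (mPos K b.2.1) T.1 hc1 h.1.1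
    obtain ⟨b1, b2⟩ := msOk_sound (m := m) hb.1.1.2 true b.2.2 (mNeg K b.2.1) T.2 hc2 h.1.2
    simp only [cond_false] at a1 a2
    simp only [cond_true] at b1 b2
    obtain ⟨h3, h4⟩ := ih TT (by simpa [blksOk] using hb.2) h.2
    obtain ⟨c1, c2⟩ := all_append a1 b1
    obtain ⟨h5, h6⟩ := all_append c1 h3
    refine ⟨h5, fun s => ?_⟩
    have e1 : blksRows K m (b :: bl) = blkRows K m b ++ blksRows K m bl := by simp [blksRows]
    have e2 : flatIdx (T :: TT) = (T.1.flatten ++ T.2.flatten) ++ flatIdx TT := by simp [flatIdx]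
    rw [e1, e2]
    refine (h6 s).trans ?_
    rw [c2 s, a2 s, b2 s, h4 s]
    simp only [blksVal, forcePrep_eq, Nat.add_eq, sgnDiff, cond_true, cond_false]
    push_cast
    ring

/-- Consumes one index: the term with coefficient `w`, then the rest. -/
def one (L s : ℕ) (w : ℤ) (t : List ℕ) (k : List ℕ → ℤ) : ℤ :=
  List.casesOn (motive := fun _ => ℤ) t 0 fun i r =>
    bif Nat.beq (Nat.div i L) s then
      Int.add (Int.mul w (Int.ofNat (Nat.shiftLeft 1 (Nat.mul 168 (Nat.mod i L))))) (k r)
    else k r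

/-- Consumes `n` indices and passes on the sum of their weights. -/
def eat (L s n : ℕ) : List ℕ → (ℕ → List ℕ → ℤ) → ℤ :=
  Nat.rec (motive := fun _ => List ℕ → (ℕ → List ℕ → ℤ) → ℤ) (fun t k => k 0 t)
    (fun _ ih t k => List.casesOn (motive := fun _ => ℤ) t (k 0 []) fun i r =>
      ih r fun v r' => bif Nat.beq (Nat.div i L) s then
        k (Nat.add v (Nat.shiftLeft 1 (Nat.mul 168 (Nat.mod i L)))) r' else k v r') n

/-- The terms of one derivative polynomial scaled by `a`. -/
def grp (L s : ℕ) (w0 w1 w2 : ℤ) (j : ℕ) (a : ℤ) (t : List ℕ) (k : List ℕ → ℤ) : ℤ :=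
  one L s (a * (((j : ℤ) + 3) * w0)) t fun t => one L s (a * (((j : ℤ) + 1) * w1)) t fun t =>
    one L s (a * (2 * w0)) t fun t =>
      one L s (a * (bif Nat.beq j 0 then w2 else ((j : ℤ) - 1) * w2)) t fun t =>
        eat L s (j + 1) t fun v r => Int.add (Int.mul (a * -w0) (Int.ofNat v)) (k r)

/-- A group, present when the exponent `d` is nonzero. -/
def grpIf (L s : ℕ) (w0 w1 w2 : ℤ) (j d : ℕ) (a : ℤ) (t : List ℕ) (k : List ℕ → ℤ) : ℤ :=
  bif Nat.beq d 0 then k t else grp L s w0 w1 w2 j (a * Int.ofNat d) t k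

/-- Exponent number `i` of a code, by a shift. -/
def dgs (c i : ℕ) : ℕ := Nat.mod (Nat.shiftRight c (Nat.mul 4 i)) 16

/-- The groups of the coordinates `j, …, j + n - 1`. -/
def grps (K L s : ℕ) (σ w0 w1 w2 : ℤ) (c : ℕ) (a : ℤ) (n : ℕ) :
    ℕ → List ℕ → (List ℕ → ℤ) → ℤ :=
  Nat.rec (motive := fun _ => ℕ → List ℕ → (List ℕ → ℤ) → ℤ) (fun _ t k => k t)
    (fun _ ih j t k => grpIf L s w0 w1 w2 j (dgs c j) a t fun t =>
      grpIf L s w0 w1 w2 j (dgs c (K + j)) (σ * a) t fun t => ih (Nat.succ j) t k) n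

/-- The value of `dTerms` in segment `s`, without building the terms. -/
def dRow (K L s : ℕ) (σ w0 w1 w2 : ℤ) (c : ℕ) (a : ℤ) (t : List ℕ) : ℤ :=
  one L s (-w1 * (1 + σ) * a) t fun t => one L s (-2 * w0 * a) t fun t =>
    one L s (σ * (-2) * w0 * a) t fun t => grps K L s σ w0 w1 w2 c a (K - 1) 0 t fun _ => 0

/-- A sum over rows. -/
def rowsSum {α : Type} (f : α → List ℕ → ℤ) (l : List α) : List (List ℕ) → ℤ :=
  List.rec (motive := fun _ => List (List ℕ) → ℤ) (fun _ => 0)
    (fun a _ ih T => List.casesOn (motive := fun _ => ℤ) T 0 fun t T' => Int.add (f a t) (ih T')) l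

lemma sel_eq (L s i : ℕ) :
    (bif Nat.beq (i / L) s then Nat.shiftLeft 1 (168 * (i % L)) else 0) = wgt L s i := by
  unfold wgt; cases Nat.beq (i / L) s <;> simp [Nat.shiftLeft_eq]

lemma one_eq {L s : ℕ} {c : ℕ} {w : ℤ} {l : Tms} {k : List ℕ → ℤ}
    (h : ∀ r, k r = rowVal L s l r) (t : List ℕ) :
    one L s w t k = rowVal L s ((c, w) :: l) t := by
  rcases t with _ | ⟨i, r⟩
  · rfl
  have e : one L s w (i :: r) k = (bif Nat.beq (i / L) s then
      w * ((Nat.shiftLeft 1 (168 * (i % L)) : ℕ) : ℤ) + k r else k r) := rfl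
  rw [e, rowVal_cons, ← sel_eq, ← h]
  cases Nat.beq (i / L) s <;> simp

lemma eat_eq {L s : ℕ} : ∀ (n : ℕ) (t : List ℕ) (k : ℕ → List ℕ → ℤ),
    eat L s n t k = k ((t.take n).map (wgt L s)).sum (t.drop n) := by
  intro n
  induction n with
  | zero => intro t k; simp [eat]
  | succ n ih =>
    intro t k
    rcases t with _ | ⟨i, r⟩
    · simp [eat]
    have e : eat L s (n + 1) (i :: r) k = eat L s n r fun v r' => bif Nat.beq (i / L) s then
        k (Nat.add v (Nat.shiftLeft 1 (168 * (i % L)))) r' else k v r' := rfl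
    rw [e, ih]
    simp only [List.take_succ_cons, List.map_cons, List.sum_cons, List.drop_succ_cons, ← sel_eq]
    cases Nat.beq (i / L) s <;> simp [Nat.add_comm]

lemma rowVal_const {L s : ℕ} {w : ℤ} : ∀ (q l : Tms) (t : List ℕ), (∀ x ∈ q, x.2 = w) →
    rowVal L s (q ++ l) t =
      w * (((t.take q.length).map (wgt L s)).sum : ℕ) + rowVal L s l (t.drop q.length) := by
  intro q
  induction q with
  | nil => intro l t _; simp
  | cons x q ih =>
    intro l t h
    rcases t with _ | ⟨i, r⟩
    · simp [rowVal]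
    rw [List.cons_append, rowVal_cons, ih l r fun y hy => h y (by simp [hy]), h x (by simp)]
    simp only [List.length_cons, List.take_succ_cons, List.map_cons, List.sum_cons,
      List.drop_succ_cons]
    push_cast
    ring

lemma rowVal_nil_right (L s : ℕ) (l : Tms) : rowVal L s l [] = 0 := by cases l <;> rfl

lemma dgs_eq (c i : ℕ) : dgs c i = dg c i := by
  simp only [dgs, dg, Nat.mul_eq]
  change Nat.shiftRight c (4 * i) % 16 = _
  rw [show Nat.shiftRight c (4 * i) = c >>> (4 * i) from rfl, Nat.shiftRight_eq_div_pow, pow_mul]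
  norm_num

lemma grp_eq {L s : ℕ} (w0 w1 w2 : ℤ) (j : ℕ) (a : ℤ) (g : ℕ → ℕ) {l : Tms} {k : List ℕ → ℤ}
    (h : ∀ r, k r = rowVal L s l r) (t : List ℕ) :
    grp L s w0 w1 w2 j a t k =
      rowVal L s (((pTerms w0 w1 w2 j).map fun p => (g p.1, a * p.2)) ++ l) t := by
  have hq : ∀ t, (eat L s (j + 1) t fun v r => Int.add (Int.mul (a * -w0) (Int.ofNat v)) (k r)) =
      rowVal L s ((((List.range (j + 1)).map fun i => (16 ^ i + 16 ^ (j - i), -w0)).map
        fun p => (g p.1, a * p.2)) ++ l) t := by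
    intro t
    rw [eat_eq, rowVal_const (w := a * -w0) _ _ _ (by simp)]
    simp only [List.length_map, List.length_range, Int.add_def, Int.mul_def, Int.ofNat_eq_natCast,
      ← h]
  unfold grp pTerms
  cases hj : Nat.beq j 0
  · simp only [List.map_cons, List.cons_append, cond_false]
    exact one_eq (fun r1 => one_eq (fun r2 => one_eq (fun r3 => one_eq (fun r4 => hq r4) r3) r2) r1) t
  · simp only [List.map_cons, List.cons_append, cond_true]
    exact one_eq (fun r1 => one_eq (fun r2 => one_eq (fun r3 => one_eq (fun r4 => hq r4) r3) r2) r1) t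

lemma grpIf_eq {L s : ℕ} (w0 w1 w2 : ℤ) (j d : ℕ) (a : ℤ) (g : ℕ → ℕ) {l : Tms}
    {k : List ℕ → ℤ} (h : ∀ r, k r = rowVal L s l r) (t : List ℕ) :
    grpIf L s w0 w1 w2 j d a t k =
      rowVal L s ((bif Nat.beq d 0 then [] else
        (pTerms w0 w1 w2 j).map fun p => (g p.1, a * Int.ofNat d * p.2)) ++ l) t := by
  unfold grpIf
  cases Nat.beq d 0
  · exact grp_eq w0 w1 w2 j _ g h t
  · simpa using h t

lemma grps_eq {K L s : ℕ} (σ w0 w1 w2 : ℤ) (c : ℕ) (a : ℤ) {k : List ℕ → ℤ} {l : Tms}
    (h : ∀ r, k r = rowVal L s l r) : ∀ (n j : ℕ) (t : List ℕ),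
    grps K L s σ w0 w1 w2 c a n j t k =
      rowVal L s (((List.range' j n).flatMap fun i =>
      (bif Nat.beq (dg c i) 0 then [] else
        (pTerms w0 w1 w2 i).map fun p => (c - 16 ^ i + p.1, a * Int.ofNat (dg c i) * p.2)) ++
      (bif Nat.beq (dg c (K + i)) 0 then [] else
        (pTerms w0 w1 w2 i).map fun p =>
          (c - 16 ^ (K + i) + cjc K p.1, σ * a * Int.ofNat (dg c (K + i)) * p.2))) ++ l) t := by
  intro n
  induction n with
  | zero => intro j t; simp [grps, h]
  | succ n ih =>
    intro j t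
    have e : grps K L s σ w0 w1 w2 c a (n + 1) j t k =
        grpIf L s w0 w1 w2 j (dgs c j) a t fun t => grpIf L s w0 w1 w2 j (dgs c (K + j)) (σ * a) t
          fun t => grps K L s σ w0 w1 w2 c a n (j + 1) t k := rfl
    rw [e, List.range'_succ, List.flatMap_cons, List.append_assoc, List.append_assoc, dgs_eq,
      dgs_eq]
    exact grpIf_eq w0 w1 w2 j _ a (fun p => c - 16 ^ j + p) (fun r1 =>
      grpIf_eq w0 w1 w2 j _ (σ * a) (fun p => c - 16 ^ (K + j) + cjc K p)
        (fun r2 => ih (j + 1) r2) r1) t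

lemma dRow_eq (K L s : ℕ) (σ w0 w1 w2 : ℤ) (c : ℕ) (a : ℤ) (t : List ℕ) :
    dRow K L s σ w0 w1 w2 c a t = rowVal L s (dTerms K σ w0 w1 w2 c a) t := by
  unfold dRow dTerms
  exact one_eq (fun r1 => one_eq (fun r2 => one_eq (fun r3 => by
    rw [grps_eq σ w0 w1 w2 c a (l := []) (fun r => by cases r <;> rfl) (K - 1) 0 r3,
      List.append_nil, List.range_eq_range']) r2) r1) t

lemma rowsSum_eq {L s : ℕ} {α : Type} {f : α → List ℕ → ℤ} {g : α → Tms}
    (h : ∀ a t, f a t = rowVal L s (g a) t) :
    ∀ (l : List α) (T : List (List ℕ)), rowsSum f l T = allVal L s (l.map g) T := by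
  intro l
  induction l with
  | nil => intro T; cases T <;> rfl
  | cons a l ih =>
    intro T
    rcases T with _ | ⟨t, T⟩
    · rfl
    have e : rowsSum f (a :: l) (t :: T) = f a t + rowsSum f l T := rfl
    rw [e, List.map_cons, allVal, h, ih]

/-- The data of a certificate. -/
structure Data where
  C : Cert
  L : ℕ
  tabs : List ℕ
  main : List Blk
  phib : List Blk
  idx0 : List ℕ
  idxF : List (List ℕ)
  idxS : List (List ℕ)
  idxB : List (List (List (List ℕ)) × List (List (List ℕ)))
  res : List (List ℤ)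
  idxPhi : List (List ℕ)
  idxPhiB : List (List (List (List ℕ)) × List (List (List ℕ)))
  resPhi : List (List ℤ)

/-- The constant row. -/
def Data.constRow (D : Data) : Tms := [(0, -(Int.ofNat D.C.kd * Int.ofNat D.C.scale))]

/-- The rows of the coefficients of `phi`. -/
def Data.rowsF (D : Data) : List Tms :=
  D.C.phi.map fun t =>
    (t.1, Int.ofNat D.C.kn * t.2) :: dTerms D.C.K 1 1 0 (-1) t.1 (-Int.ofNat D.C.kd * t.2)

/-- The rows of the coefficients of `psi`. -/
def Data.rowsS (D : Data) : List Tms :=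
  D.C.psi.map fun t => dTerms D.C.K (-1) 1 2 1 t.1 (Int.ofNat D.C.kd * t.2)

/-- The free rows of the main identity. -/
def Data.freeRows (D : Data) : List Tms := [D.constRow] ++ D.rowsF ++ D.rowsS

/-- The index rows of the free rows. -/
def Data.idx (D : Data) : List (List ℕ) := [D.idx0] ++ D.idxF ++ D.idxS

/-- The value of the free rows in segment `s`. -/
def Data.freeVal (D : Data) (s : ℕ) : ℤ :=
  Int.add (rowVal D.L s D.constRow D.idx0)
    (Int.add
      (rowsSum (fun t r => one D.L s (Int.ofNat D.C.kn * t.2) r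
        (dRow D.C.K D.L s 1 1 0 (-1) t.1 (-Int.ofNat D.C.kd * t.2))) D.C.phi D.idxF)
      (rowsSum (fun t r => dRow D.C.K D.L s (-1) 1 2 1 t.1 (Int.ofNat D.C.kd * t.2) r)
        D.C.psi D.idxS))

/-- The free rows of the positivity identity. -/
def Data.freePhi (D : Data) : List Tms := [[(0, -Int.ofNat D.C.scale)], D.C.phi]

/-- The cheap structural checks. -/
def Data.shapeOk (D : Data) : Bool :=
  Nat.ble 2 D.C.K && Nat.ble 1 D.C.kd && Nat.blt (2 * D.C.kd * (D.C.K + 4)) (2 ^ 11) &&
    freeOk D.C.K D.C.phi && freeOk D.C.K D.C.psi && blksOk D.C.K D.main && blksOk D.C.K D.phib &&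
    Nat.blt (sumLen D.idx + sumLen (flatIdx D.idxB)) (2 ^ 26) &&
    Nat.blt (sumLen D.idxPhi + sumLen (flatIdx D.idxPhiB)) (2 ^ 26) &&
    segsOk D.L D.res && segsOk D.L D.resPhi &&
    Nat.ble (segBound D.tabs D.C.K 0 D.res) (D.C.kd * D.C.scale / 2) &&
    Nat.ble (segBound D.tabs D.C.K 0 D.resPhi) (D.C.scale / 2)

/-- The index checks of the constant row and the positivity rows. -/
def Data.indexOk (D : Data) : Bool :=
  allOk D.C.K D.L D.tabs (D.L * D.res.length) [D.constRow] [D.idx0] &&
    allOk D.C.K D.L D.tabs (D.L * D.resPhi.length) D.freePhi D.idxPhi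

/-- The index check of the rows of `phi`. -/
def Data.indexFOk (D : Data) : Bool :=
  allOk D.C.K D.L D.tabs (D.L * D.res.length) D.rowsF D.idxF

/-- The index check of the rows of `psi`. -/
def Data.indexSOk (D : Data) : Bool :=
  allOk D.C.K D.L D.tabs (D.L * D.res.length) D.rowsS D.idxS

/-- The index checks of the main blocks. -/
def Data.indexBOk (D : Data) : Bool :=
  blksChk D.C.K D.L D.tabs (D.L * D.res.length) D.main D.idxB

/-- The index checks of the positivity blocks. -/
def Data.indexPhiBOk (D : Data) : Bool :=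
  blksChk D.C.K D.L D.tabs (D.L * D.resPhi.length) D.phib D.idxPhiB

/-- The value check of segment `s` of the main identity. -/
def Data.valueOk (D : Data) (s : ℕ) : Bool :=
  decide (D.freeVal s +
      Int.ofNat (blksVal D.C.K D.L s D.C.kd (fun _ => gMinus) gPlus D.main D.idxB) =
    pkZ (D.res.getD s []) +
      Int.ofNat (blksVal D.C.K D.L s D.C.kd gPlus (fun _ => gMinus) D.main D.idxB))

/-- The value check of segment `s` of the positivity identity. -/
def Data.valuePhiOk (D : Data) (s : ℕ) : Bool :=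
  decide (allVal D.L s D.freePhi D.idxPhi +
      Int.ofNat (blksVal D.C.K D.L s 1 (fun _ => gMinus) gPlus D.phib D.idxPhiB) =
    pkZ (D.resPhi.getD s []) +
      Int.ofNat (blksVal D.C.K D.L s 1 gPlus (fun _ => gMinus) D.phib D.idxPhiB))

lemma sumLen_append (A B : List (List ℕ)) : sumLen (A ++ B) = sumLen A + sumLen B := by
  induction A with
  | nil => simp [sumLen]
  | cons a A ih => simp [sumLen, ih, add_assoc]

/-- A checked certificate is good. -/
theorem Data.good_of_checks {D : Data} (h1 : D.shapeOk = true) (h2 : D.indexOk = true)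
    (h2F : D.indexFOk = true) (h2S : D.indexSOk = true)
    (h2B : D.indexBOk = true) (h2P : D.indexPhiBOk = true)
    (h3 : ∀ s < D.res.length, D.valueOk s = true)
    (h4 : ∀ s < D.resPhi.length, D.valuePhiOk s = true) : D.C.Good := by
  simp only [Data.shapeOk, Bool.and_eq_true, Nat.ble_eq, Nat.blt_eq] at h1
  obtain ⟨⟨⟨⟨⟨⟨⟨⟨⟨⟨⟨⟨hK, hkd⟩, hm⟩, hphi⟩, hpsi⟩, hb1⟩, hb2⟩, hl1⟩, hl2⟩, hr1⟩, hr2⟩, hbd1⟩, hbd2⟩ := h1
  simp only [Data.indexOk, Bool.and_eq_true] at h2
  simp only [Data.valueOk, Data.valuePhiOk, decide_eq_true_eq, Int.ofNat_eq_natCast] at h3 h4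
  obtain ⟨a1, a2⟩ := blksChk_sound (m := D.C.kd) hm D.main D.idxB hb1 h2B
  obtain ⟨b1, b2⟩ := blksChk_sound (m := 1)
    (lt_of_le_of_lt (Nat.mul_le_mul_right _ (Nat.mul_le_mul_left _ hkd)) hm) D.phib D.idxPhiB hb2 h2P
  obtain ⟨f1, f2⟩ := all_append h2.1 h2F
  obtain ⟨g1, g2⟩ := all_append f1 h2S
  have hfree : ∀ s, D.freeVal s = allVal D.L s D.freeRows D.idx := by
    intro s
    unfold Data.freeRows Data.idx
    rw [g2, f2]
    have e1 : allVal D.L s [D.constRow] [D.idx0] = rowVal D.L s D.constRow D.idx0 := by simp [allVal]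
    have hF : rowsSum (fun t r => one D.L s (Int.ofNat D.C.kn * t.2) r
        (dRow D.C.K D.L s 1 1 0 (-1) t.1 (-Int.ofNat D.C.kd * t.2))) D.C.phi D.idxF =
        allVal D.L s D.rowsF D.idxF :=
      rowsSum_eq (g := fun t : ℕ × ℤ => (t.1, Int.ofNat D.C.kn * t.2) ::
          dTerms D.C.K 1 1 0 (-1) t.1 (-Int.ofNat D.C.kd * t.2))
        (fun t r => one_eq (c := t.1) (fun r' => dRow_eq D.C.K D.L s 1 1 0 (-1) t.1 _ r') r) _ _
    have hS : rowsSum (fun t r => dRow D.C.K D.L s (-1) 1 2 1 t.1 (Int.ofNat D.C.kd * t.2) r)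
        D.C.psi D.idxS = allVal D.L s D.rowsS D.idxS :=
      rowsSum_eq (g := fun t : ℕ × ℤ => dTerms D.C.K (-1) 1 2 1 t.1 (Int.ofNat D.C.kd * t.2))
        (fun t r => dRow_eq D.C.K D.L s (-1) 1 2 1 t.1 _ r) _ _
    unfold Data.freeVal
    rw [hF, hS, e1]
    simp only [Int.add_def]
    ring
  have g1' : allOk D.C.K D.L D.tabs (D.L * D.res.length) D.freeRows D.idx = true := g1
  obtain ⟨p1, p2⟩ := all_append g1' a1
  obtain ⟨q1, q2⟩ := all_append h2.2 b1
  have s1 : SysGood D.C.K D.L D.tabs (D.freeRows ++ blksRows D.C.K D.C.kd D.main)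
      (D.idx ++ flatIdx D.idxB) D.res (D.C.kd * D.C.scale / 2) :=
    ⟨p1, by rw [sumLen_append]; exact hl1, hr1,
      fun s hs => by rw [p2 s, a2 s]; linarith [h3 s hs, hfree s], hbd1⟩
  have s2 : SysGood D.C.K D.L D.tabs (D.freePhi ++ blksRows D.C.K 1 D.phib)
      (D.idxPhi ++ flatIdx D.idxPhiB) D.resPhi (D.C.scale / 2) :=
    ⟨q1, by rw [sumLen_append]; exact hl2, hr2,
      fun s hs => by rw [q2 s, b2 s]; linarith [h4 s hs], hbd2⟩
  refine ⟨hK, hkd, hphi, hpsi, fun v hv harea h0 => ?_⟩
  have h1' : ∀ i, 1 ≤ i → i < D.C.K → ‖v i‖ ≤ 1 := by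
    intro i hi hiK
    have hle := single_le_sum (f := fun j : ℕ => (j : ℝ) * ‖v j‖ ^ 2)
      (fun j _ => by positivity) (mem_Ico.2 ⟨hi, hiK⟩)
    have hi' : (1 : ℝ) ≤ i := by exact_mod_cast hi
    have hsq : (1 : ℝ) * ‖v i‖ ^ 2 ≤ (i : ℝ) * ‖v i‖ ^ 2 :=
      mul_le_mul_of_nonneg_right hi' (sq_nonneg _)
    rw [← sq_le_one_iff₀ (norm_nonneg _)]
    linarith
  constructor
  · have hb := sys_sound s2 hv (by omega) h0 h1'
    have hneg := blksRows_nonpos hv (by omega) harea h0 1 D.phib hb2
    simp only [Data.freePhi, List.map_append, List.sum_append, List.map_cons, List.map_nil,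
      List.sum_cons, List.sum_nil, evT_cons, evT_nil, ev_zero] at hb
    have hsc : ((D.C.scale / 2 : ℕ) : ℝ) ≤ (D.C.scale : ℝ) / 2 := Nat.cast_div_le
    have := (abs_le.1 hb).1
    rw [Cert.Phi]
    simp at this
    linarith
  · have hb := sys_sound s1 hv (by omega) h0 h1'
    have hneg := blksRows_nonpos hv (by omega) harea h0 D.C.kd D.main hb1
    have hdm : ∀ t : ℕ × ℤ, ∀ (σ w0 w1 w2 a : ℤ), small (D.C.K + D.C.K) 12 t.1 = true →
        evT (D.C.K + D.C.K) v (dTerms D.C.K σ w0 w1 w2 t.1 a) =
          (a : ℂ) * dVal D.C.K v σ w0 w1 w2 t.1 :=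
      fun t σ w0 w1 w2 a ht => evT_dTerms hv hK σ w0 w1 w2 ht a
    have hP : ∀ l : Tms, freeOk D.C.K l = true →
        ((l.map fun t : ℕ × ℤ => (t.1, Int.ofNat D.C.kn * t.2) ::
            dTerms D.C.K 1 1 0 (-1) t.1 (-Int.ofNat D.C.kd * t.2)).map
            fun r => (evT (D.C.K + D.C.K) v r).re).sum =
          (D.C.kn : ℝ) * (evT (D.C.K + D.C.K) v l).re -
            D.C.kd * ((l.map fun t => (t.2 : ℂ) * dVal D.C.K v 1 1 0 (-1) t.1).sum).re := by
      intro l
      induction l with
      | nil => simp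
      | cons t l ih =>
        intro hl
        simp only [freeOk, List.all_cons, Bool.and_eq_true] at hl
        have h3 := ih (by simpa [freeOk] using hl.2)
        simp only [List.map_cons, List.sum_cons, evT_cons, Complex.add_re, h3,
          hdm t 1 1 0 (-1) _ hl.1.1.1]
        simp
        ring
    have hQ : ∀ l : Tms, freeOk D.C.K l = true →
        ((l.map fun t : ℕ × ℤ => dTerms D.C.K (-1) 1 2 1 t.1 (Int.ofNat D.C.kd * t.2)).map
            fun r => (evT (D.C.K + D.C.K) v r).re).sum =
          D.C.kd * ((l.map fun t => (t.2 : ℂ) * dVal D.C.K v (-1) 1 2 1 t.1).sum).re := by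
      intro l
      induction l with
      | nil => simp
      | cons t l ih =>
        intro hl
        simp only [freeOk, List.all_cons, Bool.and_eq_true] at hl
        have h3 := ih (by simpa [freeOk] using hl.2)
        simp only [List.map_cons, List.sum_cons, Complex.add_re, h3,
          hdm t (-1) 1 2 1 _ hl.1.1.1]
        simp
        ring
    simp only [Data.freeRows, Data.constRow, Data.rowsF, Data.rowsS, List.cons_append, List.nil_append, List.map_cons, List.map_append, List.sum_cons,
      List.sum_append, evT_cons, evT_nil, ev_zero, hP _ hphi, hQ _ hpsi] at hb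
    have hsc : ((D.C.kd * D.C.scale / 2 : ℕ) : ℝ) ≤ (D.C.kd : ℝ) * D.C.scale / 2 := by
      refine Nat.cast_div_le.trans ?_
      push_cast
      rfl
    have := (abs_le.1 hb).1
    rw [Cert.Phi, Cert.radial, Cert.angular]
    simp at this
    linarith

/-- The base `2 ^ 16` digits of a packed index row. -/
def unpack16 : ℕ → ℕ → List ℕ
  | 0, _ => []
  | n + 1, p => p % 2 ^ 16 :: unpack16 n (p / 2 ^ 16)

/-- The signed base `2 ^ 168` digits with offset `2 ^ 167`. -/
def unpackZ : ℕ → ℕ → List ℤ
  | 0, _ => []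
  | n + 1, p => (Int.ofNat (p % 2 ^ 168) - 2 ^ 167) :: unpackZ n (p / 2 ^ 168)

/-- The base `2 ^ 80` digits of packed codes. -/
def unpack80 : ℕ → ℕ → List ℕ
  | 0, _ => []
  | n + 1, p => p % 2 ^ 80 :: unpack80 n (p / 2 ^ 80)

/-- A packed term list. -/
def unpackTms (n p q : ℕ) : Tms := (unpack80 n p).zip (unpackZ n q)

end Vale.Agent.P142b
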