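import Vale.Agent.P142b.Coeff

/-!
The Koebe transform coefficients as functions of the base point in polar coordinates.
-/

noncomputable section

open Finset Metric
open scoped ComplexConjugate Nat

namespace Vale.Agent.P142b

/-- The point `r exp (i θ)`. -/
def pt (r θ : ℝ) : ℂ := (r : ℂ) * Complex.exp ((θ : ℂ) * Complex.I)

/-- The rotated Taylor coefficient number `k` at `pt r θ`. -/
def dd (f : ℂ → ℂ) (r θ : ℝ) (k : ℕ) : ℂ :=
  Complex.exp ((θ : ℂ) * Complex.I) ^ k * iteratedDeriv k f (pt r θ) / (k ! : ℂ)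

/-- The weight of `dd (j + 1)` in coefficient `n` of the Koebe transform. -/
def wt (r : ℝ) (n j : ℕ) : ℂ :=
  ((n - 1).choose j : ℂ) * (1 - (r : ℂ) ^ 2) ^ (j + 1) * (-(r : ℂ)) ^ (n - 1 - j)

/-- Coefficient `n` of the Koebe transform. -/
def cc (f : ℂ → ℂ) (r θ : ℝ) (n : ℕ) : ℂ := ∑ j ∈ range n, wt r n j * dd f r θ (j + 1)

/-- The normalised coefficient `n` of the Koebe transform. -/
def aa (f : ℂ → ℂ) (r θ : ℝ) (n : ℕ) : ℂ := cc f r θ n / cc f r θ 1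

/-- The coordinates of the base point and their conjugates. -/
def vv (f : ℂ → ℂ) (K : ℕ) (r θ : ℝ) (i : ℕ) : ℂ :=
  if i < K then xCoef (aa f r θ) i else conj (xCoef (aa f r θ) (i - K))

/-- The density `1 / (‖f'‖² (1 - r²)²)`. -/
def dens (f : ℂ → ℂ) (r θ : ℝ) : ℝ := (‖cc f r θ 1‖ ^ 2)⁻¹

lemma vv_conj (f : ℂ → ℂ) (K : ℕ) (r θ : ℝ) :
    ∀ i < K, vv f K r θ (K + i) = conj (vv f K r θ i) := by
  intro i hi
  simp [vv, hi]

lemma norm_pt {r : ℝ} (hr : 0 ≤ r) (θ : ℝ) : ‖pt r θ‖ = r := by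
  simp [pt, abs_of_nonneg hr]

lemma pt_mem {r : ℝ} (hr : r ∈ Set.Ioo (-1 : ℝ) 1) (θ : ℝ) : pt r θ ∈ ball (0 : ℂ) 1 := by
  simp [pt, abs_lt.2 hr]

lemma cc_one (f : ℂ → ℂ) (r θ : ℝ) :
    cc f r θ 1 = (1 - (r : ℂ) ^ 2) * Complex.exp ((θ : ℂ) * Complex.I) * deriv f (pt r θ) := by
  simp [cc, wt, dd]
  ring

lemma one_sub_sq_ne {r : ℝ} (hr : r ∈ Set.Ioo (-1 : ℝ) 1) : (1 - (r : ℂ) ^ 2) ≠ 0 := by
  have h : (1 - r ^ 2 : ℝ) ≠ 0 := by nlinarith [hr.1, hr.2]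
  exact_mod_cast h

lemma cc_one_ne {f : ℂ → ℂ} (hd : ∀ z ∈ ball (0 : ℂ) 1, deriv f z ≠ 0) {r : ℝ}
    (hr : r ∈ Set.Ioo (-1 : ℝ) 1) (θ : ℝ) : cc f r θ 1 ≠ 0 := by
  rw [cc_one]
  exact mul_ne_zero (mul_ne_zero (one_sub_sq_ne hr) (Complex.exp_ne_zero _))
    (hd _ (pt_mem hr θ))

lemma aa_one {f : ℂ → ℂ} (hd : ∀ z ∈ ball (0 : ℂ) 1, deriv f z ≠ 0) {r : ℝ}
    (hr : r ∈ Set.Ioo (-1 : ℝ) 1) (θ : ℝ) : aa f r θ 1 = 1 := div_self (cc_one_ne hd hr θ)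

lemma dens_pos {f : ℂ → ℂ} (hd : ∀ z ∈ ball (0 : ℂ) 1, deriv f z ≠ 0) {r : ℝ}
    (hr : r ∈ Set.Ioo (-1 : ℝ) 1) (θ : ℝ) : 0 < dens f r θ :=
  inv_pos.2 (pow_pos (norm_pos_iff.2 (cc_one_ne hd hr θ)) 2)

variable {f : ℂ → ℂ}

lemma differentiableOn_iteratedDeriv (hf : DifferentiableOn ℂ f (ball 0 1)) :
    ∀ k, DifferentiableOn ℂ (iteratedDeriv k f) (ball 0 1) := by
  intro k
  induction k with
  | zero => simpa using hf
  | succ k ih => rw [iteratedDeriv_succ]; exact ih.deriv isOpen_ball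

lemma hasDerivAt_iteratedDeriv (hf : DifferentiableOn ℂ f (ball 0 1)) (k : ℕ) {z : ℂ}
    (hz : z ∈ ball (0 : ℂ) 1) : HasDerivAt (iteratedDeriv k f) (iteratedDeriv (k + 1) f z) z := by
  rw [iteratedDeriv_succ]
  exact ((differentiableOn_iteratedDeriv hf k).differentiableAt (isOpen_ball.mem_nhds hz)).hasDerivAt

lemma hasDerivAt_dd_r (hf : DifferentiableOn ℂ f (ball 0 1)) {r : ℝ}
    (hr : r ∈ Set.Ioo (-1 : ℝ) 1) (θ : ℝ) (k : ℕ) :
    HasDerivAt (fun u => dd f u θ k) (((k : ℂ) + 1) * dd f r θ (k + 1)) r := by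
  set E := Complex.exp ((θ : ℂ) * Complex.I) with hE
  have h1 : HasDerivAt (fun u : ℝ => pt u θ) E r := by
    simpa [pt] using Complex.ofRealCLM.hasDerivAt.mul_const E
  have h2 := HasDerivAt.comp r (hasDerivAt_iteratedDeriv hf k (pt_mem hr θ)) h1
  have h3 := (h2.const_mul (E ^ k)).div_const (k ! : ℂ)
  refine h3.congr_deriv ?_
  have hk : ((k : ℂ) + 1) ≠ 0 := by exact_mod_cast k.succ_ne_zero
  have hk' : (k ! : ℂ) ≠ 0 := by exact_mod_cast k.factorial_ne_zero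
  simp only [dd, Nat.factorial_succ, ← hE]
  push_cast
  field_simp
  ring

lemma hasDerivAt_dd_theta (hf : DifferentiableOn ℂ f (ball 0 1)) {r : ℝ}
    (hr : r ∈ Set.Ioo (-1 : ℝ) 1) (θ : ℝ) (k : ℕ) :
    HasDerivAt (fun u => dd f r u k)
      (Complex.I * ((k : ℂ) * dd f r θ k + (r : ℂ) * ((k : ℂ) + 1) * dd f r θ (k + 1))) θ := by
  set E := Complex.exp ((θ : ℂ) * Complex.I) with hE
  have h0 : HasDerivAt (fun u : ℝ => Complex.exp ((u : ℂ) * Complex.I)) (E * Complex.I) θ := by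
    simpa using (Complex.ofRealCLM.hasDerivAt.mul_const Complex.I).cexp (x := θ)
  have h1 : HasDerivAt (fun u : ℝ => pt r u) ((r : ℂ) * (E * Complex.I)) θ := h0.const_mul _
  have h2 := HasDerivAt.comp θ (hasDerivAt_iteratedDeriv hf k (pt_mem hr θ)) h1
  have h3 := ((h0.fun_pow k).fun_mul h2).div_const (k ! : ℂ)
  refine h3.congr_deriv ?_
  have hk : ((k : ℂ) + 1) ≠ 0 := by exact_mod_cast k.succ_ne_zero
  have hk' : (k ! : ℂ) ≠ 0 := by exact_mod_cast k.factorial_ne_zero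
  simp only [dd, Nat.factorial_succ, ← hE, Function.comp_apply]
  push_cast
  rcases k with _ | k
  · simp; ring
  · simp only [Nat.add_sub_cancel]
    field_simp
    push_cast
    ring

/-- The weights move by the three-term rule. -/
lemma cc_identity_r (r : ℂ) (D : ℕ → ℂ) {n : ℕ} (h1 : 1 ≤ n) (h12 : n ≤ 12) :
    (1 - r ^ 2) * ∑ j ∈ range n, (((n - 1).choose j : ℂ) *
        ((((j : ℂ) + 1) * (1 - r ^ 2) ^ j * (-2 * r)) * (-r) ^ (n - 1 - j) +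
          (1 - r ^ 2) ^ (j + 1) * (((n - 1 - j : ℕ) : ℂ) * (-r) ^ (n - 1 - j - 1) * -1)) * D (j + 1) +
        ((n - 1).choose j : ℂ) * (1 - r ^ 2) ^ (j + 1) * (-r) ^ (n - 1 - j) *
          (((j : ℂ) + 2) * D (j + 2))) =
      ((n : ℂ) + 1) * (∑ j ∈ range (n + 1), ((n.choose j : ℂ) * (1 - r ^ 2) ^ (j + 1) *
          (-r) ^ (n - j)) * D (j + 1)) -
      ((n : ℂ) - 1) * (∑ j ∈ range (n - 1), (((n - 2).choose j : ℂ) * (1 - r ^ 2) ^ (j + 1) *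
          (-r) ^ (n - 2 - j)) * D (j + 1)) := by
  interval_cases n <;> simp [sum_range_succ, Nat.choose] <;> ring

lemma cc_identity_theta (r : ℂ) (D : ℕ → ℂ) {n : ℕ} (h1 : 1 ≤ n) (h12 : n ≤ 12) :
    (1 - r ^ 2) * ∑ j ∈ range n, ((n - 1).choose j : ℂ) * (1 - r ^ 2) ^ (j + 1) *
        (-r) ^ (n - 1 - j) * (((j : ℂ) + 1) * D (j + 1) + r * ((j : ℂ) + 2) * D (j + 2)) =
      r * ((n : ℂ) + 1) * (∑ j ∈ range (n + 1), ((n.choose j : ℂ) * (1 - r ^ 2) ^ (j + 1) *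
          (-r) ^ (n - j)) * D (j + 1)) +
      (1 + r ^ 2) * (n : ℂ) * (∑ j ∈ range n, (((n - 1).choose j : ℂ) * (1 - r ^ 2) ^ (j + 1) *
          (-r) ^ (n - 1 - j)) * D (j + 1)) +
      r * ((n : ℂ) - 1) * (∑ j ∈ range (n - 1), (((n - 2).choose j : ℂ) * (1 - r ^ 2) ^ (j + 1) *
          (-r) ^ (n - 2 - j)) * D (j + 1)) := by
  interval_cases n <;> simp [sum_range_succ, Nat.choose] <;> ring

lemma hasDerivAt_cc_r (hf : DifferentiableOn ℂ f (ball 0 1)) {r : ℝ}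
    (hr : r ∈ Set.Ioo (-1 : ℝ) 1) (θ : ℝ) {n : ℕ} (h1 : 1 ≤ n) (h12 : n ≤ 12) :
    HasDerivAt (fun u => cc f u θ n)
      ((((n : ℂ) + 1) * cc f r θ (n + 1) - ((n : ℂ) - 1) * cc f r θ (n - 1)) / (1 - (r : ℂ) ^ 2)) r := by
  have hR : HasDerivAt (fun u : ℝ => (u : ℂ)) 1 r := by
    exact Complex.ofRealCLM.hasDerivAt (x := r)
  have hS : HasDerivAt (fun u : ℝ => 1 - (u : ℂ) ^ 2) (-2 * (r : ℂ)) r := by
    simpa using (hR.fun_pow 2).const_sub 1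
  have hw : ∀ j, HasDerivAt (fun u => wt u n j) (((n - 1).choose j : ℂ) *
      ((((j : ℂ) + 1) * (1 - (r : ℂ) ^ 2) ^ j * (-2 * (r : ℂ))) * (-(r : ℂ)) ^ (n - 1 - j) +
        (1 - (r : ℂ) ^ 2) ^ (j + 1) *
          (((n - 1 - j : ℕ) : ℂ) * (-(r : ℂ)) ^ (n - 1 - j - 1) * -1))) r := by
    intro j
    have := (((hS.fun_pow (j + 1)).fun_mul (hR.fun_neg.fun_pow (n - 1 - j))).const_mul
      (((n - 1).choose j : ℂ)))
    refine (this.congr_deriv ?_).congr_of_eventuallyEq (Filter.Eventually.of_forall fun u => ?_)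
    · simp
    · simp [wt, mul_assoc]
  refine (HasDerivAt.fun_sum fun j _ => (hw j).fun_mul (hasDerivAt_dd_r hf hr θ (j + 1))).congr_deriv ?_
  have hid := cc_identity_r (r : ℂ) (dd f r θ) h1 h12
  rw [eq_div_iff (one_sub_sq_ne hr), mul_comm]
  simp only [cc, wt, Nat.add_sub_cancel, show n - 1 - 1 = n - 2 by omega, add_assoc] at hid ⊢
  convert hid using 4 with j <;> push_cast <;> ring

lemma hasDerivAt_cc_theta (hf : DifferentiableOn ℂ f (ball 0 1)) {r : ℝ}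
    (hr : r ∈ Set.Ioo (-1 : ℝ) 1) (θ : ℝ) {n : ℕ} (h1 : 1 ≤ n) (h12 : n ≤ 12) :
    HasDerivAt (fun u => cc f r u n)
      (Complex.I * ((r : ℂ) * ((n : ℂ) + 1) * cc f r θ (n + 1) +
        (1 + (r : ℂ) ^ 2) * (n : ℂ) * cc f r θ n +
        (r : ℂ) * ((n : ℂ) - 1) * cc f r θ (n - 1)) / (1 - (r : ℂ) ^ 2)) θ := by
  refine (HasDerivAt.fun_sum fun j _ =>
    (hasDerivAt_dd_theta hf hr θ (j + 1)).const_mul (wt r n j)).congr_deriv ?_
  have hid := cc_identity_theta (r : ℂ) (dd f r θ) h1 h12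
  rw [eq_div_iff (one_sub_sq_ne hr)]
  simp only [cc, wt, Nat.add_sub_cancel, show n - 1 - 1 = n - 2 by omega] at hid ⊢
  rw [← hid, ← mul_assoc, mul_sum, sum_mul]
  refine sum_congr rfl fun j _ => ?_
  push_cast
  ring

lemma hasDerivAt_aa_r (hf : DifferentiableOn ℂ f (ball 0 1))
    (hd : ∀ z ∈ ball (0 : ℂ) 1, deriv f z ≠ 0) {r : ℝ} (hr : r ∈ Set.Ioo (-1 : ℝ) 1) (θ : ℝ)
    {n : ℕ} (h1 : 1 ≤ n) (h12 : n ≤ 12) :
    HasDerivAt (fun u => aa f u θ n) (aDelta (aa f r θ) 1 0 (-1) n / (1 - (r : ℂ) ^ 2)) r := by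
  have h := (hasDerivAt_cc_r hf hr θ h1 h12).fun_div
    (hasDerivAt_cc_r hf hr θ le_rfl (by norm_num)) (cc_one_ne hd hr θ)
  refine h.congr_deriv ?_
  have := cc_one_ne hd hr θ
  have := one_sub_sq_ne hr
  simp only [aDelta, aa, show (1 : ℕ) + 1 = 2 from rfl]
  field_simp
  push_cast
  ring

lemma hasDerivAt_aa_theta (hf : DifferentiableOn ℂ f (ball 0 1))
    (hd : ∀ z ∈ ball (0 : ℂ) 1, deriv f z ≠ 0) {r : ℝ} (hr : r ∈ Set.Ioo (-1 : ℝ) 1) (θ : ℝ)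
    {n : ℕ} (h1 : 1 ≤ n) (h12 : n ≤ 12) :
    HasDerivAt (fun u => aa f r u n)
      (aDelta (aa f r θ) (Complex.I * r) (Complex.I * (1 + (r : ℂ) ^ 2)) (Complex.I * r) n /
        (1 - (r : ℂ) ^ 2)) θ := by
  have h := (hasDerivAt_cc_theta hf hr θ h1 h12).fun_div
    (hasDerivAt_cc_theta hf hr θ le_rfl (by norm_num)) (cc_one_ne hd hr θ)
  refine h.congr_deriv ?_
  have := cc_one_ne hd hr θ
  have := one_sub_sq_ne hr
  simp only [aDelta, aa, show (1 : ℕ) + 1 = 2 from rfl]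
  field_simp
  push_cast
  ring

end Vale.Agent.P142b
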