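import Vale.Agent.P142b.Flow
import Vale.Agent.P142b.Area
import Vale.Agent.P142.Distortion

/-!
The area inequality for the coefficients of the Koebe transforms.
-/

noncomputable section

open Finset Metric PowerSeries Vale.Agent.P142
open scoped ComplexConjugate Nat Topology

namespace Vale.Agent.P142b

/-- `h` has the series `P` up to order `M` on the disc. -/
def Agree (M : ℕ) (h : ℂ → ℂ) (P : PowerSeries ℂ) : Prop :=
  ∃ E : ℂ → ℂ, DifferentiableOn ℂ E (ball 0 1) ∧
    ∀ ζ ∈ ball (0 : ℂ) 1, h ζ = (trunc M P).eval ζ + ζ ^ M * E ζ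

lemma Agree.of_polynomial {M : ℕ} {h : ℂ → ℂ} {P : PowerSeries ℂ} (p : Polynomial ℂ)
    (hp : ∀ ζ ∈ ball (0 : ℂ) 1, h ζ = p.eval ζ) (hc : ∀ n < M, p.coeff n = coeff n P) :
    Agree M h P := by
  obtain ⟨q, hq⟩ : (Polynomial.X : Polynomial ℂ) ^ M ∣ p - trunc M P :=
    Polynomial.X_pow_dvd_iff.2 fun n hn => by simp [PowerSeries.coeff_trunc, hn, hc n hn]
  refine ⟨fun ζ => q.eval ζ, q.differentiable.differentiableOn, fun ζ hζ => ?_⟩
  have h1 := congrArg (Polynomial.eval ζ) hq
  simp only [Polynomial.eval_sub, Polynomial.eval_mul, Polynomial.eval_pow, Polynomial.eval_X] at h1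
  rw [hp ζ hζ]
  linear_combination h1

lemma Agree.congr {M : ℕ} {h g : ℂ → ℂ} {P : PowerSeries ℂ} (hh : Agree M h P)
    (e : ∀ ζ ∈ ball (0 : ℂ) 1, g ζ = h ζ) : Agree M g P := by
  obtain ⟨E, hE, he⟩ := hh
  exact ⟨E, hE, fun ζ hζ => (e ζ hζ).trans (he ζ hζ)⟩

lemma Agree.add {M : ℕ} {h g : ℂ → ℂ} {P Q : PowerSeries ℂ} (hh : Agree M h P) (hg : Agree M g Q) :
    Agree M (fun ζ => h ζ + g ζ) (P + Q) := by
  obtain ⟨E, hE, he⟩ := hh
  obtain ⟨F, hF, hf⟩ := hg
  refine ⟨fun ζ => E ζ + F ζ, hE.add hF, fun ζ hζ => ?_⟩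
  simp only [map_add, Polynomial.eval_add, he ζ hζ, hf ζ hζ]
  ring

lemma Agree.zero (M : ℕ) : Agree M (fun _ => 0) 0 :=
  Agree.of_polynomial 0 (by simp) (by simp)

lemma Agree.sum {M : ℕ} {ι : Type} (s : Finset ι) (h : ι → ℂ → ℂ) (P : ι → PowerSeries ℂ)
    (hh : ∀ i ∈ s, Agree M (h i) (P i)) :
    Agree M (fun ζ => ∑ i ∈ s, h i ζ) (∑ i ∈ s, P i) := by
  classical
  induction s using Finset.induction_on with
  | empty => simpa using Agree.zero M
  | insert i s hi ih =>
    simp only [Finset.sum_insert hi]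
    exact (hh i (mem_insert_self i s)).add (ih fun j hj => hh j (mem_insert_of_mem hj))

lemma differentiableOn_mul_eval (p : Polynomial ℂ) {E : ℂ → ℂ}
    (hE : DifferentiableOn ℂ E (ball 0 1)) :
    DifferentiableOn ℂ (fun ζ => p.eval ζ * E ζ) (ball 0 1) :=
  p.differentiable.differentiableOn.mul hE

lemma trunc_mul_eval (M : ℕ) (P Q : PowerSeries ℂ) :
    ∃ q : Polynomial ℂ, ∀ ζ : ℂ,
      (trunc M P).eval ζ * (trunc M Q).eval ζ = (trunc M (P * Q)).eval ζ + ζ ^ M * q.eval ζ := by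
  obtain ⟨q, hq⟩ : (Polynomial.X : Polynomial ℂ) ^ M ∣ trunc M P * trunc M Q - trunc M (P * Q) :=
    Polynomial.X_pow_dvd_iff.2 fun n hn => by
      rw [Polynomial.coeff_sub, sub_eq_zero, PowerSeries.coeff_trunc, if_pos hn]
      have h2 := congrArg (fun p : Polynomial ℂ => p.coeff n) (trunc_trunc_mul_trunc (n := M) P Q)
      simp only [PowerSeries.coeff_trunc, if_pos hn] at h2
      rw [← h2, ← Polynomial.coe_mul, Polynomial.coeff_coe]
  refine ⟨q, fun ζ => ?_⟩
  have h1 := congrArg (Polynomial.eval ζ) hq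
  simp only [Polynomial.eval_sub, Polynomial.eval_mul, Polynomial.eval_pow, Polynomial.eval_X] at h1
  linear_combination h1

lemma Agree.mul {M : ℕ} {h g : ℂ → ℂ} {P Q : PowerSeries ℂ} (hh : Agree M h P) (hg : Agree M g Q) :
    Agree M (fun ζ => h ζ * g ζ) (P * Q) := by
  obtain ⟨E, hE, he⟩ := hh
  obtain ⟨F, hF, hf⟩ := hg
  obtain ⟨q, hq⟩ := trunc_mul_eval M P Q
  refine ⟨fun ζ => q.eval ζ + (trunc M P).eval ζ * F ζ + (trunc M Q).eval ζ * E ζ + ζ ^ M * (E ζ * F ζ),
    ((q.differentiable.differentiableOn.add (differentiableOn_mul_eval _ hF)).add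
      (differentiableOn_mul_eval _ hE)).add ((differentiableOn_id.pow M).mul (hE.mul hF)),
    fun ζ hζ => ?_⟩
  simp only [he ζ hζ, hf ζ hζ]
  linear_combination hq ζ

lemma Agree.pow {M : ℕ} {h : ℂ → ℂ} {P : PowerSeries ℂ} (hh : Agree M h P) :
    ∀ k, Agree M (fun ζ => h ζ ^ k) (P ^ k) := by
  intro k
  induction k with
  | zero =>
    simp only [pow_zero]
    exact Agree.of_polynomial 1 (by simp) (fun n _ => by
      simp [Polynomial.coeff_one, PowerSeries.coeff_one])
  | succ k ih => simpa [pow_succ] using ih.mul hh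

lemma Agree.inv {M : ℕ} (hM : 1 ≤ M) {h : ℂ → ℂ} {P : PowerSeries ℂ} (hh : Agree M h P)
    (h0 : constantCoeff P ≠ 0) (hne : ∀ ζ ∈ ball (0 : ℂ) 1, h ζ ≠ 0) :
    Agree M (fun ζ => (h ζ)⁻¹) P⁻¹ := by
  obtain ⟨E, hE, he⟩ := hh
  obtain ⟨q, hq⟩ := trunc_mul_eval M P P⁻¹
  have hhd : DifferentiableOn ℂ h (ball 0 1) :=
    ((trunc M P).differentiable.differentiableOn.add ((differentiableOn_id.pow M).mul hE)).congr he
  refine ⟨fun ζ => -(q.eval ζ + (trunc M P⁻¹).eval ζ * E ζ) / h ζ,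
    ((q.differentiable.differentiableOn.add (differentiableOn_mul_eval _ hE)).neg).div hhd hne,
    fun ζ hζ => ?_⟩
  obtain ⟨M', rfl⟩ : ∃ M', M = M' + 1 := ⟨M - 1, by omega⟩
  have h1 := hq ζ
  rw [PowerSeries.mul_inv_cancel P h0, trunc_one, Polynomial.eval_one] at h1
  have := hne ζ hζ
  field_simp
  rw [he ζ hζ]
  linear_combination -h1

/-- Taylor's formula with a holomorphic remainder. -/
lemma taylor_split {f : ℂ → ℂ} (hf : DifferentiableOn ℂ f (ball 0 1)) {z : ℂ}
    (hz : z ∈ ball (0 : ℂ) 1) : ∀ M : ℕ, ∃ G : ℂ → ℂ, DifferentiableOn ℂ G (ball 0 1) ∧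
    ∀ w, f w = ∑ j ∈ range M, (j ! : ℂ)⁻¹ * iteratedDeriv j f z * (w - z) ^ j +
      (w - z) ^ M * G w := by
  have hnh : ball (0 : ℂ) 1 ∈ 𝓝 z := isOpen_ball.mem_nhds hz
  have han : AnalyticAt ℂ f z := hf.analyticAt hnh
  obtain ⟨p, hp⟩ := han
  have hcoef : ∀ j, p.coeff j = (j ! : ℂ)⁻¹ * iteratedDeriv j f z := by
    intro j
    have e : p = FormalMultilinearSeries.ofScalars ℂ (fun n => iteratedDeriv n f z / (n ! : ℂ)) :=
      hp.eq_formalMultilinearSeries (hf.analyticAt hnh).hasFPowerSeriesAt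
    rw [e, FormalMultilinearSeries.coeff_ofScalars]
    ring
  intro M
  refine ⟨(Function.swap dslope z)^[M] f, ?_, ?_⟩
  · induction M with
    | zero => exact hf
    | succ M ih =>
      rw [Function.iterate_succ_apply']
      exact (Complex.differentiableOn_dslope hnh).2 ih
  · induction M with
    | zero => simp
    | succ M ih =>
      intro w
      set G := (Function.swap dslope z)^[M] f with hG
      have hGz : G z = (M ! : ℂ)⁻¹ * iteratedDeriv M f z := by
        rw [hG, ← (hp.has_fpower_series_iterate_dslope_fslope M).coeff_zero 1,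
          ← FormalMultilinearSeries.coeff, FormalMultilinearSeries.coeff_iterate_fslope,
          zero_add, hcoef]
      have h1 := sub_smul_dslope G z w
      rw [smul_eq_mul] at h1
      rw [sum_range_succ, ih w, Function.iterate_succ_apply', ← hG, ← hGz, pow_succ]
      simp only [Function.swap]
      linear_combination (-(w - z) ^ M) * h1

/-- The series of `(1 + r X)⁻¹` to the power `k + 1`. -/
lemma invPow_series (r : ℂ) (k : ℕ) :
    ((1 : PowerSeries ℂ) + C r * X)⁻¹ ^ (k + 1) =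
      rescale (-r) (PowerSeries.mk fun n => ((k + n).choose k : ℂ)) := by
  have h0 : constantCoeff ((1 : PowerSeries ℂ) + C r * X) ≠ 0 := by simp
  have h1 : rescale (-r) ((1 : PowerSeries ℂ) - X) = 1 + C r * X := by
    rw [map_sub, map_one, rescale_X, map_neg, neg_mul, sub_neg_eq_add]
  have h2 := congrArg (rescale (-r))
    (mk_add_choose_mul_one_sub_pow_eq_one (S := ℂ) (d := k))
  rw [map_mul, map_pow, h1, map_one] at h2
  calc ((1 : PowerSeries ℂ) + C r * X)⁻¹ ^ (k + 1)
      = (rescale (-r) (PowerSeries.mk fun n => ((k + n).choose k : ℂ)) * (1 + C r * X) ^ (k + 1)) *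
          ((1 : PowerSeries ℂ) + C r * X)⁻¹ ^ (k + 1) := by rw [h2, one_mul]
    _ = _ := by
      rw [mul_assoc, ← mul_pow, PowerSeries.mul_inv_cancel _ h0, one_pow, mul_one]

variable {f : ℂ → ℂ}

/-- The area inequality and the second coefficient bound for the coordinates. -/
theorem vv_bounds (hf : DifferentiableOn ℂ f (ball 0 1)) (hinj : Set.InjOn f (ball 0 1))
    (hd : ∀ z ∈ ball (0 : ℂ) 1, deriv f z ≠ 0) {K : ℕ} (hK : 2 ≤ K) {r : ℝ}
    (hr : r ∈ Set.Ico (0 : ℝ) 1) (θ : ℝ) :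
    (∑ j ∈ Ico 1 K, (j : ℝ) * ‖vv f K r θ j‖ ^ 2 ≤ 1) ∧ ‖vv f K r θ 0‖ ≤ 2 := by
  have hr' : r ∈ Set.Ioo (-1 : ℝ) 1 := ⟨by linarith [hr.1], hr.2⟩
  have hz := pt_mem hr' θ
  set e := Complex.exp ((θ : ℂ) * Complex.I) with he
  set z := pt r θ with hzdef
  set s : ℂ := 1 - (r : ℂ) ^ 2 with hs
  have hs0 : s ≠ 0 := one_sub_sq_ne hr'
  have he0 : e ≠ 0 := Complex.exp_ne_zero _
  have hc0 : cc f r θ 1 ≠ 0 := cc_one_ne hd hr' θ
  have ha1 := aa_one hd hr' θ
  constructor
  · -- the transformed map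
    set mob : ℂ → ℂ := fun ζ => e * (ζ + r) / (1 + r * ζ) with hmob
    have hne : ∀ ζ ∈ ball (0 : ℂ) 1, 1 + (r : ℂ) * ζ ≠ 0 := by
      intro ζ hζ h
      have h1 : ‖(r : ℂ) * ζ‖ = 1 := by
        rw [show (r : ℂ) * ζ = -1 by linear_combination h]; simp
      rw [norm_mul, Complex.norm_real, Real.norm_eq_abs, abs_of_nonneg hr.1] at h1
      have h2 : ‖ζ‖ < 1 := by simpa using hζ
      nlinarith [hr.2, norm_nonneg ζ]
    have hmaps : ∀ ζ ∈ ball (0 : ℂ) 1, mob ζ ∈ ball (0 : ℂ) 1 := by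
      intro ζ hζ
      have h2 : ‖ζ‖ < 1 := by simpa using hζ
      simp only [mob, mem_ball, dist_zero_right, norm_div, norm_mul, he,
        Complex.norm_exp_ofReal_mul_I, one_mul]
      rw [div_lt_one (norm_pos_iff.2 (hne ζ hζ))]
      refine lt_of_pow_lt_pow_left₀ 2 (norm_nonneg _) ?_
      have e1 : ‖1 + (r : ℂ) * ζ‖ ^ 2 - ‖ζ + r‖ ^ 2 = (1 - r ^ 2) * (1 - ‖ζ‖ ^ 2) := by
        simp only [Complex.sq_norm, Complex.normSq_apply, Complex.add_re, Complex.add_im,
          Complex.one_re, Complex.one_im, Complex.mul_re, Complex.mul_im, Complex.ofReal_re,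
          Complex.ofReal_im]
        ring
      nlinarith [mul_pos (by nlinarith [hr.1, hr.2] : 0 < 1 - r ^ 2)
        (by nlinarith [norm_nonneg ζ] : 0 < 1 - ‖ζ‖ ^ 2)]
    have hmobz : ∀ ζ ∈ ball (0 : ℂ) 1, mob ζ - z = ζ * (e * s * (1 + (r : ℂ) * ζ)⁻¹) := by
      intro ζ hζ
      have := hne ζ hζ
      simp only [mob, hzdef, pt, hs, ← he, div_eq_mul_inv]
      linear_combination ((r : ℂ) * e) * mul_inv_cancel₀ this
    have hmobd : DifferentiableOn ℂ mob (ball 0 1) :=
      ((differentiableOn_id.add_const _).const_mul _).div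
        ((differentiableOn_id.const_mul _).const_add _) hne
    set M := K + 1 with hM
    obtain ⟨G, hGd, hG⟩ := taylor_split hf hz (M + 1)
    set R : PowerSeries ℂ := ((1 : PowerSeries ℂ) + C (r : ℂ) * X)⁻¹ with hR
    set ψ : ℂ → ℂ := fun ζ => e * s * (1 + (r : ℂ) * ζ)⁻¹ with hψ
    have hψA : Agree M ψ (C (e * s) * R) := by
      have h1 : Agree M (fun ζ => 1 + (r : ℂ) * ζ) ((1 : PowerSeries ℂ) + C (r : ℂ) * X) :=
        Agree.of_polynomial (1 + Polynomial.C (r : ℂ) * Polynomial.X) (by simp) fun n _ => by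
          rw [Polynomial.coeff_add, map_add, Polynomial.coeff_C_mul, PowerSeries.coeff_C_mul,
            Polynomial.coeff_one, PowerSeries.coeff_one, Polynomial.coeff_X, PowerSeries.coeff_X]
          simp [eq_comm]
      have h2 : Agree M (fun _ => e * s) (C (e * s)) :=
        Agree.of_polynomial (Polynomial.C (e * s)) (by simp) fun n _ => by
          rw [Polynomial.coeff_C, PowerSeries.coeff_C]
      exact h2.mul (h1.inv (by omega) (by simp) hne)
    have hXA : ∀ j, Agree M (fun ζ : ℂ => ζ ^ j) ((X : PowerSeries ℂ) ^ j) := fun j =>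
      Agree.of_polynomial (Polynomial.X ^ j) (by simp) fun n _ => by
        rw [Polynomial.coeff_X_pow, PowerSeries.coeff_X_pow]
    -- the quotient series
    set d : ℕ → ℂ := fun j => (j ! : ℂ)⁻¹ * iteratedDeriv j f z with hdj
    set PU : PowerSeries ℂ :=
      ∑ j ∈ range M, C (d (j + 1)) * X ^ j * (C (e * s) * R) ^ (j + 1) with hPU
    set U : ℂ → ℂ := fun ζ =>
      (∑ j ∈ range M, d (j + 1) * ζ ^ j * ψ ζ ^ (j + 1)) + ζ ^ M * (ψ ζ ^ (M + 1) * G (mob ζ)) with hU
    have hψd : DifferentiableOn ℂ ψ (ball 0 1) :=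
      (((differentiableOn_id.const_mul _).const_add _).inv hne).const_mul _
    have hUA : Agree M U PU := by
      have h1 := Agree.sum (range M) (fun j ζ => d (j + 1) * ζ ^ j * ψ ζ ^ (j + 1))
        (fun j => C (d (j + 1)) * X ^ j * (C (e * s) * R) ^ (j + 1)) fun j _ =>
          ((Agree.of_polynomial (h := fun _ => d (j + 1)) (Polynomial.C (d (j + 1))) (by simp)
            fun n _ => by rw [Polynomial.coeff_C, PowerSeries.coeff_C]).mul (hXA j)).mul
            (hψA.pow (j + 1))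
      obtain ⟨E, hE, hEe⟩ := h1
      refine ⟨fun ζ => E ζ + ψ ζ ^ (M + 1) * G (mob ζ),
        hE.add ((hψd.pow _).mul (hGd.comp hmobd hmaps)), fun ζ hζ => ?_⟩
      simp only [U, hEe ζ hζ]
      ring
    have hUeq : ∀ ζ ∈ ball (0 : ℂ) 1, f (mob ζ) - f z = ζ * U ζ := by
      intro ζ hζ
      rw [hG (mob ζ), sum_range_succ' (n := M), hmobz ζ hζ]
      simp only [Nat.factorial_zero, Nat.cast_one, inv_one, one_mul, iteratedDeriv_zero, pow_zero,
        mul_one, U, mul_add, mul_sum]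
      rw [show ∀ a b c : ℂ, a + b + c - b = a + c from fun a b c => by ring]
      congr 1
      · refine sum_congr rfl fun j _ => ?_
        simp only [d, ψ, mul_pow]
        ring
      · simp only [ψ]
        ring
    have hcoef : ∀ n < M, coeff n PU = cc f r θ (n + 1) := by
      intro n hn
      rw [hPU, map_sum, cc]
      refine (sum_subset (by intro a; simp; omega) fun j _ hj => ?_).symm.trans
        (sum_congr rfl fun j hj => ?_)
      · rw [mem_range] at hj
        rw [mul_assoc, PowerSeries.coeff_C_mul, PowerSeries.coeff_X_pow_mul',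
          if_neg (by omega), mul_zero]
      · rw [mem_range] at hj
        rw [mul_assoc, PowerSeries.coeff_C_mul, PowerSeries.coeff_X_pow_mul', if_pos (by omega),
          mul_pow, ← map_pow, PowerSeries.coeff_C_mul, hR, invPow_series, coeff_rescale, coeff_mk]
        rw [show j + (n - j) = n by omega]
        simp only [d, wt, dd, ← he, ← hzdef, ← hs, Nat.add_sub_cancel, mul_pow]
        ring
    have hU0 : ∀ ζ ∈ ball (0 : ℂ) 1, U ζ ≠ 0 := by
      intro ζ hζ h
      by_cases hζ0 : ζ = 0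
      · subst hζ0
        obtain ⟨E, -, hE⟩ := hUA
        rw [hE 0 hζ, zero_pow (by omega), zero_mul, add_zero,
          ← Polynomial.coeff_zero_eq_eval_zero, PowerSeries.coeff_trunc, if_pos (by omega),
          hcoef 0 (by omega)] at h
        exact hc0 h
      · have h1 := hUeq ζ hζ
        rw [h, mul_zero, sub_eq_zero] at h1
        have h2 := hinj (hmaps ζ hζ) hz h1
        have h3 := hmobz ζ hζ
        rw [h2, sub_self] at h3
        simp [hζ0, he0, hs0, hne ζ hζ] at h3
    set c1 := cc f r θ 1 with hc1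
    set A := aSer (aa f r θ) with hA
    have hT : Agree M (fun ζ => c1 * (U ζ)⁻¹) A⁻¹ := by
      have h1 : Agree M (fun ζ => c1⁻¹ * U ζ) A := by
        obtain ⟨E, hE, hEe⟩ := (Agree.of_polynomial (h := fun _ => c1⁻¹) (Polynomial.C c1⁻¹)
          (by simp) (P := C c1⁻¹) fun n _ => by
            rw [Polynomial.coeff_C, PowerSeries.coeff_C]).mul hUA
        have ht : trunc M (C c1⁻¹ * PU) = trunc M A := by
          refine Polynomial.ext fun n => ?_
          rw [PowerSeries.coeff_trunc, PowerSeries.coeff_trunc]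
          split_ifs with hn
          · rw [PowerSeries.coeff_C_mul, hcoef n hn, hA, aSer, coeff_mk, aa, ← hc1]
            ring
          · rfl
        exact ⟨E, hE, fun ζ hζ => by rw [hEe ζ hζ, ht]⟩
      refine (h1.inv (by omega) (by rw [hA, aSer_const ha1]; exact one_ne_zero)
        fun ζ hζ => mul_ne_zero (inv_ne_zero hc0) (hU0 ζ hζ)).congr fun ζ _ => ?_
      rw [mul_inv, inv_inv]
    obtain ⟨E, hE, hEe⟩ := hT
    set b : ℕ → ℂ := fun i => coeff (i + 2) A⁻¹ with hb
    obtain ⟨J, hJ⟩ : ∃ J, K = J + 1 := ⟨K - 1, by omega⟩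
    set P : ℂ → ℂ := fun ζ => (∑ i ∈ range J, b i * ζ ^ (i + 1)) + ζ ^ (J + 1) * E ζ with hP
    have hPd : DifferentiableOn ℂ P (ball 0 1) :=
      (DifferentiableOn.fun_sum fun i _ => (differentiableOn_id.pow _).const_mul _).add
        ((differentiableOn_id.pow _).mul hE)
    have hq0 : coeff 0 A⁻¹ = 1 := by simp [hA, aSer_const ha1]
    have hkey : ∀ ζ ∈ ball (0 : ℂ) 1, c1 * (U ζ)⁻¹ = 1 + ζ * (coeff 1 A⁻¹ + P ζ) := by
      intro ζ hζ
      rw [show c1 * (U ζ)⁻¹ = _ from hEe ζ hζ, Polynomial.eval_eq_sum_range' (n := M) (natDegree_trunc_lt _ _ |>.trans_le (by omega))]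
      rw [hM, hJ, sum_range_succ', sum_range_succ']
      simp only [PowerSeries.coeff_trunc, pow_zero, mul_one, P, b]
      rw [sum_congr rfl fun i (hi : i ∈ range J) => by
        rw [if_pos (by simp at hi; omega)]]
      rw [if_pos (by omega), if_pos (by omega), hq0, mul_add, mul_add, mul_sum]
      rw [sum_congr rfl fun i (_ : i ∈ range J) => show coeff (i + 1 + 1) A⁻¹ * ζ ^ (i + 1 + 1) =
        ζ * (coeff (i + 2) A⁻¹ * ζ ^ (i + 1)) by ring]
      ring
    have hinjP : Set.InjOn (fun ζ => ζ⁻¹ + P ζ) (ball 0 1 \ {0}) := by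
      intro u hu w hw huw
      obtain ⟨hu1, hu0⟩ := hu
      obtain ⟨hw1, hw0⟩ := hw
      simp only [Set.mem_singleton_iff] at hu0 hw0
      have hu2 : u⁻¹ + P u = c1 * (u * U u)⁻¹ - coeff 1 A⁻¹ := by
        rw [mul_inv, ← mul_assoc, mul_comm c1, mul_assoc, hkey u hu1]; field_simp; ring
      have hw2 : w⁻¹ + P w = c1 * (w * U w)⁻¹ - coeff 1 A⁻¹ := by
        rw [mul_inv, ← mul_assoc, mul_comm c1, mul_assoc, hkey w hw1]; field_simp; ring
      simp only [hu2, hw2] at huw
      have h1 := inv_injective (mul_left_cancel₀ hc0 (sub_left_inj.1 huw))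
      rw [← hUeq u hu1, ← hUeq w hw1, sub_left_inj] at h1
      have h2 := hinj (hmaps u hu1) (hmaps w hw1) h1
      simp only [mob] at h2
      rw [div_eq_div_iff (hne u hu1) (hne w hw1)] at h2
      have h3 : e * s * (u - w) = 0 := by rw [hs]; linear_combination h2
      exact sub_eq_zero.1 ((mul_eq_zero.1 h3).resolve_left (mul_ne_zero he0 hs0))
    have hrem : DifferentiableOn ℂ (fun ζ => ((J : ℂ) + 1) * E ζ + ζ * deriv E ζ) (ball 0 1) :=
      (hE.const_mul _).add (differentiableOn_id.mul (hE.deriv isOpen_ball))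
    have harea := area_sum_le_one hPd (by simp [P]) hrem (J := J) (fun i => ((i : ℂ) + 1) * b i)
      (fun ζ hζ => by
        have hEd := (hE.differentiableAt (isOpen_ball.mem_nhds hζ)).hasDerivAt
        have h1 : HasDerivAt P (∑ i ∈ range J, b i * (((i + 1 : ℕ) : ℂ) * ζ ^ (i + 1 - 1)) +
            (((J + 1 : ℕ) : ℂ) * ζ ^ (J + 1 - 1) * E ζ + ζ ^ (J + 1) * deriv E ζ)) ζ :=
          (HasDerivAt.fun_sum fun i _ => (hasDerivAt_pow (i + 1) ζ).const_mul (b i)).add
            ((hasDerivAt_pow (J + 1) ζ).mul hEd)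
        rw [h1.deriv]
        simp only [Nat.add_sub_cancel]
        congr 1
        · exact sum_congr rfl fun i _ => by push_cast; ring
        · push_cast; ring) hinjP
    rw [sum_Ico_eq_sum_range, show K - 1 = J by omega]
    refine le_trans (le_of_eq (sum_congr rfl fun i hi => ?_)) harea
    rw [mem_range] at hi
    simp only [vv, if_pos (show 1 + i < K by omega), xCoef, b, norm_mul, norm_neg, mul_pow, ← hA]
    rw [show ((i : ℂ) + 1) = (((i : ℝ) + 1 : ℝ) : ℂ) by push_cast; rfl, Complex.norm_real,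
      Real.norm_eq_abs, abs_of_nonneg (by positivity : (0 : ℝ) ≤ (i : ℝ) + 1),
      show 1 + i + 1 = i + 2 by omega]
    push_cast
    field_simp
    ring
  · simp only [vv, if_pos (show 0 < K by omega), xCoef_zero ha1]
    have h := preSchwarzian_le hf hinj hd hz
    have hd1 := hd z hz
    have e1 : aa f r θ 2 = (e * (deriv (deriv f) z / deriv f z * (1 - (‖z‖ : ℂ) ^ 2)
        - 2 * conj z)) / 2 := by
      have hze : conj z = (r : ℂ) * conj e := by simp [hzdef, pt, he]
      have hee : e * conj e = 1 := by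
        rw [Complex.mul_conj, Complex.normSq_eq_norm_sq, he, Complex.norm_exp_ofReal_mul_I]; simp
      have hi1 : iteratedDeriv 2 f z = deriv (deriv f) z := by
        rw [iteratedDeriv_succ, iteratedDeriv_one]
      rw [hzdef, norm_pt hr.1, ← hzdef, hze, mul_sub,
        show e * (2 * ((r : ℂ) * conj e)) = 2 * (r : ℂ) by linear_combination (2 * (r : ℂ)) * hee]
      rw [aa, eq_div_iff (two_ne_zero), cc_one, ← he, ← hzdef, ← hs]
      simp only [cc, wt, dd, sum_range_succ, sum_range_zero, ← he, ← hzdef, ← hs]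
      norm_num [hi1]
      field_simp
      ring
    rw [e1, norm_div, norm_mul, he, Complex.norm_exp_ofReal_mul_I, one_mul, Complex.norm_ofNat]
    linarith

end Vale.Agent.P142b
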