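import Vale.Agent.P142b.Koebe
import Vale.Agent.P142.Grunsky

/-!
The generalized area inequality of degree two for the Koebe transforms.
-/

noncomputable section

open Finset Metric PowerSeries Vale.Agent.P142
open scoped ComplexConjugate Nat Topology

namespace Vale.Agent.P142b

lemma Agree.const (M : ℕ) (c : ℂ) : Agree M (fun _ => c) (C c) :=
  Agree.of_polynomial (Polynomial.C c) (by simp) fun n _ => by
    rw [Polynomial.coeff_C, PowerSeries.coeff_C]

lemma Agree.differentiableOn {M : ℕ} {h : ℂ → ℂ} {P : PowerSeries ℂ} (hh : Agree M h P) :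
    DifferentiableOn ℂ h (ball 0 1) := by
  obtain ⟨E, hE, he⟩ := hh
  exact ((trunc M P).differentiable.differentiableOn.add
    ((differentiableOn_id.pow M).mul hE)).congr he

lemma Agree.of_succ {M : ℕ} {h : ℂ → ℂ} {P : PowerSeries ℂ} (hh : Agree (M + 1) h P) :
    Agree M h P := by
  obtain ⟨E, hE, he⟩ := hh
  refine ⟨fun ζ => coeff M P + ζ * E ζ, (differentiableOn_id.mul hE).const_add _, fun ζ hζ => ?_⟩
  rw [he ζ hζ, trunc_succ, Polynomial.eval_add, Polynomial.eval_monomial]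
  ring

lemma trunc_succ_eval (M : ℕ) (P : PowerSeries ℂ) (ζ : ℂ) :
    (trunc (M + 1) P).eval ζ =
      coeff 0 P + ζ * (trunc M (PowerSeries.mk fun n => coeff (n + 1) P)).eval ζ := by
  induction M with
  | zero => simp [trunc_succ]
  | succ M ih =>
    rw [trunc_succ (f := P) (M + 1), trunc_succ (f := PowerSeries.mk _) M, Polynomial.eval_add,
      Polynomial.eval_add, ih, Polynomial.eval_monomial, Polynomial.eval_monomial, coeff_mk]
    ring

lemma Agree.dslope {M : ℕ} {h : ℂ → ℂ} {P : PowerSeries ℂ} (hh : Agree (M + 1) h P) :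
    Agree M (dslope h 0) (PowerSeries.mk fun n => coeff (n + 1) P) := by
  obtain ⟨E, hE, he⟩ := hh
  refine ⟨E, hE, fun ζ hζ => ?_⟩
  set S := trunc M (PowerSeries.mk fun n => coeff (n + 1) P) with hS
  have h0 : h 0 = coeff 0 P := by
    rw [he 0 (mem_ball_self one_pos), trunc_succ_eval]; simp
  have e : ∀ w ∈ ball (0 : ℂ) 1, h w = h 0 + w * (S.eval w + w ^ M * E w) := fun w hw => by
    rw [h0, he w hw, trunc_succ_eval, hS]; ring
  rcases eq_or_ne ζ 0 with rfl | hne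
  · have hG : DifferentiableAt ℂ (fun w => S.eval w + w ^ M * E w) 0 :=
      S.differentiable.differentiableAt.add
        ((differentiableAt_id.pow M).mul (hE.differentiableAt (isOpen_ball.mem_nhds hζ)))
    have h1 := ((hasDerivAt_id (0 : ℂ)).mul hG.hasDerivAt).const_add (h 0)
    simp only [id, one_mul, zero_mul, add_zero] at h1
    rw [dslope_same]
    exact (h1.congr_of_eventuallyEq
      (Filter.eventuallyEq_of_mem (isOpen_ball.mem_nhds hζ) e)).deriv
  · rw [dslope_of_ne _ hne, slope_def_field, e ζ hζ]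
    field_simp
    ring

lemma Agree.coef_eq : ∀ (n : ℕ) {M : ℕ} {h : ℂ → ℂ} {P : PowerSeries ℂ}, Agree M h P → n < M →
    Grunsky.coef h n = coeff n P := by
  intro n
  induction n with
  | zero =>
    intro M h P hh hM
    obtain ⟨M, rfl⟩ : ∃ M', M = M' + 1 := ⟨M - 1, by omega⟩
    obtain ⟨E, -, he⟩ := hh
    show h 0 = _
    rw [he 0 (mem_ball_self one_pos), trunc_succ_eval]; simp
  | succ n ih =>
    intro M h P hh hM
    obtain ⟨M, rfl⟩ : ∃ M', M = M' + 1 := ⟨M - 1, by omega⟩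
    have h1 := ih hh.dslope (show n < M by omega)
    rw [coeff_mk] at h1
    rw [← h1, Grunsky.coef, Grunsky.coef, Function.iterate_succ_apply]

lemma coef_deriv {h : ℂ → ℂ} (hh : DifferentiableOn ℂ h (ball 0 1)) (n : ℕ) :
    Grunsky.coef (deriv h) n = ((n : ℂ) + 1) * Grunsky.coef h (n + 1) := by
  rw [Grunsky.coef_eq (hh.deriv isOpen_ball), Grunsky.coef_eq hh, iteratedDeriv_succ',
    Nat.factorial_succ]
  push_cast
  field_simp

/-- The generalized area inequality for a polynomial of degree two in `1 / g`. -/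
theorem faber2_area {g T : ℂ → ℂ} {P : PowerSeries ℂ} {M : ℕ}
    (hg : DifferentiableOn ℂ g (ball 0 1)) (hinj : Set.InjOn g (ball 0 1)) (h0 : g 0 = 0)
    (ha : deriv g 0 ≠ 0) (hT : Agree (M + 3) T P) (hP0 : coeff 0 P = 1)
    (heq : ∀ ζ ∈ ball (0 : ℂ) 1, ζ ≠ 0 → (g ζ)⁻¹ = T ζ / ζ) (a b : ℂ) :
    ∑ n ∈ Ico 1 (M + 1), (n : ℝ) * ‖a * coeff (n + 1) P +
        b * (2 * coeff (n + 2) P + ∑ i ∈ Ico 1 n, coeff (i + 1) P * coeff (n - i + 1) P)‖ ^ 2 ≤
      ‖a‖ ^ 2 + 2 * ‖b‖ ^ 2 := by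
  set S : PowerSeries ℂ := PowerSeries.mk fun n => coeff (n + 1) P with hS
  have hT0 : T 0 = 1 := (Agree.coef_eq 0 hT (by omega)).trans hP0
  have h1 : Agree (M + 2) (dslope T 0) S := hT.dslope
  have h2 : Agree (M + 1) (dslope (dslope T 0) 0) (PowerSeries.mk fun n => coeff (n + 1) S) :=
    h1.dslope
  have hP10 : dslope T 0 0 = coeff 0 S := Agree.coef_eq 0 h1 (by omega)
  set q1 : ℂ := coeff 0 S with hq1
  set R : ℂ → ℂ := fun ζ => ((a - 2 * b * q1) * dslope T 0 ζ + b * (dslope T 0 ζ * dslope T 0 ζ)) +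
    (2 * b) * dslope (dslope T 0) 0 ζ with hR
  set SR : PowerSeries ℂ := (C (a - 2 * b * q1) * S + C b * (S * S)) +
    C (2 * b) * PowerSeries.mk (fun n => coeff (n + 1) S) with hSR
  have hRA : Agree (M + 1) R SR :=
    (((Agree.const _ _).mul h1.of_succ).add ((Agree.const _ _).mul (h1.of_succ.mul h1.of_succ))).add
      ((Agree.const _ _).mul h2)
  have heqp : ∀ z ∈ ball (0 : ℂ) 1, z ≠ 0 → Grunsky.poly ![a - 2 * b * q1, b] (g z)⁻¹ =
      Grunsky.prin ![a, b] 1 z + R z := by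
    intro z hz hz0
    simp only [Grunsky.poly, Grunsky.prin, Fin.sum_univ_two, Matrix.cons_val_zero,
      Matrix.cons_val_one, Fin.val_zero, Fin.val_one, R, heq z hz hz0]
    rw [dslope_of_ne (dslope T 0) hz0, slope_def_field, dslope_of_ne T hz0, slope_def_field, hP10,
      hT0]
    simp only [sub_zero, zero_add, Nat.reduceAdd, pow_one, inv_pow]
    field_simp
    ring
  have key := Grunsky.generalized_area hg hinj h0 ha _ _ hRA.differentiableOn heqp M
  simp only [Fin.sum_univ_two, Matrix.cons_val_zero, Matrix.cons_val_one, Fin.val_zero,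
    Fin.val_one] at key
  norm_num at key
  refine le_trans (le_of_eq ?_) key
  rw [sum_Ico_eq_sum_range, show M + 1 - 1 = M by omega]
  refine sum_congr rfl fun k hk => ?_
  rw [mem_range] at hk
  rw [coef_deriv hRA.differentiableOn, Agree.coef_eq _ hRA (by omega), norm_mul, mul_pow,
    show ‖(k : ℂ) + 1‖ = (k : ℝ) + 1 by
      rw [← Nat.cast_add_one, Complex.norm_natCast]; push_cast; rfl,
    show (1 + k) = k + 1 by omega]
  have e : coeff (k + 1) SR = a * coeff (k + 2) P + b * (2 * coeff (k + 3) P +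
      ∑ i ∈ Ico 1 (k + 1), coeff (i + 1) P * coeff (k + 1 - i + 1) P) := by
    rw [hSR, map_add, map_add, PowerSeries.coeff_C_mul, PowerSeries.coeff_C_mul,
      PowerSeries.coeff_C_mul, PowerSeries.coeff_mul,
      Finset.Nat.sum_antidiagonal_eq_sum_range_succ_mk, sum_range_succ, sum_range_succ' (n := k),
      sum_Ico_eq_sum_range]
    simp only [hq1, hS, coeff_mk, Nat.sub_self, Nat.sub_zero, Nat.add_sub_cancel]
    rw [sum_congr rfl fun i (_ : i ∈ range k) =>
      show coeff (1 + i + 1) P * coeff (k + 1 - (1 + i) + 1) P =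
        coeff (i + 1 + 1) P * coeff (k + 1 - (i + 1) + 1) P by rw [Nat.add_comm 1 i]]
    ring
  rw [e]
  push_cast
  field_simp

variable {f : ℂ → ℂ}

/-- The normalised transformed map and the series of its reciprocal. -/
lemma koebe_data (hf : DifferentiableOn ℂ f (ball 0 1)) (hinj : Set.InjOn f (ball 0 1))
    (hd : ∀ z ∈ ball (0 : ℂ) 1, deriv f z ≠ 0) (K : ℕ) {r : ℝ}
    (hr : r ∈ Set.Ico (0 : ℝ) 1) (θ : ℝ) :
    ∃ g T : ℂ → ℂ, DifferentiableOn ℂ g (ball 0 1) ∧ Set.InjOn g (ball 0 1) ∧ g 0 = 0 ∧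
      deriv g 0 ≠ 0 ∧ Agree (K + 1) T (aSer (aa f r θ))⁻¹ ∧
      ∀ ζ ∈ ball (0 : ℂ) 1, ζ ≠ 0 → (g ζ)⁻¹ = T ζ / ζ := by
  have hr' : r ∈ Set.Ioo (-1 : ℝ) 1 := ⟨by linarith [hr.1], hr.2⟩
  have hz := pt_mem hr' θ
  set e := Complex.exp ((θ : ℂ) * Complex.I) with he
  set z := pt r θ with hzdef
  set s : ℂ := 1 - (r : ℂ) ^ 2 with hs
  have hs0 : s ≠ 0 := one_sub_sq_ne hr'
  have he0 : e ≠ 0 := Complex.exp_ne_zero _
  have hc0 : cc f r θ 1 ≠ 0 := cc_one_ne hd hr' θ
  have ha1 := aa_one hd hr' θ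
  set mob : ℂ → ℂ := fun ζ => e * (ζ + r) / (1 + r * ζ) with hmob
  have hne : ∀ ζ ∈ ball (0 : ℂ) 1, 1 + (r : ℂ) * ζ ≠ 0 := by
    intro ζ hζ h
    have h1 : ‖(r : ℂ) * ζ‖ = 1 := by
      rw [show (r : ℂ) * ζ = -1 by linear_combination h]; simp
    rw [norm_mul, Complex.norm_real, Real.norm_eq_abs, abs_of_nonneg hr.1] at h1
    have h2 : ‖ζ‖ < 1 := by simpa using hζ
    nlinarith [hr.2, norm_nonneg ζ]
  have hmaps : ∀ ζ ∈ ball (0 : ℂ) 1, mob ζ ∈ ball (0 : ℂ) 1 := by
    intro ζ hζ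
    have h2 : ‖ζ‖ < 1 := by simpa using hζ
    simp only [mob, mem_ball, dist_zero_right, norm_div, norm_mul, he,
      Complex.norm_exp_ofReal_mul_I, one_mul]
    rw [div_lt_one (norm_pos_iff.2 (hne ζ hζ))]
    refine lt_of_pow_lt_pow_left₀ 2 (norm_nonneg _) ?_
    have e1 : ‖1 + (r : ℂ) * ζ‖ ^ 2 - ‖ζ + r‖ ^ 2 = (1 - r ^ 2) * (1 - ‖ζ‖ ^ 2) := by
      simp only [Complex.sq_norm, Complex.normSq_apply, Complex.add_re, Complex.add_im,
        Complex.one_re, Complex.one_im, Complex.mul_re, Complex.mul_im, Complex.ofReal_re,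
        Complex.ofReal_im]
      ring
    nlinarith [mul_pos (by nlinarith [hr.1, hr.2] : 0 < 1 - r ^ 2)
      (by nlinarith [norm_nonneg ζ] : 0 < 1 - ‖ζ‖ ^ 2)]
  have hmobz : ∀ ζ ∈ ball (0 : ℂ) 1, mob ζ - z = ζ * (e * s * (1 + (r : ℂ) * ζ)⁻¹) := by
    intro ζ hζ
    have := hne ζ hζ
    simp only [mob, hzdef, pt, hs, ← he, div_eq_mul_inv]
    linear_combination ((r : ℂ) * e) * mul_inv_cancel₀ this
  have hmobd : DifferentiableOn ℂ mob (ball 0 1) :=
    ((differentiableOn_id.add_const _).const_mul _).div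
      ((differentiableOn_id.const_mul _).const_add _) hne
  set M := K + 1 with hM
  obtain ⟨G, hGd, hG⟩ := taylor_split hf hz (M + 1)
  set R : PowerSeries ℂ := ((1 : PowerSeries ℂ) + C (r : ℂ) * X)⁻¹ with hR
  set ψ : ℂ → ℂ := fun ζ => e * s * (1 + (r : ℂ) * ζ)⁻¹ with hψ
  have hψA : Agree M ψ (C (e * s) * R) := by
    have h1 : Agree M (fun ζ => 1 + (r : ℂ) * ζ) ((1 : PowerSeries ℂ) + C (r : ℂ) * X) :=
      Agree.of_polynomial (1 + Polynomial.C (r : ℂ) * Polynomial.X) (by simp) fun n _ => by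
        rw [Polynomial.coeff_add, map_add, Polynomial.coeff_C_mul, PowerSeries.coeff_C_mul,
          Polynomial.coeff_one, PowerSeries.coeff_one, Polynomial.coeff_X, PowerSeries.coeff_X]
        simp [eq_comm]
    have h2 : Agree M (fun _ => e * s) (C (e * s)) :=
      Agree.of_polynomial (Polynomial.C (e * s)) (by simp) fun n _ => by
        rw [Polynomial.coeff_C, PowerSeries.coeff_C]
    exact h2.mul (h1.inv (by omega) (by simp) hne)
  have hXA : ∀ j, Agree M (fun ζ : ℂ => ζ ^ j) ((X : PowerSeries ℂ) ^ j) := fun j =>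
    Agree.of_polynomial (Polynomial.X ^ j) (by simp) fun n _ => by
      rw [Polynomial.coeff_X_pow, PowerSeries.coeff_X_pow]
  -- the quotient series
  set d : ℕ → ℂ := fun j => (j ! : ℂ)⁻¹ * iteratedDeriv j f z with hdj
  set PU : PowerSeries ℂ :=
    ∑ j ∈ range M, C (d (j + 1)) * X ^ j * (C (e * s) * R) ^ (j + 1) with hPU
  set U : ℂ → ℂ := fun ζ =>
    (∑ j ∈ range M, d (j + 1) * ζ ^ j * ψ ζ ^ (j + 1)) + ζ ^ M * (ψ ζ ^ (M + 1) * G (mob ζ)) with hU
  have hψd : DifferentiableOn ℂ ψ (ball 0 1) :=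
    (((differentiableOn_id.const_mul _).const_add _).inv hne).const_mul _
  have hUA : Agree M U PU := by
    have h1 := Agree.sum (range M) (fun j ζ => d (j + 1) * ζ ^ j * ψ ζ ^ (j + 1))
      (fun j => C (d (j + 1)) * X ^ j * (C (e * s) * R) ^ (j + 1)) fun j _ =>
        ((Agree.of_polynomial (h := fun _ => d (j + 1)) (Polynomial.C (d (j + 1))) (by simp)
          fun n _ => by rw [Polynomial.coeff_C, PowerSeries.coeff_C]).mul (hXA j)).mul
          (hψA.pow (j + 1))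
    obtain ⟨E, hE, hEe⟩ := h1
    refine ⟨fun ζ => E ζ + ψ ζ ^ (M + 1) * G (mob ζ),
      hE.add ((hψd.pow _).mul (hGd.comp hmobd hmaps)), fun ζ hζ => ?_⟩
    simp only [U, hEe ζ hζ]
    ring
  have hUeq : ∀ ζ ∈ ball (0 : ℂ) 1, f (mob ζ) - f z = ζ * U ζ := by
    intro ζ hζ
    rw [hG (mob ζ), sum_range_succ' (n := M), hmobz ζ hζ]
    simp only [Nat.factorial_zero, Nat.cast_one, inv_one, one_mul, iteratedDeriv_zero, pow_zero,
      mul_one, U, mul_add, mul_sum]
    rw [show ∀ a b c : ℂ, a + b + c - b = a + c from fun a b c => by ring]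
    congr 1
    · refine sum_congr rfl fun j _ => ?_
      simp only [d, ψ, mul_pow]
      ring
    · simp only [ψ]
      ring
  have hcoef : ∀ n < M, coeff n PU = cc f r θ (n + 1) := by
    intro n hn
    rw [hPU, map_sum, cc]
    refine (sum_subset (by intro a; simp; omega) fun j _ hj => ?_).symm.trans
      (sum_congr rfl fun j hj => ?_)
    · rw [mem_range] at hj
      rw [mul_assoc, PowerSeries.coeff_C_mul, PowerSeries.coeff_X_pow_mul',
        if_neg (by omega), mul_zero]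
    · rw [mem_range] at hj
      rw [mul_assoc, PowerSeries.coeff_C_mul, PowerSeries.coeff_X_pow_mul', if_pos (by omega),
        mul_pow, ← map_pow, PowerSeries.coeff_C_mul, hR, invPow_series, coeff_rescale, coeff_mk]
      rw [show j + (n - j) = n by omega]
      simp only [d, wt, dd, ← he, ← hzdef, ← hs, Nat.add_sub_cancel, mul_pow]
      ring
  have hU0 : ∀ ζ ∈ ball (0 : ℂ) 1, U ζ ≠ 0 := by
    intro ζ hζ h
    by_cases hζ0 : ζ = 0
    · subst hζ0
      obtain ⟨E, -, hE⟩ := hUA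
      rw [hE 0 hζ, zero_pow (by omega), zero_mul, add_zero,
        ← Polynomial.coeff_zero_eq_eval_zero, PowerSeries.coeff_trunc, if_pos (by omega),
        hcoef 0 (by omega)] at h
      exact hc0 h
    · have h1 := hUeq ζ hζ
      rw [h, mul_zero, sub_eq_zero] at h1
      have h2 := hinj (hmaps ζ hζ) hz h1
      have h3 := hmobz ζ hζ
      rw [h2, sub_self] at h3
      simp [hζ0, he0, hs0, hne ζ hζ] at h3
  set c1 := cc f r θ 1 with hc1
  set A := aSer (aa f r θ) with hA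
  have hT : Agree M (fun ζ => c1 * (U ζ)⁻¹) A⁻¹ := by
    have h1 : Agree M (fun ζ => c1⁻¹ * U ζ) A := by
      obtain ⟨E, hE, hEe⟩ := (Agree.of_polynomial (h := fun _ => c1⁻¹) (Polynomial.C c1⁻¹)
        (by simp) (P := C c1⁻¹) fun n _ => by
          rw [Polynomial.coeff_C, PowerSeries.coeff_C]).mul hUA
      have ht : trunc M (C c1⁻¹ * PU) = trunc M A := by
        refine Polynomial.ext fun n => ?_
        rw [PowerSeries.coeff_trunc, PowerSeries.coeff_trunc]
        split_ifs with hn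
        · rw [PowerSeries.coeff_C_mul, hcoef n hn, hA, aSer, coeff_mk, aa, ← hc1]
          ring
        · rfl
      exact ⟨E, hE, fun ζ hζ => by rw [hEe ζ hζ, ht]⟩
    refine (h1.inv (by omega) (by rw [hA, aSer_const ha1]; exact one_ne_zero)
      fun ζ hζ => mul_ne_zero (inv_ne_zero hc0) (hU0 ζ hζ)).congr fun ζ _ => ?_
    rw [mul_inv, inv_inv]

  have hUd : DifferentiableOn ℂ U (ball 0 1) := hUA.differentiableOn
  refine ⟨fun ζ => ζ * (c1⁻¹ * U ζ), fun ζ => c1 * (U ζ)⁻¹, differentiableOn_id.mul (hUd.const_mul _),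
    ?_, zero_mul _, ?_, hT, ?_⟩
  · intro u hu w hw huw
    replace huw : u * U u = w * U w := mul_left_cancel₀ (inv_ne_zero hc0) (by linear_combination huw)
    rw [← hUeq u hu, ← hUeq w hw, sub_left_inj] at huw
    have h2 := hinj (hmaps u hu) (hmaps w hw) huw
    simp only [mob] at h2
    rw [div_eq_div_iff (hne u hu) (hne w hw)] at h2
    have h3 : e * s * (u - w) = 0 := by rw [hs]; linear_combination h2
    exact sub_eq_zero.1 ((mul_eq_zero.1 h3).resolve_left (mul_ne_zero he0 hs0))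
  · have h0m : (0 : ℂ) ∈ ball (0 : ℂ) 1 := mem_ball_self one_pos
    have h1 : HasDerivAt (fun ζ => ζ * (c1⁻¹ * U ζ)) (1 * (c1⁻¹ * U 0) + 0 * deriv (fun ζ => c1⁻¹ * U ζ) 0) 0 :=
      (hasDerivAt_id (0 : ℂ)).mul
        (((hUd.const_mul _).differentiableAt (isOpen_ball.mem_nhds h0m)).hasDerivAt)
    rw [h1.deriv, one_mul, zero_mul, add_zero]
    exact mul_ne_zero (inv_ne_zero hc0) (hU0 0 h0m)
  · intro ζ hζ hζ0
    simp only [mul_inv, inv_inv]
    ring

/-- The degree two area inequality for the coordinates. -/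
theorem vv_bounds2 (hf : DifferentiableOn ℂ f (ball 0 1)) (hinj : Set.InjOn f (ball 0 1))
    (hd : ∀ z ∈ ball (0 : ℂ) 1, deriv f z ≠ 0) {K : ℕ} (hK : 2 ≤ K) {r : ℝ}
    (hr : r ∈ Set.Ico (0 : ℝ) 1) (θ : ℝ) (a b : ℂ) :
    ∑ n ∈ Ico 1 (K - 1), (n : ℝ) * ‖a * vv f K r θ n + b * (2 * vv f K r θ (n + 1) -
        ∑ i ∈ Ico 1 n, vv f K r θ i * vv f K r θ (n - i))‖ ^ 2 ≤ ‖a‖ ^ 2 + 2 * ‖b‖ ^ 2 := by
  obtain ⟨M, rfl⟩ : ∃ M, K = M + 2 := ⟨K - 2, by omega⟩
  obtain ⟨g, T, hg, hgi, hg0, hg1, hT, heq⟩ := koebe_data hf hinj hd (M + 2) hr θ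
  have ha1 := aa_one hd (show r ∈ Set.Ioo (-1 : ℝ) 1 from ⟨by linarith [hr.1], hr.2⟩) θ
  have key := faber2_area hg hgi hg0 hg1 hT (by simp [aSer_const ha1]) heq a b
  refine le_trans (le_of_eq (sum_congr (by simp) fun n hn => ?_)) key
  rw [mem_Ico] at hn
  have hv : ∀ i < M + 2, vv f (M + 2) r θ i = -coeff (i + 1) (aSer (aa f r θ))⁻¹ := fun i hi => by
    simp only [vv, if_pos hi, xCoef]
  have hsum : ∑ i ∈ Ico 1 n, vv f (M + 2) r θ i * vv f (M + 2) r θ (n - i) = ∑ i ∈ Ico 1 n,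
      coeff (i + 1) (aSer (aa f r θ))⁻¹ * coeff (n - i + 1) (aSer (aa f r θ))⁻¹ :=
    sum_congr rfl fun i hi => by
      rw [mem_Ico] at hi
      rw [hv i (by omega), hv (n - i) (by omega), neg_mul_neg]
  rw [hv n (by omega), hv (n + 1) (by omega), hsum]
  rw [show ∀ x y z : ℂ, a * -x + b * (2 * -y - z) = -(a * x + b * (2 * y + z)) from
    fun x y z => by ring, norm_neg]

end Vale.Agent.P142b
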