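import Vale.Agent.P142b.Koebe

/-!
A certificate bounds the integral means of `1 / ‖f'‖²`.
-/

noncomputable section

open Finset Metric MeasureTheory Filter
open scoped ComplexConjugate Topology Real

namespace Vale.Agent.P142b

/-- The correction term of the angular identity. -/
def Cert.angular0 (C : Cert) (v : ℕ → ℂ) : ℝ :=
  ((C.psi.map fun t => (t.2 : ℂ) * dVal C.K v (-1) 0 1 0 t.1).sum).re

/-- The angular function of a certificate. -/
def Cert.Psi (C : Cert) (v : ℕ → ℂ) : ℝ := (Complex.I * evT (C.K + C.K) v C.psi).re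

lemma list_sum_re (l : List ℂ) : l.sum.re = (l.map Complex.re).sum :=
  map_list_sum Complex.reAddGroupHom l

lemma hasDerivAt_list_sum {α : Type} {t : ℝ} (l : List α) {F : α → ℝ → ℂ} {F' : α → ℂ}
    (h : ∀ a ∈ l, HasDerivAt (F a) (F' a) t) :
    HasDerivAt (fun u => (l.map fun a => F a u).sum) ((l.map F').sum) t := by
  induction l with
  | nil => simpa using hasDerivAt_const t (0 : ℂ)
  | cons a l ih =>
    simp only [List.map_cons, List.sum_cons]
    exact (h a (by simp)).fun_add (ih fun b hb => h b (by simp [hb]))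

lemma continuousOn_list_sum {α X : Type} [TopologicalSpace X] {S : Set X} (l : List α)
    {F : α → X → ℂ} (h : ∀ a ∈ l, ContinuousOn (F a) S) :
    ContinuousOn (fun u => (l.map fun a => F a u).sum) S := by
  induction l with
  | nil => simpa using continuousOn_const
  | cons a l ih =>
    simp only [List.map_cons, List.sum_cons]
    exact (h a (by simp)).add (ih fun b hb => h b (by simp [hb]))

lemma dVal_linear (K : ℕ) (v : ℕ → ℂ) (c : ℕ) (x y : ℝ) (p0 p1 p2 q0 q1 q2 : ℝ) :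
    dVal K v (-1) ((x : ℂ) * p0 + y * q0) ((x : ℂ) * p1 + y * q1) ((x : ℂ) * p2 + y * q2) c =
      (x : ℂ) * dVal K v (-1) p0 p1 p2 c + (y : ℂ) * dVal K v (-1) q0 q1 q2 c := by
  have hp : ∀ i, pVal v ((x : ℂ) * p0 + y * q0) ((x : ℂ) * p1 + y * q1) ((x : ℂ) * p2 + y * q2) i =
      (x : ℂ) * pVal v p0 p1 p2 i + (y : ℂ) * pVal v q0 q1 q2 i := fun i => by
    simp only [pVal]; ring
  have key : ∀ i, (dg c i : ℂ) * ev (K + K) v (c - 16 ^ i) *
        pVal v ((x : ℂ) * p0 + y * q0) ((x : ℂ) * p1 + y * q1) ((x : ℂ) * p2 + y * q2) i +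
      -1 * (dg c (K + i) : ℂ) * ev (K + K) v (c - 16 ^ (K + i)) *
        conj (pVal v ((x : ℂ) * p0 + y * q0) ((x : ℂ) * p1 + y * q1) ((x : ℂ) * p2 + y * q2) i) =
      (x : ℂ) * ((dg c i : ℂ) * ev (K + K) v (c - 16 ^ i) * pVal v p0 p1 p2 i +
        -1 * (dg c (K + i) : ℂ) * ev (K + K) v (c - 16 ^ (K + i)) * conj (pVal v p0 p1 p2 i)) +
      (y : ℂ) * ((dg c i : ℂ) * ev (K + K) v (c - 16 ^ i) * pVal v q0 q1 q2 i +
        -1 * (dg c (K + i) : ℂ) * ev (K + K) v (c - 16 ^ (K + i)) * conj (pVal v q0 q1 q2 i)) :=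
    fun i => by simp only [hp, map_add, map_mul, Complex.conj_ofReal]; ring
  simp only [dVal, key, sum_add_distrib, ← mul_sum, map_add, map_mul, Complex.conj_ofReal,
    map_ofNat]
  ring

lemma dVal_rotate (K : ℕ) (v : ℕ → ℂ) (c : ℕ) (w0 w1 w2 : ℝ) :
    dVal K v 1 (Complex.I * w0) (Complex.I * w1) (Complex.I * w2) c =
      Complex.I * dVal K v (-1) w0 w1 w2 c := by
  have hp : ∀ i, pVal v (Complex.I * w0) (Complex.I * w1) (Complex.I * w2) i =
      Complex.I * pVal v w0 w1 w2 i := fun i => by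
    simp only [pVal]; ring
  simp only [dVal, hp, map_add, map_mul, Complex.conj_ofReal, Complex.conj_I, map_ofNat,
    mul_add, mul_sum]
  congr 1
  · ring
  · exact sum_congr rfl fun i _ => by ring

/-- The derivative of the density times a monomial along a field. -/
lemma hasDerivAt_dens_ev {K : ℕ} (hK : 2 ≤ K) {v : ℝ → ℕ → ℂ} {w : ℝ → ℂ} {t s : ℝ}
    {w0 w1 w2 : ℂ} (hv : ∀ i < K, v t (K + i) = conj (v t i))
    (hx : ∀ i, i + 1 < K → HasDerivAt (fun u => v u i) (pVal (v t) w0 w1 w2 i / s) t)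
    (hx' : ∀ i, i + 1 < K →
      HasDerivAt (fun u => v u (K + i)) (conj (pVal (v t) w0 w1 w2 i) / s) t)
    (hl : ∀ i < K + K, ∃ d, HasDerivAt (fun u => v u i) d t)
    (hw : HasDerivAt w (w t * (-(w1 + 2 * w0 * v t 0) - conj (w1 + 2 * w0 * v t 0)) / s) t)
    (hv0 : 0 < K) {c : ℕ} (hc : dg c (K - 1) = 0) (hc' : dg c (K + (K - 1)) = 0) :
    HasDerivAt (fun u => w u * ev (K + K) (v u) c) (w t * dVal K (v t) 1 w0 w1 w2 c / s) t := by
  classical
  let dv : ℕ → ℂ := fun i => if h : i < K + K then (hl i h).choose else 0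
  have hdv : ∀ i < K + K, HasDerivAt (fun u => v u i) (dv i) t := fun i hi => by
    simp only [dv, dif_pos hi]; exact (hl i hi).choose_spec
  have hev := hasDerivAt_ev (v := v) c hdv
  refine (hw.fun_mul hev).congr_deriv ?_
  obtain ⟨J, rfl⟩ : ∃ J, K = J + 1 := ⟨K - 1, by omega⟩
  simp only [Nat.add_sub_cancel] at hc hc'
  have e1 : ∀ i < J, dv i = pVal (v t) w0 w1 w2 i / s := fun i hi =>
    (hdv i (by omega)).unique (hx i (by omega))
  have e2 : ∀ i < J, dv (J + 1 + i) = conj (pVal (v t) w0 w1 w2 i) / s := fun i hi =>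
    (hdv _ (by omega)).unique (hx' i (by omega))
  rw [sum_range_add, sum_range_succ, sum_range_succ, hc, hc']
  simp only [Nat.cast_zero, zero_mul, add_zero, dVal, Nat.add_sub_cancel, one_mul]
  rw [sum_add_distrib]
  have f1 : ∑ i ∈ range J, (dg c i : ℂ) * ev (J + 1 + (J + 1)) (v t) (c - 16 ^ i) * dv i =
      ∑ i ∈ range J, (dg c i : ℂ) * ev (J + 1 + (J + 1)) (v t) (c - 16 ^ i) *
        (pVal (v t) w0 w1 w2 i / s) := sum_congr rfl fun i hi => by rw [e1 i (mem_range.1 hi)]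
  have f2 : ∑ i ∈ range J, (dg c (J + 1 + i) : ℂ) *
        ev (J + 1 + (J + 1)) (v t) (c - 16 ^ (J + 1 + i)) * dv (J + 1 + i) =
      ∑ i ∈ range J, (dg c (J + 1 + i) : ℂ) * ev (J + 1 + (J + 1)) (v t) (c - 16 ^ (J + 1 + i)) *
        (conj (pVal (v t) w0 w1 w2 i) / s) := sum_congr rfl fun i hi => by rw [e2 i (mem_range.1 hi)]
  rw [f1, f2]
  simp only [mul_div_assoc', ← sum_div]
  ring

variable {f : ℂ → ℂ}

lemma continuous_pt : Continuous fun p : ℝ × ℝ => pt p.1 p.2 := by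
  unfold pt; fun_prop

lemma continuousOn_cc (hf : DifferentiableOn ℂ f (ball 0 1)) (n : ℕ) :
    ContinuousOn (fun p : ℝ × ℝ => cc f p.1 p.2 n) (Set.Ioo (-1) 1 ×ˢ Set.univ) := by
  refine continuousOn_finsetSum _ fun j _ => ContinuousOn.mul ?_ ?_
  · unfold wt; fun_prop
  · unfold dd
    have h1 : ContinuousOn (fun p : ℝ × ℝ => Complex.exp ((p.2 : ℂ) * Complex.I) ^ (j + 1))
        (Set.Ioo (-1) 1 ×ˢ Set.univ) := by fun_prop
    exact (h1.mul ((differentiableOn_iteratedDeriv hf (j + 1)).continuousOn.comp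
      continuous_pt.continuousOn fun p hp => pt_mem hp.1 p.2)).div_const _

lemma continuousOn_aa (hf : DifferentiableOn ℂ f (ball 0 1))
    (hd : ∀ z ∈ ball (0 : ℂ) 1, deriv f z ≠ 0) (n : ℕ) :
    ContinuousOn (fun p : ℝ × ℝ => aa f p.1 p.2 n) (Set.Ioo (-1) 1 ×ˢ Set.univ) :=
  (continuousOn_cc hf n).div (continuousOn_cc hf 1) fun p hp => cc_one_ne hd hp.1 p.2

lemma continuousOn_qcoef (hf : DifferentiableOn ℂ f (ball 0 1))
    (hd : ∀ z ∈ ball (0 : ℂ) 1, deriv f z ≠ 0) (n : ℕ) :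
    ContinuousOn (fun p : ℝ × ℝ => PowerSeries.coeff n (aSer (aa f p.1 p.2))⁻¹)
      (Set.Ioo (-1) 1 ×ˢ Set.univ) := by
  induction n using Nat.strong_induction_on with
  | _ n ih =>
    rcases n with _ | n
    · refine (continuousOn_const (c := (1 : ℂ))).congr fun p hp => ?_
      simp [aSer_const (aa_one hd hp.1 p.2)]
    · refine ContinuousOn.congr (f := fun p : ℝ × ℝ => -∑ q ∈ antidiagonal n,
        aa f p.1 p.2 (q.1 + 2) * PowerSeries.coeff q.2 (aSer (aa f p.1 p.2))⁻¹) ?_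
        fun p hp => qcoef_succ (aa_one hd hp.1 p.2) n
      refine (continuousOn_finsetSum _ fun q hq => ?_).neg
      rw [Finset.HasAntidiagonal.mem_antidiagonal] at hq
      exact (continuousOn_aa hf hd _).mul (ih q.2 (by omega))

lemma continuousOn_vv (hf : DifferentiableOn ℂ f (ball 0 1))
    (hd : ∀ z ∈ ball (0 : ℂ) 1, deriv f z ≠ 0) (K i : ℕ) :
    ContinuousOn (fun p : ℝ × ℝ => vv f K p.1 p.2 i) (Set.Ioo (-1) 1 ×ˢ Set.univ) := by
  unfold vv
  split_ifs
  · exact (continuousOn_qcoef hf hd _).neg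
  · exact Complex.continuous_conj.comp_continuousOn (continuousOn_qcoef hf hd _).neg

lemma continuousOn_ev {X : Type} [TopologicalSpace X] {S : Set X} : ∀ (n : ℕ) {v : X → ℕ → ℂ},
    (∀ i, ContinuousOn (fun p => v p i) S) → ∀ c, ContinuousOn (fun p => ev n (v p) c) S := by
  intro n
  induction n with
  | zero => intro v _ c; simpa [ev] using continuousOn_const
  | succ n ih =>
    intro v h c
    simp only [ev]
    exact ((h 0).pow _).mul (ih (v := fun p i => v p (i + 1)) (fun i => h (i + 1)) _)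

lemma continuousOn_dens (hf : DifferentiableOn ℂ f (ball 0 1))
    (hd : ∀ z ∈ ball (0 : ℂ) 1, deriv f z ≠ 0) :
    ContinuousOn (fun p : ℝ × ℝ => dens f p.1 p.2) (Set.Ioo (-1) 1 ×ˢ Set.univ) :=
  ((continuousOn_cc hf 1).norm.pow 2).inv₀ fun p hp =>
    pow_ne_zero 2 (norm_ne_zero_iff.2 (cc_one_ne hd hp.1 p.2))

lemma continuousOn_dVal (hf : DifferentiableOn ℂ f (ball 0 1))
    (hd : ∀ z ∈ ball (0 : ℂ) 1, deriv f z ≠ 0) (K : ℕ) (σ w0 w1 w2 : ℂ) (c : ℕ) :
    ContinuousOn (fun p : ℝ × ℝ => dVal K (vv f K p.1 p.2) σ w0 w1 w2 c)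
      (Set.Ioo (-1) 1 ×ˢ Set.univ) := by
  have hv := continuousOn_vv hf hd K
  have hP : ∀ i, ContinuousOn (fun p : ℝ × ℝ => pVal (vv f K p.1 p.2) w0 w1 w2 i)
      (Set.Ioo (-1) 1 ×ˢ Set.univ) := by
    intro i
    unfold pVal
    refine ((((hv _).const_mul _).fun_add (ContinuousOn.mul ?_ (hv i))).fun_add
      (continuousOn_const.mul ?_)).sub (continuousOn_const.mul
        (continuousOn_finsetSum _ fun j _ => (hv j).mul (hv _)))
    · exact continuousOn_const.fun_add ((hv 0).const_mul _)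
    · by_cases h : i = 0
      · simpa [h] using continuousOn_const
      · simpa [h] using hv (i - 1)
  have he := fun c => continuousOn_ev (K + K) (v := fun p : ℝ × ℝ => vv f K p.1 p.2) hv c
  unfold dVal
  refine (ContinuousOn.mul ?_ (he c)).fun_add (continuousOn_finsetSum _ fun i _ => ?_)
  · exact (continuousOn_const.fun_add ((hv 0).const_mul _)).neg.sub (continuousOn_const.mul
      (Complex.continuous_conj.comp_continuousOn (continuousOn_const.fun_add ((hv 0).const_mul _))))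
  · exact ((continuousOn_const.mul (he _)).mul (hP i)).fun_add
      ((continuousOn_const.mul (he _)).mul (Complex.continuous_conj.comp_continuousOn (hP i)))

lemma continuousOn_Phi (hf : DifferentiableOn ℂ f (ball 0 1))
    (hd : ∀ z ∈ ball (0 : ℂ) 1, deriv f z ≠ 0) (C : Cert) :
    ContinuousOn (fun p : ℝ × ℝ => dens f p.1 p.2 * C.Phi (vv f C.K p.1 p.2))
      (Set.Ioo (-1) 1 ×ˢ Set.univ) :=
  (continuousOn_dens hf hd).mul (Complex.continuous_re.comp_continuousOn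
    (continuousOn_list_sum C.phi fun t _ =>
      (continuousOn_ev _ (continuousOn_vv hf hd C.K) t.1).const_mul _))

lemma continuousOn_lin (hf : DifferentiableOn ℂ f (ball 0 1))
    (hd : ∀ z ∈ ball (0 : ℂ) 1, deriv f z ≠ 0) (K : ℕ) (σ w0 w1 w2 : ℂ) (l : Tms) :
    ContinuousOn (fun p : ℝ × ℝ => dens f p.1 p.2 *
        ((l.map fun t => (t.2 : ℂ) * dVal K (vv f K p.1 p.2) σ w0 w1 w2 t.1).sum).re)
      (Set.Ioo (-1) 1 ×ˢ Set.univ) :=
  (continuousOn_dens hf hd).mul (Complex.continuous_re.comp_continuousOn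
    (continuousOn_list_sum l fun t _ => (continuousOn_dVal hf hd K σ w0 w1 w2 t.1).const_mul _))

lemma continuous_slice {g : ℝ × ℝ → ℝ} (h : ContinuousOn g (Set.Ioo (-1) 1 ×ˢ Set.univ)) {r : ℝ}
    (hr : r ∈ Set.Ioo (-1 : ℝ) 1) : Continuous fun θ => g (r, θ) :=
  h.comp_continuous (continuous_const.prodMk continuous_id) fun θ => ⟨hr, Set.mem_univ _⟩

/-- The derivative of the inverse square norm. -/
lemma hasDerivAt_inv_normSq {u : ℝ → ℂ} {g : ℂ} {t s : ℝ} (hu : HasDerivAt u (u t * g / s) t)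
    (h0 : u t ≠ 0) :
    HasDerivAt (fun x => (((‖u x‖ ^ 2)⁻¹ : ℝ) : ℂ))
      ((((‖u t‖ ^ 2)⁻¹ : ℝ) : ℂ) * (-g - conj g) / s) t := by
  have hc : HasDerivAt (fun x => conj (u x)) (conj (u t * g / s)) t :=
    (Complex.conjCLE.toContinuousLinearMap.hasFDerivAt.comp_hasDerivAt t hu)
  have h2 : HasDerivAt (fun x => (u x * conj (u x))⁻¹)
      (-(u t * g / s * conj (u t) + u t * conj (u t * g / s)) / (u t * conj (u t)) ^ 2) t :=
    (hu.fun_mul hc).fun_inv (mul_ne_zero h0 (by simpa using h0))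
  have e : ∀ x, (((‖u x‖ ^ 2)⁻¹ : ℝ) : ℂ) = (u x * conj (u x))⁻¹ := fun x => by
    rw [Complex.mul_conj, Complex.normSq_eq_norm_sq]; push_cast; rfl
  simp only [e]
  refine h2.congr_deriv ?_
  have : conj (u t) ≠ 0 := by simpa using h0
  simp only [map_div₀, map_mul, Complex.conj_ofReal]
  field_simp
  ring

lemma vv_zero (hd : ∀ z ∈ ball (0 : ℂ) 1, deriv f z ≠ 0) {K : ℕ} (hK : 0 < K) {r : ℝ}
    (hr : r ∈ Set.Ioo (-1 : ℝ) 1) (θ : ℝ) : vv f K r θ 0 = aa f r θ 2 := by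
  simp [vv, hK, xCoef_zero (aa_one hd hr θ)]

lemma pVal_vv {K : ℕ} (w0 w1 w2 : ℂ) (r θ : ℝ) {i : ℕ} (hi : i + 1 < K) :
    pVal (xCoef (aa f r θ)) w0 w1 w2 i = pVal (vv f K r θ) w0 w1 w2 i :=
  pVal_congr _ _ _ fun j hj => by simp [vv, show j < K by omega]

lemma deriv_dens_ev_r (hf : DifferentiableOn ℂ f (ball 0 1))
    (hd : ∀ z ∈ ball (0 : ℂ) 1, deriv f z ≠ 0) {K : ℕ} (hK : 2 ≤ K) (hK' : K ≤ 11) {r : ℝ}
    (hr : r ∈ Set.Ioo (-1 : ℝ) 1) (θ : ℝ) {c : ℕ} (hc : dg c (K - 1) = 0)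
    (hc' : dg c (K + (K - 1)) = 0) :
    HasDerivAt (fun u => (dens f u θ : ℂ) * ev (K + K) (vv f K u θ) c)
      ((dens f r θ : ℂ) * dVal K (vv f K r θ) 1 1 0 (-1) c / ((1 - r ^ 2 : ℝ) : ℂ)) r := by
  have hs : ((1 - r ^ 2 : ℝ) : ℂ) ≠ 0 := by push_cast; exact one_sub_sq_ne hr
  have hev : ∀ᶠ u in 𝓝 r, u ∈ Set.Ioo (-1 : ℝ) 1 := isOpen_Ioo.mem_nhds hr
  -- near `r` the normalised first coefficient is one
  let A : ℝ → ℕ → ℂ := fun u n => if n = 1 then 1 else aa f u θ n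
  have hA : ∀ u ∈ Set.Ioo (-1 : ℝ) 1, A u = aa f u θ := fun u hu => by
    funext n
    by_cases h : n = 1
    · simp [A, h, aa_one hd hu θ]
    · simp [A, h]
  have hdA : ∀ n, 1 ≤ n → n ≤ 12 →
      HasDerivAt (fun u => A u n) (aDelta (A r) 1 0 (-1) n / ((1 - r ^ 2 : ℝ) : ℂ)) r := by
    intro n h1 h12
    rw [hA r hr]
    have : HasDerivAt (fun u => A u n) (aDelta (aa f r θ) 1 0 (-1) n / (1 - (r : ℂ) ^ 2)) r :=
      (hasDerivAt_aa_r hf hd hr θ h1 h12).congr_of_eventuallyEq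
        (hev.mono fun u hu => by simp only [hA u hu])
    push_cast
    exact this
  have hxq : ∀ i, i + 1 ≤ 11 → HasDerivAt (fun u => xCoef (aa f u θ) i)
      (pVal (xCoef (aa f r θ)) 1 0 (-1) i / ((1 - r ^ 2 : ℝ) : ℂ)) r := by
    intro i hi
    have := hasDerivAt_xCoef (a := A) (fun u => by simp [A]) hs hdA hi
    rw [hA r hr] at this
    exact this.congr_of_eventuallyEq (hev.mono fun u hu => by simp only [hA u hu])
  have hconj : ∀ i, i + 1 ≤ 11 → HasDerivAt (fun u => conj (xCoef (aa f u θ) i))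
      (conj (pVal (xCoef (aa f r θ)) 1 0 (-1) i / ((1 - r ^ 2 : ℝ) : ℂ))) r := fun i hi =>
    Complex.conjCLE.toContinuousLinearMap.hasFDerivAt.comp_hasDerivAt r (hxq i hi)
  refine hasDerivAt_dens_ev (v := fun u => vv f K u θ) (w := fun u => (dens f u θ : ℂ))
    (s := 1 - r ^ 2) hK (vv_conj f K r θ) (fun i hi => ?_) (fun i hi => ?_) (fun i hi => ?_) ?_
    (by omega) hc hc'
  · rw [← pVal_vv _ _ _ r θ hi]
    simpa [vv, show i < K by omega] using hxq i (by omega)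
  · rw [← pVal_vv _ _ _ r θ hi]
    have := hconj i (by omega)
    rw [map_div₀, Complex.conj_ofReal] at this
    simpa [vv] using this
  · by_cases h : i < K
    · exact ⟨_, by simpa [vv, h] using hxq i (by omega)⟩
    · exact ⟨_, by simpa [vv, h] using hconj (i - K) (by omega)⟩
  · have hcc := hasDerivAt_cc_r hf hr θ le_rfl (by norm_num : 1 ≤ 12)
    have h := hasDerivAt_inv_normSq (u := fun u => cc f u θ 1)
      (g := 2 * aa f r θ 2) (s := 1 - r ^ 2) (hcc.congr_deriv (by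
        have := cc_one_ne hd hr θ
        simp only [aa, show (1 : ℕ) + 1 = 2 from rfl]
        push_cast
        field_simp
        ring)) (cc_one_ne hd hr θ)
    refine h.congr_deriv ?_
    simp only [dens, vv_zero hd (by omega : 0 < K) hr θ]
    ring

lemma deriv_dens_ev_theta (hf : DifferentiableOn ℂ f (ball 0 1))
    (hd : ∀ z ∈ ball (0 : ℂ) 1, deriv f z ≠ 0) {K : ℕ} (hK : 2 ≤ K) (hK' : K ≤ 11) {r : ℝ}
    (hr : r ∈ Set.Ioo (-1 : ℝ) 1) (θ : ℝ) {c : ℕ} (hc : dg c (K - 1) = 0)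
    (hc' : dg c (K + (K - 1)) = 0) :
    HasDerivAt (fun u => (dens f r u : ℂ) * ev (K + K) (vv f K r u) c)
      ((dens f r θ : ℂ) * dVal K (vv f K r θ) 1 (Complex.I * r) (Complex.I * ((1 + r ^ 2 : ℝ) : ℂ))
        (Complex.I * r) c / ((1 - r ^ 2 : ℝ) : ℂ)) θ := by
  have hs : ((1 - r ^ 2 : ℝ) : ℂ) ≠ 0 := by push_cast; exact one_sub_sq_ne hr
  have hxq : ∀ i, i + 1 ≤ 11 → HasDerivAt (fun u => xCoef (aa f r u) i)
      (pVal (xCoef (aa f r θ)) (Complex.I * r) (Complex.I * ((1 + r ^ 2 : ℝ) : ℂ)) (Complex.I * r) i /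
        ((1 - r ^ 2 : ℝ) : ℂ)) θ := fun i hi =>
    hasDerivAt_xCoef (a := fun u => aa f r u) (fun u => aa_one hd hr u) hs
      (fun n h1 h12 => by
        push_cast
        exact hasDerivAt_aa_theta hf hd hr θ h1 h12) hi
  have hconj : ∀ i, i + 1 ≤ 11 → HasDerivAt (fun u => conj (xCoef (aa f r u) i))
      (conj (pVal (xCoef (aa f r θ)) (Complex.I * r) (Complex.I * ((1 + r ^ 2 : ℝ) : ℂ))
        (Complex.I * r) i / ((1 - r ^ 2 : ℝ) : ℂ))) θ := fun i hi =>
    Complex.conjCLE.toContinuousLinearMap.hasFDerivAt.comp_hasDerivAt θ (hxq i hi)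
  refine hasDerivAt_dens_ev (v := fun u => vv f K r u) (w := fun u => (dens f r u : ℂ))
    (s := 1 - r ^ 2) hK (vv_conj f K r θ) (fun i hi => ?_) (fun i hi => ?_) (fun i hi => ?_) ?_
    (by omega) hc hc'
  · rw [← pVal_vv _ _ _ r θ hi]
    simpa [vv, show i < K by omega] using hxq i (by omega)
  · rw [← pVal_vv _ _ _ r θ hi]
    have := hconj i (by omega)
    rw [map_div₀, Complex.conj_ofReal] at this
    simpa [vv] using this
  · by_cases h : i < K
    · exact ⟨_, by simpa [vv, h] using hxq i (by omega)⟩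
    · exact ⟨_, by simpa [vv, h] using hconj (i - K) (by omega)⟩
  · have hcc := hasDerivAt_cc_theta hf hr θ le_rfl (by norm_num : 1 ≤ 12)
    have h := hasDerivAt_inv_normSq (u := fun u => cc f r u 1)
      (g := Complex.I * (1 + (r : ℂ) ^ 2) + 2 * (Complex.I * r) * aa f r θ 2) (s := 1 - r ^ 2)
      (hcc.congr_deriv (by
        have := cc_one_ne hd hr θ
        simp only [aa, show (1 : ℕ) + 1 = 2 from rfl]
        push_cast
        field_simp
        ring)) (cc_one_ne hd hr θ)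
    refine h.congr_deriv ?_
    simp only [dens, vv_zero hd (by omega : 0 < K) hr θ]
    push_cast
    ring

lemma ev_norm_le {n : ℕ} {v : ℕ → ℂ} (h : ∀ i < n, ‖v i‖ ≤ 2) (c : ℕ) :
    ‖ev n v c‖ ≤ (2 : ℝ) ^ (15 * n) := by
  refine (norm_ev_le (b := fun _ => 2) c h).trans ?_
  rw [Finset.prod_pow_eq_pow_sum]
  refine pow_le_pow_right₀ (by norm_num) ?_
  calc ∑ i ∈ range n, dg c i ≤ ∑ _i ∈ range n, 15 :=
        sum_le_sum fun i _ => Nat.lt_succ_iff.1 (Nat.mod_lt _ (by norm_num))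
    _ = 15 * n := by simp [mul_comm]

lemma angular0_bound (C : Cert) : ∃ B : ℝ, 0 ≤ B ∧
    ∀ v : ℕ → ℂ, (∀ i < C.K + C.K, ‖v i‖ ≤ 2) → |C.angular0 v| ≤ B := by
  suffices ∀ l : Tms, ∃ B : ℝ, 0 ≤ B ∧ ∀ v : ℕ → ℂ, (∀ i < C.K + C.K, ‖v i‖ ≤ 2) →
      ‖(l.map fun t => (t.2 : ℂ) * dVal C.K v (-1) 0 1 0 t.1).sum‖ ≤ B by
    obtain ⟨B, hB0, hB⟩ := this C.psi
    exact ⟨B, hB0, fun v hv => (Complex.abs_re_le_norm _).trans (hB v hv)⟩
  intro l
  induction l with
  | nil => exact ⟨0, le_rfl, fun v _ => by simp⟩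
  | cons t l ih =>
    obtain ⟨B, hB0, hB⟩ := ih
    refine ⟨|(t.2 : ℝ)| * (∑ i ∈ range (C.K - 1), ((dg t.1 i : ℝ) + dg t.1 (C.K + i)) *
      2 ^ (15 * (C.K + C.K)) * (((i : ℝ) + 1) * 2)) + B, by positivity, fun v hv => ?_⟩
    simp only [List.map_cons, List.sum_cons]
    refine (norm_add_le _ _).trans (add_le_add ?_ (hB v hv))
    rw [norm_mul, Complex.norm_intCast]
    refine mul_le_mul_of_nonneg_left ?_ (abs_nonneg _)
    simp only [dVal, mul_zero, zero_mul, add_zero, map_one, neg_mul, one_mul, sub_neg_eq_add,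
      neg_add_cancel, zero_add]
    refine (norm_sum_le _ _).trans (sum_le_sum fun i hi => ?_)
    rw [mem_range] at hi
    have hP : ‖pVal v 0 1 0 i‖ ≤ ((i : ℝ) + 1) * 2 := by
      simp only [pVal, mul_zero, zero_mul, add_zero, zero_add, sub_zero, mul_one]
      rw [norm_mul]
      refine mul_le_mul (le_of_eq ?_) (hv i (by omega)) (norm_nonneg _) (by positivity)
      rw [show ((i : ℂ) + 1) = (((i : ℝ) + 1 : ℝ) : ℂ) by push_cast; rfl, Complex.norm_real,
        Real.norm_eq_abs, abs_of_nonneg (by positivity : (0 : ℝ) ≤ (i : ℝ) + 1)]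
    refine (norm_add_le _ _).trans ?_
    rw [norm_neg, norm_mul, norm_mul, norm_mul, norm_mul, RCLike.norm_conj, Complex.norm_natCast,
      Complex.norm_natCast, add_mul, add_mul]
    refine add_le_add ?_ ?_ <;>
      exact mul_le_mul (mul_le_mul_of_nonneg_left (ev_norm_le hv _) (Nat.cast_nonneg _)) hP
        (norm_nonneg _) (by positivity)

/-- The density times the positive function. -/
def phiF (f : ℂ → ℂ) (C : Cert) (r θ : ℝ) : ℝ := dens f r θ * C.Phi (vv f C.K r θ)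

/-- The density times the radial polynomial. -/
def radF (f : ℂ → ℂ) (C : Cert) (r θ : ℝ) : ℝ := dens f r θ * C.radial (vv f C.K r θ)

/-- The density times the angular polynomial. -/
def angF (f : ℂ → ℂ) (C : Cert) (r θ : ℝ) : ℝ := dens f r θ * C.angular (vv f C.K r θ)

/-- The density times the angular correction. -/
def ang0F (f : ℂ → ℂ) (C : Cert) (r θ : ℝ) : ℝ := dens f r θ * C.angular0 (vv f C.K r θ)

/-- The circular mean of `phiF`. -/
def total (f : ℂ → ℂ) (C : Cert) (r : ℝ) : ℝ := ∫ θ in (0 : ℝ)..2 * π, phiF f C r θ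

lemma hasDerivAt_phiF {C : Cert} (hC : C.Good) (hK : C.K ≤ 11) (hf : DifferentiableOn ℂ f (ball 0 1))
    (hd : ∀ z ∈ ball (0 : ℂ) 1, deriv f z ≠ 0) {r : ℝ} (hr : r ∈ Set.Ioo (-1 : ℝ) 1) (θ : ℝ) :
    HasDerivAt (fun u => phiF f C u θ) (radF f C r θ / (1 - r ^ 2)) r := by
  obtain ⟨h2, -, hphi, -⟩ := id hC
  have hphi' : ∀ t ∈ C.phi, dg t.1 (C.K - 1) = 0 ∧ dg t.1 (C.K + (C.K - 1)) = 0 := by
    intro t ht
    simp only [freeOk, List.all_eq_true, Bool.and_eq_true] at hphi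
    exact ⟨Nat.eq_of_beq_eq_true (hphi t ht).1.2, Nat.eq_of_beq_eq_true (hphi t ht).2⟩
  have h : HasDerivAt (fun u => (C.phi.map fun t => (t.2 : ℂ) *
        ((dens f u θ : ℂ) * ev (C.K + C.K) (vv f C.K u θ) t.1)).sum)
      ((C.phi.map fun t => (t.2 : ℂ) * ((dens f r θ : ℂ) * dVal C.K (vv f C.K r θ) 1 1 0 (-1) t.1 /
        ((1 - r ^ 2 : ℝ) : ℂ))).sum) r :=
    hasDerivAt_list_sum C.phi fun t ht =>
      (deriv_dens_ev_r hf hd h2 hK hr θ (hphi' t ht).1 (hphi' t ht).2).const_mul _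
  have hm : ∀ (l : Tms) (a : ℂ) (g : ℕ × ℤ → ℂ),
      (l.map fun t => (t.2 : ℂ) * (a * g t)).sum = a * (l.map fun t => (t.2 : ℂ) * g t).sum := by
    intro l a g
    rw [← List.sum_map_mul_left]
    congr 1
    exact List.map_congr_left fun t _ => by ring
  have h' := Complex.reCLM.hasFDerivAt.comp_hasDerivAt r h
  simp only [Function.comp_def, Complex.reCLM_apply] at h'
  refine (h'.congr_deriv ?_).congr_of_eventuallyEq (Eventually.of_forall fun u => ?_)
  · simp only [mul_div_right_comm _ _ ((1 - r ^ 2 : ℝ) : ℂ), ← Complex.ofReal_div, hm,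
      Complex.re_ofReal_mul, radF, Cert.radial]
    ring
  · show phiF f C u θ = _
    simp only [hm, Complex.re_ofReal_mul, phiF, Cert.Phi, evT]

lemma angular_identity {C : Cert} (hC : C.Good) (hK : C.K ≤ 11) (hf : DifferentiableOn ℂ f (ball 0 1))
    (hd : ∀ z ∈ ball (0 : ℂ) 1, deriv f z ≠ 0) {r : ℝ} (hr : r ∈ Set.Ico (0 : ℝ) 1) :
    r * (∫ θ in (0 : ℝ)..2 * π, angF f C r θ) +
      (1 - r) ^ 2 * ∫ θ in (0 : ℝ)..2 * π, ang0F f C r θ = 0 := by
  obtain ⟨h2, -, -, hpsi, -⟩ := id hC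
  have hpsi' : ∀ t ∈ C.psi, dg t.1 (C.K - 1) = 0 ∧ dg t.1 (C.K + (C.K - 1)) = 0 := by
    intro t ht
    simp only [freeOk, List.all_eq_true, Bool.and_eq_true] at hpsi
    exact ⟨Nat.eq_of_beq_eq_true (hpsi t ht).1.2, Nat.eq_of_beq_eq_true (hpsi t ht).2⟩
  have hr' : r ∈ Set.Ioo (-1 : ℝ) 1 := ⟨by linarith [hr.1], hr.2⟩
  have hm : ∀ (l : Tms) (a : ℂ) (g : ℕ × ℤ → ℂ),
      (l.map fun t => (t.2 : ℂ) * (a * g t)).sum = a * (l.map fun t => (t.2 : ℂ) * g t).sum := by
    intro l a g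
    rw [← List.sum_map_mul_left]
    congr 1
    exact List.map_congr_left fun t _ => by ring
  have iA : IntervalIntegrable (angF f C r) volume 0 (2 * π) :=
    (continuous_slice (continuousOn_lin hf hd C.K (-1) 1 2 1 C.psi) hr').intervalIntegrable _ _
  have iA0 : IntervalIntegrable (ang0F f C r) volume 0 (2 * π) :=
    (continuous_slice (continuousOn_lin hf hd C.K (-1) 0 1 0 C.psi) hr').intervalIntegrable _ _
  have hd' : ∀ θ, HasDerivAt (fun u => dens f r u * C.Psi (vv f C.K r u))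
      (-(r * angF f C r θ + (1 - r) ^ 2 * ang0F f C r θ) / (1 - r ^ 2)) θ := by
    intro θ
    have h : HasDerivAt (fun u => (C.psi.map fun t => (t.2 : ℂ) *
          ((dens f r u : ℂ) * ev (C.K + C.K) (vv f C.K r u) t.1)).sum)
        ((C.psi.map fun t => (t.2 : ℂ) * ((dens f r θ : ℂ) * dVal C.K (vv f C.K r θ) 1
          (Complex.I * r) (Complex.I * ((1 + r ^ 2 : ℝ) : ℂ)) (Complex.I * r) t.1 /
          ((1 - r ^ 2 : ℝ) : ℂ))).sum) θ :=
      hasDerivAt_list_sum C.psi fun t ht =>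
        (deriv_dens_ev_theta hf hd h2 hK hr' θ (hpsi' t ht).1 (hpsi' t ht).2).const_mul _
    have h' := Complex.reCLM.hasFDerivAt.comp_hasDerivAt θ (h.const_mul Complex.I)
    simp only [Function.comp_def, Complex.reCLM_apply] at h'
    refine (h'.congr_deriv ?_).congr_of_eventuallyEq (Eventually.of_forall fun u => ?_)
    · have hW : ∀ t : ℕ, dVal C.K (vv f C.K r θ) 1 (Complex.I * r)
          (Complex.I * ((1 + r ^ 2 : ℝ) : ℂ)) (Complex.I * r) t =
          Complex.I * ((r : ℂ) * dVal C.K (vv f C.K r θ) (-1) 1 2 1 t +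
            (((1 - r) ^ 2 : ℝ) : ℂ) * dVal C.K (vv f C.K r θ) (-1) 0 1 0 t) := by
        intro t
        rw [dVal_rotate]
        have := dVal_linear C.K (vv f C.K r θ) t r ((1 - r) ^ 2) 1 2 1 0 1 0
        simp only [Complex.ofReal_one, Complex.ofReal_zero, mul_one, mul_zero, add_zero,
          Complex.ofReal_ofNat] at this
        rw [← this]
        congr 2
        push_cast
        ring
      simp only [mul_div_right_comm _ _ ((1 - r ^ 2 : ℝ) : ℂ), ← Complex.ofReal_div, hW, hm]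
      simp only [mul_add, List.sum_map_add, hm]
      simp only [Complex.add_re, Complex.mul_re, Complex.mul_im, Complex.I_re, Complex.I_im,
        Complex.ofReal_re, Complex.ofReal_im, angF, ang0F, Cert.angular, Cert.angular0, Complex.add_im]
      ring
    · simp only [hm]
      rw [← mul_assoc, mul_comm Complex.I, mul_assoc, Complex.re_ofReal_mul]
      rfl
  have hper : ∀ n, cc f r (2 * π) n = cc f r 0 n := by
    intro n
    have : pt r (2 * π) = pt r 0 := by simp [pt, Complex.exp_two_pi_mul_I]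
    simp [cc, dd, this, Complex.exp_two_pi_mul_I]
  have haa : aa f r (2 * π) = aa f r 0 := by funext n; simp [aa, hper]
  have hend : dens f r (2 * π) * C.Psi (vv f C.K r (2 * π)) = dens f r 0 * C.Psi (vv f C.K r 0) := by
    have : vv f C.K r (2 * π) = vv f C.K r 0 := by funext i; simp [vv, haa]
    rw [this]; simp [dens, hper]
  have hi := intervalIntegral.integral_eq_sub_of_hasDerivAt (fun θ _ => hd' θ)
    (((iA.const_mul r).add (iA0.const_mul ((1 - r) ^ 2))).neg.div_const _)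
  rw [hend, sub_self, intervalIntegral.integral_div, intervalIntegral.integral_neg,
    intervalIntegral.integral_add (iA.const_mul r) (iA0.const_mul _),
    intervalIntegral.integral_const_mul, intervalIntegral.integral_const_mul, div_eq_zero_iff,
    neg_eq_zero] at hi
  exact hi.resolve_right (by nlinarith [hr.1, hr.2])

lemma pointwise {C : Cert} (hC : C.Good) (hf : DifferentiableOn ℂ f (ball 0 1))
    (hinj : Set.InjOn f (ball 0 1)) (hd : ∀ z ∈ ball (0 : ℂ) 1, deriv f z ≠ 0) {B : ℝ}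
    (hB : ∀ v : ℕ → ℂ, (∀ i < C.K + C.K, ‖v i‖ ≤ 2) → |C.angular0 v| ≤ B)
    {r : ℝ} (hr : r ∈ Set.Ico (0 : ℝ) 1) (θ : ℝ) :
    (C.scale : ℝ) / 2 * dens f r θ ≤ phiF f C r θ ∧
    (C.kd : ℝ) * C.scale / 2 * dens f r θ ≤
      C.kn * phiF f C r θ - C.kd * radF f C r θ + C.kd * angF f C r θ ∧
    |ang0F f C r θ| ≤ B * dens f r θ := by
  have h2 := hC.1
  obtain ⟨hb1, hb2⟩ := vv_bounds hf hinj hd h2 hr θ
  obtain ⟨c1, c2⟩ := Cert.sound hC (vv_conj f C.K r θ) hb1 hb2
  have hpos := (dens_pos hd ⟨by linarith [hr.1], hr.2⟩ θ).le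
  have hle : ∀ i < C.K + C.K, ‖vv f C.K r θ i‖ ≤ 2 := by
    have h1 : ∀ i < C.K, ‖vv f C.K r θ i‖ ≤ 2 := by
      intro i hi
      rcases Nat.eq_zero_or_pos i with rfl | hi0
      · exact hb2
      · have hle := single_le_sum (f := fun j : ℕ => (j : ℝ) * ‖vv f C.K r θ j‖ ^ 2)
          (fun j _ => by positivity) (mem_Ico.2 ⟨hi0, hi⟩)
        have hi' : (1 : ℝ) ≤ i := by exact_mod_cast hi0
        have hsq : (1 : ℝ) * ‖vv f C.K r θ i‖ ^ 2 ≤ (i : ℝ) * ‖vv f C.K r θ i‖ ^ 2 :=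
          mul_le_mul_of_nonneg_right hi' (sq_nonneg _)
        have := (sq_le_one_iff₀ (norm_nonneg _)).1 (le_trans (by linarith) (hle.trans hb1))
        linarith
    intro i hi
    rcases lt_or_ge i C.K with h | h
    · exact h1 i h
    · obtain ⟨j, rfl⟩ := Nat.exists_eq_add_of_le h
      rw [vv_conj f C.K r θ j (by omega), RCLike.norm_conj]
      exact h1 j (by omega)
  refine ⟨?_, ?_, ?_⟩
  · simp only [phiF]; nlinarith [c1, hpos]
  · simp only [phiF, radF, angF]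
    have := mul_le_mul_of_nonneg_left c2 hpos
    linarith
  · simp only [ang0F]
    rw [abs_mul, abs_of_nonneg hpos, mul_comm B]
    exact mul_le_mul_of_nonneg_left (hB _ hle) hpos

lemma hasDerivAt_total {C : Cert} (hC : C.Good) (hK : C.K ≤ 11) (hf : DifferentiableOn ℂ f (ball 0 1))
    (hd : ∀ z ∈ ball (0 : ℂ) 1, deriv f z ≠ 0) {r : ℝ} (hr : r ∈ Set.Ioo (0 : ℝ) 1) :
    HasDerivAt (total f C) (∫ θ in (0 : ℝ)..2 * π, radF f C r θ / (1 - r ^ 2)) r := by
  have hr2 : (r + 1) / 2 < 1 := by linarith [hr.2]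
  have hsub : Set.Icc (r / 2) ((r + 1) / 2) ×ˢ Set.uIcc (0 : ℝ) (2 * π) ⊆
      Set.Ioo (-1 : ℝ) 1 ×ˢ Set.univ :=
    Set.prod_mono (fun u hu => ⟨by linarith [hu.1, hr.1], by linarith [hu.2]⟩) (Set.subset_univ _)
  have hGc : ContinuousOn (fun p : ℝ × ℝ => radF f C p.1 p.2 / (1 - p.1 ^ 2))
      (Set.Icc (r / 2) ((r + 1) / 2) ×ˢ Set.uIcc (0 : ℝ) (2 * π)) :=
    ((continuousOn_lin hf hd C.K 1 1 0 (-1) C.phi).mono hsub).div (by fun_prop) fun p hp => by
      have := (hsub hp).1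
      nlinarith [this.1, this.2]
  obtain ⟨M, hM⟩ := (isCompact_Icc.prod isCompact_uIcc).exists_bound_of_continuousOn hGc
  have hN : Set.Ioo (r / 2) ((r + 1) / 2) ∈ 𝓝 r :=
    Ioo_mem_nhds (by linarith [hr.1]) (by linarith [hr.2])
  refine (intervalIntegral.hasDerivAt_integral_of_dominated_loc_of_deriv_le (μ := volume)
    (F := phiF f C) (F' := fun u θ => radF f C u θ / (1 - u ^ 2)) (bound := fun _ => M) hN ?_
    ((continuous_slice (continuousOn_Phi hf hd C) ⟨by linarith [hr.1], hr.2⟩).intervalIntegrable _ _) ?_ ?_ intervalIntegrable_const ?_).2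
  · filter_upwards [hN] with u hu
    exact (continuous_slice (continuousOn_Phi hf hd C) ⟨by linarith [hu.1, hr.1], by linarith [hu.2]⟩).aestronglyMeasurable
  · exact ((continuous_slice (continuousOn_lin hf hd C.K 1 1 0 (-1) C.phi) ⟨by linarith [hr.1], hr.2⟩).div_const _).aestronglyMeasurable
  · exact Eventually.of_forall fun θ hθ u hu =>
      hM (u, θ) ⟨Set.Ioo_subset_Icc_self hu, Set.uIoc_subset_uIcc hθ⟩
  · exact Eventually.of_forall fun θ _ u hu =>
      hasDerivAt_phiF hC hK hf hd (r := u) ⟨by linarith [hu.1, hr.1], by linarith [hu.2]⟩ θ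

lemma diff_ineq {C : Cert} (hC : C.Good) (hK : C.K ≤ 11) (hf : DifferentiableOn ℂ f (ball 0 1))
    (hinj : Set.InjOn f (ball 0 1)) (hd : ∀ z ∈ ball (0 : ℂ) 1, deriv f z ≠ 0)
    (hscpos : 0 < (C.scale : ℝ)) {B : ℝ} (hB0 : 0 ≤ B)
    (hB : ∀ v : ℕ → ℂ, (∀ i < C.K + C.K, ‖v i‖ ≤ 2) → |C.angular0 v| ≤ B)
    {r : ℝ} (hhalf : 1 / 2 ≤ r) (hnear : 1 - (C.scale : ℝ) / (2 * (2 * B + C.scale)) ≤ r)
    (hlt : r < 1) :
    (1 - r ^ 2) * deriv (total f C) r ≤ (C.kn : ℝ) / C.kd * total f C r := by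
  have hkdpos : (0 : ℝ) < C.kd := by exact_mod_cast hC.2.1
  set sc : ℝ := (C.scale : ℝ) with hsc'
  set r0 : ℝ := 1 - sc / (2 * (2 * B + sc)) with hr0
  have hr : r ∈ Set.Ico r0 1 := ⟨hnear, hlt⟩
  have hr' : r ∈ Set.Ico (0 : ℝ) 1 := ⟨by linarith, hr.2⟩
  have hri : r ∈ Set.Ioo (0 : ℝ) 1 := ⟨by linarith, hr.2⟩
  have hs : 0 < 1 - r ^ 2 := by nlinarith [hr'.1, hr.2]
  have hio' : r ∈ Set.Ioo (-1 : ℝ) 1 := ⟨by linarith [hr'.1], hr.2⟩
  have iF : IntervalIntegrable (phiF f C r) volume 0 (2 * π) :=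
    (continuous_slice (continuousOn_Phi hf hd C) hio').intervalIntegrable _ _
  have iG : IntervalIntegrable (radF f C r) volume 0 (2 * π) :=
    (continuous_slice (continuousOn_lin hf hd C.K 1 1 0 (-1) C.phi) hio').intervalIntegrable _ _
  have iA : IntervalIntegrable (angF f C r) volume 0 (2 * π) :=
    (continuous_slice (continuousOn_lin hf hd C.K (-1) 1 2 1 C.psi) hio').intervalIntegrable _ _
  have iA0 : IntervalIntegrable (ang0F f C r) volume 0 (2 * π) :=
    (continuous_slice (continuousOn_lin hf hd C.K (-1) 0 1 0 C.psi) hio').intervalIntegrable _ _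
  have idn : IntervalIntegrable (dens f r) volume 0 (2 * π) :=
    (continuous_slice (continuousOn_dens hf hd) hio').intervalIntegrable _ _
  rw [(hasDerivAt_total hC hK hf hd hri).deriv, intervalIntegral.integral_div, mul_div_cancel₀ _ hs.ne',
    div_mul_eq_mul_div, le_div_iff₀ hkdpos]
  set D := ∫ θ in (0 : ℝ)..2 * π, dens f r θ with hD
  have h1 := intervalIntegral.integral_mono_on (by positivity) (idn.const_mul _)
    (((iF.const_mul (C.kn : ℝ)).sub (iG.const_mul (C.kd : ℝ))).add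
      (iA.const_mul (C.kd : ℝ))) fun θ _ => (pointwise hC hf hinj hd hB hr' θ).2.1
  rw [intervalIntegral.integral_const_mul, intervalIntegral.integral_add
      ((iF.const_mul _).sub (iG.const_mul _)) (iA.const_mul _),
    intervalIntegral.integral_sub (iF.const_mul _) (iG.const_mul _),
    intervalIntegral.integral_const_mul, intervalIntegral.integral_const_mul,
    intervalIntegral.integral_const_mul] at h1
  have h3 : |∫ θ in (0 : ℝ)..2 * π, ang0F f C r θ| ≤ B * D := by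
    refine (intervalIntegral.abs_integral_le_integral_abs (by positivity)).trans ?_
    rw [hD, ← intervalIntegral.integral_const_mul]
    exact intervalIntegral.integral_mono_on (by positivity) iA0.abs
      (idn.const_mul _) fun θ _ => (pointwise hC hf hinj hd hB hr' θ).2.2
  have hD0 : 0 ≤ D := intervalIntegral.integral_nonneg (by positivity)
    fun θ _ => (dens_pos hd hio' θ).le
  have h4 := angular_identity hC hK hf hd hr'
  have h5 : (∫ θ in (0 : ℝ)..2 * π, angF f C r θ) ≤ sc / 2 * D := by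
    have hr12 : (1 : ℝ) / 2 ≤ r := by linarith
    have hx : 1 - r ≤ sc / (2 * (2 * B + sc)) := by linarith [hr.1]
    rw [le_div_iff₀ (by positivity)] at hx
    have hB1 : (1 - r) * B ≤ sc / 4 := by nlinarith [mul_nonneg (sub_nonneg.2 hr.2.le) hscpos.le]
    have hB2 : (1 - r) ^ 2 * B ≤ sc / 4 := by
      nlinarith [mul_le_mul_of_nonneg_left hB1 (sub_nonneg.2 hr.2.le)]
    have hB3 : -((1 - r) ^ 2 * ∫ θ in (0 : ℝ)..2 * π, ang0F f C r θ) ≤ sc / 4 * D := by
      have := mul_le_mul_of_nonneg_left (abs_le.1 h3).1 (sq_nonneg (1 - r))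
      have := mul_le_mul_of_nonneg_right hB2 hD0
      linarith
    refine le_of_mul_le_mul_left (a := r) ?_ hri.1
    have : sc / 4 * D ≤ r * (sc / 2 * D) := by
      nlinarith [mul_le_mul_of_nonneg_right hr12 (by positivity : 0 ≤ sc / 2 * D)]
    linarith
  have h6 := mul_le_mul_of_nonneg_left h5 hkdpos.le
  simp only [total]
  linarith

/-- A good certificate with rate `β` bounds the integral means of `1 / ‖f'‖²`. -/
theorem means_of_good {C : Cert} (hC : C.Good) (hK : C.K ≤ 11) (hsc : 0 < C.scale) {β : ℝ}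
    (hβ : (C.kn : ℝ) = 2 * (β + 2) * C.kd) (hf : DifferentiableOn ℂ f (ball 0 1))
    (hinj : Set.InjOn f (ball 0 1)) (hd : ∀ z ∈ ball (0 : ℂ) 1, deriv f z ≠ 0) :
    ∃ D : ℝ, ∀ r ∈ Set.Ico (0 : ℝ) 1,
      ∫ θ in (0 : ℝ)..2 * π, (‖deriv f (pt r θ)‖ ^ 2)⁻¹ ≤ D / (1 - r) ^ β := by
  obtain ⟨B, hB0, hB⟩ := angular0_bound C
  set sc : ℝ := (C.scale : ℝ) with hsc'
  have hscpos : 0 < sc := by rw [hsc']; exact_mod_cast hsc
  have hkdpos : (0 : ℝ) < C.kd := by exact_mod_cast hC.2.1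
  have hio : ∀ {r : ℝ}, r ∈ Set.Ico (0 : ℝ) 1 → r ∈ Set.Ioo (-1 : ℝ) 1 := fun hr =>
    ⟨by linarith [hr.1], hr.2⟩
  set r0 : ℝ := 1 - sc / (2 * (2 * B + sc)) with hr0
  have hq : 0 < sc / (2 * (2 * B + sc)) := by positivity
  have hq1 : sc / (2 * (2 * B + sc)) ≤ 1 / 2 := by
    rw [div_le_iff₀ (by positivity)]; linarith
  have hr0mem : 1 / 2 ≤ r0 ∧ r0 < 1 := ⟨by rw [hr0]; linarith, by rw [hr0]; linarith⟩
  -- integrate the inequality
  set κ : ℝ := (C.kn : ℝ) / C.kd with hκ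
  set W : ℝ → ℝ := fun r => Real.exp (κ / 2 * (Real.log (1 - r) - Real.log (1 + r))) * total f C r with hW
  have hWd : ∀ r ∈ Set.Ico r0 1, HasDerivAt W
      (Real.exp (κ / 2 * (Real.log (1 - r) - Real.log (1 + r))) *
        (deriv (total f C) r - κ / (1 - r ^ 2) * total f C r)) r := by
    intro r hr
    have h0 : 0 < r := by linarith [hr.1, hr0mem.1]
    have a1 : HasDerivAt (fun r : ℝ => Real.log (1 - r)) (-1 / (1 - r)) r :=
      ((hasDerivAt_id r).const_sub 1).log (sub_ne_zero.2 hr.2.ne')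
    have a2 : HasDerivAt (fun r : ℝ => Real.log (1 + r)) (1 / (1 + r)) r :=
      ((hasDerivAt_id r).const_add 1).log (by linarith : (1 : ℝ) + r ≠ 0)
    have hJ' := (hasDerivAt_total hC hK hf hd ⟨h0, hr.2⟩).differentiableAt.hasDerivAt
    refine ((((a1.sub a2).const_mul (κ / 2)).exp).mul hJ').congr_deriv ?_
    have : (1 : ℝ) - r ≠ 0 := sub_ne_zero.2 hr.2.ne'
    have : (1 : ℝ) + r ≠ 0 := by linarith
    rw [show 1 - r ^ 2 = (1 - r) * (1 + r) by ring]
    simp only [Pi.sub_apply]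
    field_simp
    ring
  have hanti : AntitoneOn W (Set.Ico r0 1) :=
    antitoneOn_of_deriv_nonpos (convex_Ico _ _)
      (fun r hr => (hWd r hr).continuousAt.continuousWithinAt)
      (fun r hr => (hWd r (interior_subset hr)).differentiableAt.differentiableWithinAt)
      fun r hr => by
        have hr' := interior_subset hr
        rw [(hWd r hr').deriv]
        refine mul_nonpos_of_nonneg_of_nonpos (Real.exp_nonneg _) ?_
        have hs : 0 < 1 - r ^ 2 := by nlinarith [hr0mem.1, hr'.1, hr'.2]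
        have := diff_ineq hC hK hf hinj hd hscpos hB0 hB (by linarith [hr0mem.1, hr'.1]) hr'.1 hr'.2
        rw [sub_nonpos, div_mul_eq_mul_div, le_div_iff₀ hs]
        linarith
  -- the bound near the boundary
  have hκβ : κ / 2 = β + 2 := by rw [hκ, hβ]; field_simp
  have hnorm : ∀ r ∈ Set.Ico (0 : ℝ) 1, ∀ θ,
      (‖deriv f (pt r θ)‖ ^ 2)⁻¹ = (1 - r ^ 2) ^ 2 * dens f r θ := by
    intro r hr θ
    have hs : 0 < 1 - r ^ 2 := by nlinarith [hr.1, hr.2]
    have hdne := norm_ne_zero_iff.2 (hd _ (pt_mem (hio hr) θ))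
    have h1 : ‖cc f r θ 1‖ = (1 - r ^ 2) * ‖deriv f (pt r θ)‖ := by
      rw [cc_one, norm_mul, norm_mul, Complex.norm_exp_ofReal_mul_I, mul_one,
        show (1 - (r : ℂ) ^ 2) = ((1 - r ^ 2 : ℝ) : ℂ) by push_cast; rfl, Complex.norm_real,
        Real.norm_eq_abs, abs_of_pos hs]
    rw [dens, h1]
    field_simp
  have hnear : ∀ r ∈ Set.Ico r0 1, ∫ θ in (0 : ℝ)..2 * π, (‖deriv f (pt r θ)‖ ^ 2)⁻¹ ≤
      (8 / sc * (W r0 * (2 : ℝ) ^ (β + 2))) / (1 - r) ^ β := by
    intro r hr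
    have hr' : r ∈ Set.Ico (0 : ℝ) 1 := ⟨by linarith [hr.1, hr0mem.1], hr.2⟩
    rw [intervalIntegral.integral_congr (fun θ _ => hnorm r hr' θ),
      intervalIntegral.integral_const_mul]
    have idn : IntervalIntegrable (dens f r) volume 0 (2 * π) :=
      (continuous_slice (continuousOn_dens hf hd) (hio hr')).intervalIntegrable _ _
    have iF : IntervalIntegrable (phiF f C r) volume 0 (2 * π) :=
      (continuous_slice (continuousOn_Phi hf hd C) (hio hr')).intervalIntegrable _ _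
    have h1 := intervalIntegral.integral_mono_on (by positivity) (idn.const_mul _) iF fun θ _ => (pointwise hC hf hinj hd hB hr' θ).1
    rw [intervalIntegral.integral_const_mul] at h1
    have h2' : W r ≤ W r0 := hanti ⟨le_rfl, hr0mem.2⟩ hr hr.1
    have hp : 0 < 1 - r := sub_pos.2 hr.2
    have hp' : 0 < 1 + r := by linarith [hr'.1]
    have hexp : Real.exp (κ / 2 * (Real.log (1 - r) - Real.log (1 + r))) =
        (1 - r) ^ (β + 2) / (1 + r) ^ (β + 2) := by
      rw [Real.rpow_def_of_pos hp, Real.rpow_def_of_pos hp', ← Real.exp_sub, hκβ]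
      ring_nf
    replace h2' : (1 - r) ^ (β + 2) / (1 + r) ^ (β + 2) * total f C r ≤ W r0 := by rw [← hexp]; exact h2'
    rw [div_mul_eq_mul_div, div_le_iff₀ (Real.rpow_pos_of_pos hp' _)] at h2'
    have hW0 : 0 ≤ W r0 := mul_nonneg (Real.exp_nonneg _)
      (intervalIntegral.integral_nonneg (by positivity) fun θ _ =>
        le_trans (mul_nonneg (by positivity) (dens_pos hd (hio ⟨by linarith, hr0mem.2⟩) θ).le)
          (pointwise hC hf hinj hd hB ⟨by linarith, hr0mem.2⟩ θ).1)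
    have hb : (1 + r) ^ (β + 2) ≤ (2 : ℝ) ^ (β + 2) :=
      Real.rpow_le_rpow hp'.le (by linarith [hr.2]) (by
        have : 0 ≤ κ / 2 := by positivity
        linarith)
    have h7 : total f C r * (1 - r) ^ (β + 2) ≤ W r0 * (2 : ℝ) ^ (β + 2) := by
      calc total f C r * (1 - r) ^ (β + 2) = (1 - r) ^ (β + 2) * total f C r := mul_comm _ _
        _ ≤ W r0 * (1 + r) ^ (β + 2) := h2'
        _ ≤ _ := mul_le_mul_of_nonneg_left hb hW0
    have hpow : (1 - r) ^ (β + 2) = (1 - r) ^ β * (1 - r) ^ 2 := by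
      rw [Real.rpow_add hp]; norm_num
    rw [le_div_iff₀ (Real.rpow_pos_of_pos hp _)]
    have hs4 : (1 - r ^ 2) ^ 2 ≤ 4 * (1 - r) ^ 2 := by
      rw [show 1 - r ^ 2 = (1 - r) * (1 + r) by ring, mul_pow, mul_comm 4]
      exact mul_le_mul_of_nonneg_left (by nlinarith [hr'.1, hr.2]) (sq_nonneg _)
    have hD0 : 0 ≤ ∫ θ in (0 : ℝ)..2 * π, dens f r θ := intervalIntegral.integral_nonneg
      (by positivity) fun θ _ => (dens_pos hd (hio hr') θ).le
    set D := ∫ θ in (0 : ℝ)..2 * π, dens f r θ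
    have hJr : sc / 2 * D ≤ total f C r := h1
    have hb0 : 0 < (1 - r) ^ β := Real.rpow_pos_of_pos hp _
    calc (1 - r ^ 2) ^ 2 * D * (1 - r) ^ β ≤ 4 * (1 - r) ^ 2 * D * (1 - r) ^ β :=
          mul_le_mul_of_nonneg_right (mul_le_mul_of_nonneg_right hs4 hD0) hb0.le
      _ = 8 / sc * ((sc / 2 * D) * ((1 - r) ^ β * (1 - r) ^ 2)) := by field_simp; ring
      _ ≤ 8 / sc * (total f C r * ((1 - r) ^ β * (1 - r) ^ 2)) :=
          mul_le_mul_of_nonneg_left (mul_le_mul_of_nonneg_right hJr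
            (mul_nonneg hb0.le (sq_nonneg _))) (by positivity)
      _ ≤ _ := by rw [← hpow]; exact mul_le_mul_of_nonneg_left h7 (by positivity)
  -- the bound away from the boundary
  have hfar : ContinuousOn (fun p : ℝ × ℝ => (‖deriv f (pt p.1 p.2)‖ ^ 2)⁻¹)
      (Set.Icc 0 r0 ×ˢ Set.uIcc 0 (2 * π)) := by
    refine ContinuousOn.inv₀ (ContinuousOn.pow (ContinuousOn.norm ?_) 2) ?_
    · exact (hf.deriv isOpen_ball).continuousOn.comp continuous_pt.continuousOn fun p hp =>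
        pt_mem ⟨by linarith [hp.1.1], by linarith [hp.1.2, hr0mem.2]⟩ _
    · exact fun p hp => pow_ne_zero 2 (norm_ne_zero_iff.2 (hd _
        (pt_mem ⟨by linarith [hp.1.1], by linarith [hp.1.2, hr0mem.2]⟩ _)))
  obtain ⟨M, hM⟩ := (isCompact_Icc.prod isCompact_uIcc).exists_bound_of_continuousOn hfar
  refine ⟨max (8 / sc * (W r0 * (2 : ℝ) ^ (β + 2)))
    (|2 * π| * |M| * max 1 ((1 - r0) ^ β)), fun r hr => ?_⟩
  have hp : 0 < 1 - r := sub_pos.2 hr.2
  rcases lt_or_ge r r0 with h | h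
  · have h1 : ∫ θ in (0 : ℝ)..2 * π, (‖deriv f (pt r θ)‖ ^ 2)⁻¹ ≤ |2 * π| * |M| := by
      refine (le_abs_self _).trans ?_
      have := intervalIntegral.norm_integral_le_of_norm_le_const (a := 0) (b := 2 * π) (C := |M|)
        (f := fun θ => (‖deriv f (pt r θ)‖ ^ 2)⁻¹) fun θ hθ =>
          (hM (r, θ) ⟨⟨hr.1, h.le⟩, Set.uIoc_subset_uIcc hθ⟩).trans (le_abs_self M)
      rw [Real.norm_eq_abs, sub_zero] at this
      linarith
    rw [le_div_iff₀ (Real.rpow_pos_of_pos hp _)]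
    refine le_trans ?_ (le_max_right _ _)
    refine mul_le_mul h1 ?_ (Real.rpow_nonneg hp.le _) (by positivity)
    rcases le_total 0 β with hb | hb
    · exact le_max_of_le_left (Real.rpow_le_one hp.le (by linarith [hr.1]) hb)
    · exact le_max_of_le_right (Real.rpow_le_rpow_of_nonpos (by linarith [hr0mem.2]) (by linarith) hb)
  · exact (hnear r ⟨h, hr.2⟩).trans
      (div_le_div_of_nonneg_right (le_max_left _ _) (Real.rpow_nonneg hp.le _))

end Vale.Agent.P142b
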