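import Mathlib

/-!
Monomials in finitely many complex variables, coded by base-16 digits of a natural number.
-/

noncomputable section

open Finset
open scoped ComplexConjugate

namespace Vale.Agent.P142b

/-- The value of the monomial with code `c`: digit `i` is the exponent of `v i`. -/
def ev : ℕ → (ℕ → ℂ) → ℕ → ℂ
  | 0, _, _ => 1
  | n + 1, v, c => v 0 ^ (c % 16) * ev n (fun i => v (i + 1)) (c / 16)

/-- Exponent number `i` of a code. -/
def dg (c i : ℕ) : ℕ := c / 16 ^ i % 16

/-- All of the first `n` exponents are at most `B`. -/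
def small : ℕ → ℕ → ℕ → Bool
  | 0, _, _ => true
  | n + 1, B, c => Nat.ble (c % 16) B && small n B (c / 16)

/-- The code of the conjugate monomial. -/
def cjc (K c : ℕ) : ℕ := c % 16 ^ K * 16 ^ K + c / 16 ^ K % 16 ^ K

lemma dg_zero (c : ℕ) : dg c 0 = c % 16 := by simp [dg]

lemma dg_succ (c i : ℕ) : dg c (i + 1) = dg (c / 16) i := by
  simp [dg, pow_succ', Nat.div_div_eq_div_mul]

lemma small_iff : ∀ {n B c : ℕ}, small n B c = true ↔ ∀ i < n, dg c i ≤ B := by
  intro n
  induction n with
  | zero => simp [small]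
  | succ n ih =>
    intro B c
    simp only [small, Bool.and_eq_true, Nat.ble_eq, ih]
    constructor
    · rintro ⟨h0, h⟩ i hi
      rcases i with _ | i
      · simpa [dg_zero] using h0
      · simpa [dg_succ] using h i (by omega)
    · intro h
      exact ⟨by simpa [dg_zero] using h 0 (by omega),
        fun i hi => by simpa [dg_succ] using h (i + 1) (by omega)⟩

lemma ev_add : ∀ {n A B a b : ℕ} (v : ℕ → ℂ), small n A a = true → small n B b = true →
    A + B < 16 → ev n v (a + b) = ev n v a * ev n v b ∧ small n (A + B) (a + b) = true := by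
  intro n
  induction n with
  | zero => simp [ev, small]
  | succ n ih =>
    intro A B a b v ha hb hAB
    simp only [small, Bool.and_eq_true, Nat.ble_eq] at ha hb ⊢
    have hm : (a + b) % 16 = a % 16 + b % 16 := by omega
    have hd : (a + b) / 16 = a / 16 + b / 16 := by omega
    obtain ⟨h1, h2⟩ := ih (fun i => v (i + 1)) ha.2 hb.2 hAB
    refine ⟨?_, by omega, by rw [hd]; exact h2⟩
    simp only [ev, hm, hd, h1, pow_add]
    ring

lemma ev_zero : ∀ (n : ℕ) (v : ℕ → ℂ), ev n v 0 = 1 := by
  intro n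
  induction n with
  | zero => simp [ev]
  | succ n ih => intro v; simp [ev, ih]

lemma small_zero (n B : ℕ) : small n B 0 = true := small_iff.2 (by simp [dg])

lemma small_mono {n A B c : ℕ} (h : small n A c = true) (hAB : A ≤ B) : small n B c = true :=
  small_iff.2 fun i hi => (small_iff.1 h i hi).trans hAB

lemma ev_unit : ∀ {n i : ℕ} (v : ℕ → ℂ), i < n →
    ev n v (16 ^ i) = v i ∧ small n 1 (16 ^ i) = true := by
  intro n
  induction n with
  | zero => simp
  | succ n ih =>
    intro i v hi
    rcases i with _ | i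
    · simp [ev, small, ev_zero, small_zero]
    · obtain ⟨h1, h2⟩ := ih (fun j => v (j + 1)) (by omega : i < n)
      have hm : 16 ^ (i + 1) % 16 = 0 := by simp [pow_succ]
      have hd : 16 ^ (i + 1) / 16 = 16 ^ i := by simp [pow_succ]
      simp [ev, small, hm, hd, h1, h2]

lemma ev_split : ∀ (m n : ℕ) (v : ℕ → ℂ) (c : ℕ),
    ev (m + n) v c = ev m v c * ev n (fun i => v (i + m)) (c / 16 ^ m) := by
  intro m
  induction m with
  | zero => simp [ev]
  | succ m ih =>
    intro n v c
    rw [Nat.succ_add]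
    simp only [ev]
    rw [ih, Nat.div_div_eq_div_mul, ← pow_succ', ← mul_assoc]
    simp only [Nat.add_assoc]

lemma ev_mod : ∀ {n : ℕ} (v : ℕ → ℂ) (c : ℕ), ev n v (c % 16 ^ n) = ev n v c := by
  intro n
  induction n with
  | zero => simp [ev]
  | succ n ih =>
    intro v c
    simp only [ev]
    have h1 : c % 16 ^ (n + 1) % 16 = c % 16 :=
      Nat.mod_mod_of_dvd c (dvd_pow_self 16 n.succ_ne_zero)
    have h2 : c % 16 ^ (n + 1) / 16 = c / 16 % 16 ^ n := by
      rw [pow_succ', Nat.mod_mul_right_div_self]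
    rw [h1, h2, ih]

lemma ev_conj : ∀ {n : ℕ} {v w : ℕ → ℂ} (c : ℕ), (∀ i < n, w i = conj (v i)) →
    ev n w c = conj (ev n v c) := by
  intro n
  induction n with
  | zero => simp [ev]
  | succ n ih =>
    intro v w c h
    simp only [ev, map_mul, map_pow]
    rw [h 0 (by omega), ih (v := fun i => v (i + 1)) (c / 16) fun i hi => h (i + 1) (by omega)]

lemma ev_cjc {K : ℕ} {v : ℕ → ℂ} (hv : ∀ i < K, v (K + i) = conj (v i)) (c : ℕ) :
    ev (K + K) v (cjc K c) = conj (ev (K + K) v c) := by
  have hlo : ev K v (cjc K c) = ev K v (c / 16 ^ K) := by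
    rw [← ev_mod v (cjc K c), cjc, Nat.mul_add_mod_self_right, Nat.mod_mod, ev_mod]
  have hhi : cjc K c / 16 ^ K = c % 16 ^ K := by
    rw [cjc, add_comm, Nat.add_mul_div_right _ _ (by positivity),
      Nat.div_eq_of_lt (Nat.mod_lt _ (by positivity)), zero_add]
  rw [ev_split, ev_split, hlo, hhi, ev_mod, map_mul]
  have h1 : ∀ i < K, (fun i => v (i + K)) i = conj (v i) := fun i hi => by
    simpa [add_comm] using hv i hi
  rw [ev_conj (v := v) c h1, ev_conj (v := v) (c / 16 ^ K) h1, Complex.conj_conj]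
  ring

lemma small_cjc {K B c : ℕ} (h : small (K + K) B c = true) :
    small (K + K) B (cjc K c) = true := by
  rw [small_iff] at h ⊢
  have key : ∀ a, ∀ i < K, dg (a % 16 ^ K) i = dg a i := by
    intro a i hi
    unfold dg
    rw [show 16 ^ K = 16 ^ i * 16 ^ (K - i) by rw [← pow_add]; congr 1; omega,
      Nat.mod_mul_right_div_self,
      Nat.mod_mod_of_dvd _ (dvd_pow_self 16 (by omega : K - i ≠ 0))]
  have key2 : ∀ a i, dg a (K + i) = dg (a / 16 ^ K) i := by
    intro a i
    simp [dg, pow_add, Nat.div_div_eq_div_mul]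
  have hhi : cjc K c / 16 ^ K = c % 16 ^ K := by
    rw [cjc, add_comm, Nat.add_mul_div_right _ _ (by positivity),
      Nat.div_eq_of_lt (Nat.mod_lt _ (by positivity)), zero_add]
  intro i hi
  rcases lt_or_ge i K with hiK | hiK
  · rw [← key _ i hiK, cjc, Nat.mul_add_mod_self_right, Nat.mod_mod, key _ i hiK, ← key2]
    exact h _ (by omega)
  · obtain ⟨j, rfl⟩ := Nat.exists_eq_add_of_le hiK
    rw [key2, hhi, key _ j (by omega)]
    exact h _ (by omega)

lemma norm_ev_le : ∀ {n : ℕ} {v : ℕ → ℂ} {b : ℕ → ℝ} (c : ℕ), (∀ i < n, ‖v i‖ ≤ b i) →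
    ‖ev n v c‖ ≤ ∏ i ∈ range n, b i ^ dg c i := by
  intro n
  induction n with
  | zero => simp [ev]
  | succ n ih =>
    intro v b c h
    simp only [ev, norm_mul, norm_pow]
    rw [prod_range_succ', mul_comm]
    simp only [dg_succ, dg_zero]
    refine mul_le_mul (ih _ fun i hi => h (i + 1) (by omega))
      (pow_le_pow_left₀ (norm_nonneg _) (h 0 (by omega)) _) (by positivity) ?_
    exact prod_nonneg fun i hi => pow_nonneg
      ((norm_nonneg _).trans (h (i + 1) (by simp at hi; omega))) _

/-- The product rule for monomials. -/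
lemma hasDerivAt_ev : ∀ {n : ℕ} {v : ℝ → ℕ → ℂ} {dv : ℕ → ℂ} {t : ℝ} (c : ℕ),
    (∀ i < n, HasDerivAt (fun s => v s i) (dv i) t) →
    HasDerivAt (fun s => ev n (v s) c)
      (∑ i ∈ range n, (dg c i : ℂ) * ev n (v t) (c - 16 ^ i) * dv i) t := by
  intro n
  induction n with
  | zero => simp [ev, hasDerivAt_const]
  | succ n ih =>
    intro v dv t c h
    have h0 := (h 0 (by omega)).fun_pow (c % 16)
    have h1 := ih (v := fun s i => v s (i + 1)) (c / 16) fun i hi => h (i + 1) (by omega)
    have := h0.fun_mul h1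
    simp only [ev]
    refine this.congr_deriv ?_
    rw [sum_range_succ', mul_sum]
    simp only [dg_succ, dg_zero]
    have e0 : (↑(c % 16) * v t 0 ^ (c % 16 - 1) * dv 0) * ev n (fun i => v t (i + 1)) (c / 16)
        = ↑(c % 16) * (v t 0 ^ ((c - 16 ^ 0) % 16) *
          ev n (fun i => v t (i + 1)) ((c - 16 ^ 0) / 16)) * dv 0 := by
      rcases Nat.eq_zero_or_pos (c % 16) with h | h
      · simp [h]
      · rw [show (c - 16 ^ 0) % 16 = c % 16 - 1 by simp; omega,
          show (c - 16 ^ 0) / 16 = c / 16 by simp; omega]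
        ring
    rw [e0, add_comm]
    congr 1
    refine sum_congr rfl fun i hi => ?_
    rcases Nat.eq_zero_or_pos (dg (c / 16) i) with h | h
    · simp [h]
    · have hge : 16 ^ i ≤ c / 16 := by
        by_contra hlt
        push Not at hlt
        simp [dg, Nat.div_eq_of_lt hlt] at h
      have hge' : 16 ^ (i + 1) ≤ c := by
        rw [pow_succ]
        exact (Nat.le_div_iff_mul_le (by norm_num)).1 hge
      rw [show (c - 16 ^ (i + 1)) % 16 = c % 16 by rw [pow_succ] at hge' ⊢; omega,
        show (c - 16 ^ (i + 1)) / 16 = c / 16 - 16 ^ i by rw [pow_succ] at hge' ⊢; omega]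
      ring

end Vale.Agent.P142b
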