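import Vale.Agent.P142b.Cert

/-!
Equality of real parts of term lists, certified by one packed integer per segment of the code table.
-/

noncomputable section

open Finset
open scoped ComplexConjugate

namespace Vale.Agent.P142b

/-- Entry `i` of a packed table of codes. -/
def tabAt (tab i : ℕ) : ℕ := Nat.shiftRight tab (80 * i) % 2 ^ 80

/-- Entry `i` of a table cut in packed segments of length `L`. -/
def tabIx (L : ℕ) (tabs : List ℕ) (i : ℕ) : ℕ := tabAt (tabs.getD (i / L) 0) (i % L)

/-- Validity of one index. -/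
def idxOk (K L : ℕ) (tabs : List ℕ) (len code i : ℕ) : Bool :=
  Nat.blt i len && (Nat.beq (tabIx L tabs i) code || Nat.beq (tabIx L tabs i) (cjc K code))

/-- Validity of a row of terms against the indices claimed for them. -/
def rowOk (K L : ℕ) (tabs : List ℕ) (len : ℕ) : Tms → List ℕ → Bool
  | [], [] => true
  | t :: l, i :: m =>
      Nat.blt t.2.natAbs (2 ^ 140) && idxOk K L tabs len t.1 i && rowOk K L tabs len l m
  | _, _ => false

/-- The weight of index `i` in segment `s`. -/
def wgt (L s i : ℕ) : ℕ := bif Nat.beq (i / L) s then 2 ^ (168 * (i % L)) else 0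

/-- The packed value of a row in segment `s`. -/
def rowVal (L s : ℕ) : Tms → List ℕ → ℤ
  | t :: l, i :: m =>
      bif Nat.beq (i / L) s then t.2 * Int.ofNat (2 ^ (168 * (i % L))) + rowVal L s l m
      else rowVal L s l m
  | _, _ => 0

lemma rowVal_cons (L s : ℕ) (t : ℕ × ℤ) (l : Tms) (i : ℕ) (m : List ℕ) :
    rowVal L s (t :: l) (i :: m) = t.2 * (wgt L s i : ℤ) + rowVal L s l m := by
  rw [rowVal, wgt]
  cases Nat.beq (i / L) s <;> simp

/-- Validity of all rows. -/
def allOk (K L : ℕ) (tabs : List ℕ) (len : ℕ) : List Tms → List (List ℕ) → Bool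
  | [], [] => true
  | r :: R, s :: S => rowOk K L tabs len r s && allOk K L tabs len R S
  | _, _ => false

/-- The packed value of all rows in segment `s`. -/
def allVal (L s : ℕ) : List Tms → List (List ℕ) → ℤ
  | r :: R, i :: S => rowVal L s r i + allVal L s R S
  | _, _ => 0

/-- The number of indices. -/
def sumLen : List (List ℕ) → ℕ
  | [] => 0
  | s :: S => s.length + sumLen S

/-- A bound for the sum of the residual terms of one segment. -/
def resBound (tab K : ℕ) : ℕ → List ℤ → ℕ
  | _, [] => 0
  | i, a :: l =>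
      a.natAbs * 2 ^ ((tabAt tab i % 16) + (tabAt tab i / 16 ^ K % 16)) + resBound tab K (i + 1) l

/-- A bound for the sum of all residual terms. -/
def segBound (tabs : List ℕ) (K : ℕ) : ℕ → List (List ℤ) → ℕ
  | _, [] => 0
  | s, r :: R => resBound (tabs.getD s 0) K 0 r + segBound tabs K (s + 1) R

/-- The residual bounds stay below the digit width. -/
def resOk : List ℤ → Bool
  | [] => true
  | a :: l => Nat.blt a.natAbs (2 ^ 166) && resOk l

/-- All segments of the residual are well formed. -/
def segsOk (L : ℕ) (res : List (List ℤ)) : Bool :=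
  res.all fun r => Nat.ble r.length L && resOk r

/-- The certified identity `rows = residual`, and a bound for the residual. -/
def SysGood (K L : ℕ) (tabs : List ℕ) (rows : List Tms) (idx : List (List ℕ)) (res : List (List ℤ))
    (bd : ℕ) : Prop :=
  allOk K L tabs (L * res.length) rows idx = true ∧ sumLen idx < 2 ^ 26 ∧ segsOk L res = true ∧
    (∀ s < res.length, allVal L s rows idx = pkZ (res.getD s [])) ∧ segBound tabs K 0 res ≤ bd

lemma resOk_lt : ∀ {l : List ℤ}, resOk l = true → ∀ i, |l.getD i 0| < 2 ^ 166 := by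
  intro l
  induction l with
  | nil => intro _ i; simp
  | cons a l ih =>
    intro h i
    simp only [resOk, Bool.and_eq_true, Nat.blt_eq] at h
    rcases i with _ | i
    · rw [List.getD_cons_zero, Int.abs_eq_natAbs]; exact_mod_cast h.1
    · simpa using ih h.2 i

lemma resBound_eq : ∀ (tab K : ℕ) (l : List ℤ) (i : ℕ), resBound tab K i l =
    ∑ j ∈ range l.length, (l.getD j 0).natAbs *
      2 ^ (tabAt tab (i + j) % 16 + tabAt tab (i + j) / 16 ^ K % 16) := by
  intro tab K l
  induction l with
  | nil => intro i; simp [resBound]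
  | cons a l ih =>
    intro i
    rw [resBound, List.length_cons, sum_range_succ', ih, add_comm]
    congr 1
    · refine sum_congr rfl fun j _ => ?_
      rw [List.getD_cons_succ, show i + 1 + j = i + (j + 1) by omega]

lemma segBound_eq : ∀ (tabs : List ℕ) (K : ℕ) (R : List (List ℤ)) (s : ℕ), segBound tabs K s R =
    ∑ t ∈ range R.length, resBound (tabs.getD (s + t) 0) K 0 (R.getD t []) := by
  intro tabs K R
  induction R with
  | nil => intro s; simp [segBound]
  | cons r R ih =>
    intro s
    rw [segBound, List.length_cons, sum_range_succ', ih, add_comm]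
    congr 1
    · refine sum_congr rfl fun t _ => ?_
      rw [List.getD_cons_succ, show s + 1 + t = s + (t + 1) by omega]

lemma rows_decomp {K L : ℕ} {tabs : List ℕ} {len : ℕ} {v : ℕ → ℂ}
    (hv : ∀ i < K, v (K + i) = conj (v i)) :
    ∀ (R : List Tms) (S : List (List ℕ)), allOk K L tabs len R S = true →
    ∃ g : ℕ → ℤ, (∀ i, |g i| ≤ sumLen S * 2 ^ 140) ∧
      (∀ s, allVal L s R S = ∑ i ∈ range len, g i * (wgt L s i : ℤ)) ∧
      (R.map fun r => (evT (K + K) v r).re).sum =
        ∑ i ∈ range len, (g i : ℝ) * (ev (K + K) v (tabIx L tabs i)).re := by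
  have hrow : ∀ (r : Tms) (t : List ℕ), rowOk K L tabs len r t = true →
      ∃ g : ℕ → ℤ, (∀ i, |g i| ≤ t.length * 2 ^ 140) ∧
        (∀ s, rowVal L s r t = ∑ i ∈ range len, g i * (wgt L s i : ℤ)) ∧
        (evT (K + K) v r).re =
          ∑ i ∈ range len, (g i : ℝ) * (ev (K + K) v (tabIx L tabs i)).re := by
    intro r
    induction r with
    | nil =>
      intro t h
      rcases t with _ | ⟨_, _⟩
      · exact ⟨0, by simp, by simp [rowVal], by simp⟩
      · simp [rowOk] at h
    | cons t r ih =>
      intro u h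
      rcases u with _ | ⟨i, u⟩
      · simp [rowOk] at h
      simp only [rowOk, idxOk, Bool.and_eq_true, Bool.or_eq_true, Nat.blt_eq] at h
      obtain ⟨⟨hc, hi, hcode⟩, hrest⟩ := h
      obtain ⟨g, hg, hval, hre⟩ := ih u hrest
      have hre' : (ev (K + K) v (tabIx L tabs i)).re = (ev (K + K) v t.1).re := by
        rcases hcode with e | e
        · rw [Nat.eq_of_beq_eq_true e]
        · rw [Nat.eq_of_beq_eq_true e, ev_cjc hv, Complex.conj_re]
      have hc' : |t.2| ≤ (2 : ℤ) ^ 140 := by rw [Int.abs_eq_natAbs]; exact_mod_cast hc.le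
      refine ⟨fun j => g j + if j = i then t.2 else 0, fun j => ?_, fun s => ?_, ?_⟩
      · refine (abs_add_le _ _).trans ?_
        rw [List.length_cons]
        push_cast
        have h1 := hg j
        have h2 : |if j = i then t.2 else 0| ≤ (2 : ℤ) ^ 140 := by
          split_ifs
          · exact hc'
          · simp
        linarith
      · simp only [rowVal_cons, hval, add_mul, ite_mul, zero_mul, sum_add_distrib, sum_ite_eq',
          mem_range, hi, if_true]
        ring
      · simp only [evT_cons, Complex.add_re, hre, Int.cast_add, Int.cast_ite, Int.cast_zero,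
          add_mul, ite_mul, zero_mul, sum_add_distrib, sum_ite_eq', mem_range, hi, if_true, hre']
        simp
        ring
  intro R
  induction R with
  | nil =>
    intro S h
    rcases S with _ | ⟨_, _⟩
    · exact ⟨0, by simp, by simp [allVal], by simp⟩
    · simp [allOk] at h
  | cons r R ih =>
    intro S h
    rcases S with _ | ⟨t, S⟩
    · simp [allOk] at h
    simp only [allOk, Bool.and_eq_true] at h
    obtain ⟨g1, a1, b1, c1⟩ := hrow r t h.1
    obtain ⟨g2, a2, b2, c2⟩ := ih S h.2
    refine ⟨g1 + g2, fun i => ?_, fun s => ?_, ?_⟩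
    · refine (abs_add_le _ _).trans ?_
      rw [sumLen]
      push_cast
      linarith [a1 i, a2 i]
    · rw [allVal, b1, b2, ← sum_add_distrib]
      exact sum_congr rfl fun i _ => by simp [add_mul]
    · rw [List.map_cons, List.sum_cons, c1, c2, ← sum_add_distrib]
      exact sum_congr rfl fun i _ => by simp [add_mul]

lemma sum_range_mul' {M : Type} [AddCommMonoid M] (L : ℕ) (f : ℕ → M) : ∀ S : ℕ,
    ∑ i ∈ range (L * S), f i = ∑ s ∈ range S, ∑ r ∈ range L, f (L * s + r) := by
  intro S
  induction S with
  | zero => simp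
  | succ S ih => rw [Nat.mul_succ, sum_range_add, sum_range_succ, ih]

lemma wgt_at {L s t r : ℕ} (hr : r < L) :
    wgt L s (L * t + r) = if t = s then 2 ^ (168 * r) else 0 := by
  have h1 : (L * t + r) / L = t := by
    rw [Nat.mul_add_div (by omega), Nat.div_eq_of_lt hr, add_zero]
  have h2 : (L * t + r) % L = r := by rw [Nat.mul_add_mod, Nat.mod_eq_of_lt hr]
  rw [wgt, h1, h2]
  by_cases h : t = s
  · subst h; simp
  · rw [beq_false' h, if_neg h]; rfl

lemma extend_getD (l : List ℤ) {L : ℕ} (h : l.length ≤ L) {M : Type} [AddCommMonoid M]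
    (F : ℕ → ℤ → M) (hF : ∀ j, F j 0 = 0) :
    ∑ j ∈ range l.length, F j (l.getD j 0) = ∑ j ∈ range L, F j (l.getD j 0) := by
  refine sum_subset (fun j hj => ?_) fun j hj hjn => ?_
  · simp only [mem_range] at hj ⊢; omega
  · simp only [mem_range, not_lt] at hjn
    rw [List.getD_eq_default _ _ hjn, hF]

/-- The certificate bounds the real part of the sum of all rows. -/
theorem sys_sound {K L bd : ℕ} {tabs : List ℕ} {rows : List Tms} {idx : List (List ℕ)}
    {res : List (List ℤ)} (h : SysGood K L tabs rows idx res bd) {v : ℕ → ℂ}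
    (hv : ∀ i < K, v (K + i) = conj (v i)) (hK : 1 ≤ K) (h0 : ‖v 0‖ ≤ 2)
    (h1 : ∀ i, 1 ≤ i → i < K → ‖v i‖ ≤ 1) :
    |(rows.map fun r => (evT (K + K) v r).re).sum| ≤ bd := by
  obtain ⟨hok, hlen, hres, hval, hbd⟩ := h
  obtain ⟨g, hg, hgv, hgr⟩ := rows_decomp hv rows idx hok
  have hseg : ∀ s < res.length, (res.getD s []).length ≤ L ∧ resOk (res.getD s []) = true := by
    intro s hs
    simp only [segsOk, List.all_eq_true, Bool.and_eq_true, Nat.ble_eq] at hres
    rw [List.getD_eq_getElem _ _ hs]
    exact hres _ (List.getElem_mem _)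
  have hd : ∀ s < res.length, ∀ r < L, g (L * s + r) = (res.getD s []).getD r 0 := by
    intro s hs r hr
    have h := hval s hs
    rw [hgv, sum_range_mul', sum_eq_single_of_mem s (mem_range.2 hs) (fun t _ ht =>
        sum_eq_zero fun r hr => by simp [wgt_at (mem_range.1 hr), ht]),
      pkZ_eq, extend_getD _ (hseg s hs).1 (fun j a => a * 2 ^ (168 * j)) (by simp)] at h
    refine sub_eq_zero.1 (digits_zero L (fun r => g (L * s + r) - (res.getD s []).getD r 0)
      (fun i _ => ?_) ?_ r hr)
    · refine lt_of_le_of_lt (abs_sub _ _) ?_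
      have h1 : (sumLen idx : ℤ) < 2 ^ 26 := by exact_mod_cast hlen
      have h2 := hg (L * s + i)
      have h3 := resOk_lt (hseg s hs).2 i
      have h4 : (sumLen idx : ℤ) * 2 ^ 140 ≤ 2 ^ 26 * 2 ^ 140 :=
        mul_le_mul_of_nonneg_right h1.le (by positivity)
      linarith
    · simp only [sub_mul, sum_sub_distrib]
      rw [sub_eq_zero, ← h]
      exact sum_congr rfl fun r hr => by simp [wgt_at (mem_range.1 hr)]
  rw [hgr, sum_range_mul']
  refine (abs_sum_le_sum_abs _ _).trans ?_
  have hbd' : (segBound tabs K 0 res : ℝ) ≤ bd := by exact_mod_cast hbd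
  refine le_trans ?_ hbd'
  rw [segBound_eq]
  push_cast
  refine sum_le_sum fun s hs => ?_
  rw [mem_range] at hs
  refine (abs_sum_le_sum_abs _ _).trans ?_
  rw [resBound_eq, zero_add, extend_getD _ (hseg s hs).1 (fun j a => a.natAbs *
      2 ^ (tabAt (tabs.getD s 0) (0 + j) % 16 + tabAt (tabs.getD s 0) (0 + j) / 16 ^ K % 16))
      (by simp)]
  push_cast
  refine sum_le_sum fun i hi => ?_
  rw [mem_range] at hi
  have hT : tabIx L tabs (L * s + i) = tabAt (tabs.getD s 0) i := by
    rw [tabIx, Nat.mul_add_div (by omega), Nat.div_eq_of_lt hi, add_zero, Nat.mul_add_mod,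
      Nat.mod_eq_of_lt hi]
  rw [abs_mul, zero_add, hd s hs i hi, hT]
  refine mul_le_mul (le_of_eq (by norm_num [Int.cast_natCast, Nat.cast_natAbs]))
    ((Complex.abs_re_le_norm _).trans ?_) (abs_nonneg _) (by positivity)
  refine (norm_ev_le (b := fun j => if j = 0 ∨ j = K then 2 else 1) _ fun j hj => ?_).trans
    (le_of_eq ?_)
  · rcases lt_or_ge j K with hjK | hjK
    · by_cases hj0 : j = 0
      · simp [hj0, h0]
      · rw [if_neg (by omega)]
        exact h1 j (by omega) hjK
    · obtain ⟨m, rfl⟩ := Nat.exists_eq_add_of_le hjK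
      rw [hv m (by omega), RCLike.norm_conj]
      by_cases hm : m = 0
      · simp [hm, h0]
      · rw [if_neg (by omega)]
        exact h1 m (by omega) (by omega)
  · have e : ∀ j ∈ range (K + K), (fun j => (if j = 0 ∨ j = K then (2 : ℝ) else 1)) j ^ dg (tabAt (tabs.getD s 0) i) j
        = if j ∈ ({0, K} : Finset ℕ) then (2 : ℝ) ^ dg (tabAt (tabs.getD s 0) i) j else 1 := by
      intro j _
      by_cases hj : j = 0 ∨ j = K <;> simp [hj]
    rw [prod_congr rfl e, prod_ite_mem, inter_eq_right.2 (by
      intro j; simp; omega), prod_pair (by omega), dg_zero, dg, pow_add]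

end Vale.Agent.P142b
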